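import Crest.Agent.R153.Press
import Crest.Agent.Lib.RatPrim.FunProp

/-!
Row 153, part (CL): the ground-state energy of finite systems is computable.
-/

set_option autoImplicit false

namespace Crest.Agent.R153

open Finset Crest.Agent.RatPrim
open scoped BigOperators

namespace CL

lemma digit_val {b m : ℕ} (c : Fin (b ^ m)) (j : Fin m) :
    (finFunctionFinEquiv.symm c j : ℕ) = c / b ^ (j : ℕ) % b := rfl

lemma sum_digits (b m : ℕ) (G : (Fin m → ℕ) → ℕ) :
    ∑ x : Fin m → Fin b, G (fun j => x j) = ∑ c ∈ range (b ^ m), G (fun j => c / b ^ (j : ℕ) % b) := by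
  rw [← finFunctionFinEquiv.symm.sum_comp, ← Fin.sum_univ_eq_sum_range
    (fun c => G (fun j => c / b ^ (j : ℕ) % b))]
  rfl

lemma prod_digits (b m : ℕ) (G : (Fin m → ℕ) → ℕ) :
    ∏ x : Fin m → Fin b, G (fun j => x j) = ∏ c ∈ range (b ^ m), G (fun j => c / b ^ (j : ℕ) % b) := by
  rw [← finFunctionFinEquiv.symm.prod_comp, ← Fin.prod_univ_eq_prod_range
    (fun c => G (fun j => c / b ^ (j : ℕ) % b))]
  rfl

/-- double digits -/
def dig (b k c j i : ℕ) : ℕ := c / (b ^ k) ^ j % (b ^ k) / b ^ i % b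

lemma sum_digits2 (b k m : ℕ) (G : (Fin m → Fin k → ℕ) → ℕ) :
    ∑ x : Fin m → Fin k → Fin b, G (fun j i => x j i) =
      ∑ c ∈ range ((b ^ k) ^ m), G (fun j i => dig b k c j i) := by
  have := sum_digits (b ^ k) m (fun y => G (fun j i => y j / b ^ (i : ℕ) % b))
  unfold dig
  rw [← this, ← (Equiv.piCongrRight fun _ : Fin m =>
    (finFunctionFinEquiv (m := b) (n := k)).symm).sum_comp]
  rfl

/-- cost, on codes -/
def costN (m c1 c2 N s : ℕ) : ℕ :=
  ∑ j ∈ range m, ∏ i ∈ range 3, cond (Nat.beq (s / 2 ^ (dig N 3 c1 j i) % 2) (dig 2 3 c2 j i)) 0 1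

/-- ground-state energy, on codes -/
def eminN (m c1 c2 N : ℕ) : ℕ :=
  ∑ t ∈ range m, ∏ s ∈ range (2 ^ N), cond (Nat.ble (t + 1) (costN m c1 c2 N s)) 1 0

/-- the total ground-state energy -/
def FF (p : ℕ × ℕ) : ℕ :=
  ∑ c1 ∈ range ((p.1 ^ 3) ^ p.2), ∑ c2 ∈ range ((2 ^ 3) ^ p.2), eminN p.2 c1 c2 p.1

section
attribute [local irreducible] Primrec
variable {α : Type} [Primcodable α]

@[fun_prop] theorem dig_pr {b k c j i : α → ℕ} (hb : Primrec b) (hk : Primrec k) (hc : Primrec c)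
    (hj : Primrec j) (hi : Primrec i) : Primrec fun x => dig (b x) (k x) (c x) (j x) (i x) := by
  unfold dig; fun_prop

@[fun_prop] theorem costN_pr {b k c j i : α → ℕ} (hb : Primrec b) (hk : Primrec k)
    (hc : Primrec c) (hj : Primrec j) (hi : Primrec i) :
    Primrec fun x => costN (b x) (k x) (c x) (j x) (i x) := by
  unfold costN; fun_prop

@[fun_prop] theorem eminN_pr {b k c j : α → ℕ} (hb : Primrec b) (hk : Primrec k)
    (hc : Primrec c) (hj : Primrec j) : Primrec fun x => eminN (b x) (k x) (c x) (j x) := by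
  unfold eminN; fun_prop

theorem FF_pr : Primrec FF := by
  unfold FF; fun_prop

end

/-- ground-state energy from natural-number data -/
def E (m N : ℕ) (v g : Fin m → Fin 3 → ℕ) : ℕ :=
  ∑ t ∈ range m, ∏ s ∈ range (2 ^ N), cond (Nat.ble (t + 1)
    (∑ j : Fin m, ∏ i : Fin 3, cond (Nat.beq (s / 2 ^ (v j i) % 2) (g j i)) 0 1)) 1 0

lemma E_dig (m c1 c2 N : ℕ) :
    E m N (fun j i => dig N 3 c1 j i) (fun j i => dig 2 3 c2 j i) = eminN m c1 c2 N := by
  unfold E eminN costN
  refine sum_congr rfl fun t _ => prod_congr rfl fun s _ => ?_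
  rw [← Fin.sum_univ_eq_sum_range (fun j => ∏ i ∈ range 3,
    cond (Nat.beq (s / 2 ^ (dig N 3 c1 j i) % 2) (dig 2 3 c2 j i)) 0 1)]
  congr 2

lemma cost_le {k m : ℕ} {V : Type} (F : Fin m → Cl k V) (σ : V → Bool) : cost F σ ≤ m := by
  unfold cost
  exact (card_filter_le _ _).trans (by simp)

lemma emin_eq_sum {m N : ℕ} (F : Fin m → Cl 3 (Fin N)) :
    emin F = ∑ t ∈ range m, ∏ σ : Fin N → Bool, cond (Nat.ble (t + 1) (cost F σ)) 1 0 := by
  obtain ⟨σ₀, h₀⟩ := Pr.exists_emin F
  have hm : emin F ≤ m := h₀ ▸ cost_le F σ₀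
  have e : ∀ t, (∏ σ : Fin N → Bool, cond (Nat.ble (t + 1) (cost F σ)) 1 0 : ℕ) =
      if t < emin F then 1 else 0 := by
    intro t
    split_ifs with h
    · refine prod_eq_one fun σ _ => ?_
      have : Nat.ble (t + 1) (cost F σ) = true := Nat.ble_eq_true_of_le (h.trans_le (Pr.emin_le F σ))
      rw [this]; rfl
    · refine prod_eq_zero (mem_univ σ₀) ?_
      have : Nat.ble (t + 1) (cost F σ₀) = false := by
        rw [Bool.eq_false_iff]
        intro h'
        have := Nat.le_of_ble_eq_true h'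
        omega
      rw [this]; rfl
  simp only [e]
  rw [← card_filter]
  have : (range m).filter (fun t => t < emin F) = range (emin F) := by
    ext t
    simp only [mem_filter, mem_range]
    omega
  rw [this, card_range]

lemma E_eq (m N : ℕ) (v : Fin m → Fin 3 → Fin N) (g : Fin m → Fin 3 → Fin 2) :
    E m N (fun j i => v j i) (fun j i => g j i) =
      emin (fun j => (v j, fun i => finTwoEquiv (g j i)) : Fin m → Cl 3 (Fin N)) := by
  rw [emin_eq_sum]
  unfold E
  refine sum_congr rfl fun t _ => ?_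
  rw [← prod_digits 2 N (fun y => cond (Nat.ble (t + 1)
    (∑ j : Fin m, ∏ i : Fin 3, cond (Nat.beq (y (v j i)) (g j i)) 0 1)) 1 0),
    ← (Equiv.piCongrRight fun _ : Fin N => finTwoEquiv).prod_comp]
  refine prod_congr rfl fun x _ => ?_
  congr 2
  rw [Pr.cost_eq_sum]
  refine sum_congr rfl fun j _ => ?_
  have key : ∀ a b : Fin 2, (cond (Nat.beq a b) 0 1 : ℕ) =
      if finTwoEquiv a ≠ finTwoEquiv b then 1 else 0 := by decide
  simp only [key, Equiv.piCongrRight_apply, Pi.map_apply]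
  rw [prod_boole]
  simp

/-- reorganisation of a formula -/
def eqv (m N : ℕ) :
    (Fin m → Fin 3 → Fin N) × (Fin m → Fin 3 → Fin 2) ≃ (Fin m → Cl 3 (Fin N)) where
  toFun p := fun j => (p.1 j, fun i => finTwoEquiv (p.2 j i))
  invFun F := (fun j => (F j).1, fun j i => finTwoEquiv.symm ((F j).2 i))
  left_inv p := by simp
  right_inv F := by simp

lemma FF_eq (N m : ℕ) : FF (N, m) = ∑ F : Fin m → Cl 3 (Fin N), emin F := by
  rw [← (eqv m N).sum_comp, Fintype.sum_prod_type]
  unfold FF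
  simp only [← E_dig]
  rw [← sum_digits2 N 3 m (fun v => ∑ c2 ∈ range ((2 ^ 3) ^ m),
    E m N v (fun j i => dig 2 3 c2 j i))]
  refine sum_congr rfl fun v _ => ?_
  rw [← sum_digits2 2 3 m (fun g => E m N (fun j i => v j i) g)]
  exact sum_congr rfl fun g _ => E_eq m N v g

end CL

theorem partCL : PartCL := by
  refine ⟨CL.FF, CL.FF_pr.to_comp, fun N m => ?_⟩
  rw [CL.FF_eq, RR, Nat.cast_sum, ← Fintype.card_mul_expect]
  congr 1
  simp only [Fintype.card_fun, Fintype.card_prod, Fintype.card_fin, Fintype.card_bool]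
  push_cast
  ring

end Crest.Agent.R153
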