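import Crest.Agent.R153.CU4

/-! Row 153, part CU: negativity of the cavity functional is recursively enumerable. -/

set_option autoImplicit false

namespace Crest.Agent.R153.CU

open Finset Filter Topology Crest.Agent.R141 Crest.Agent.R141.Up Crest.ProbabilityR.Diluted
  Crest.Agent.RatPrim

/-- Bits. -/
def eB : Bool ≃ Fin 2 := finTwoEquiv.symm

theorem eB_false : (eB false : ℕ) = 0 := rfl
theorem eB_true : (eB true : ℕ) = 1 := rfl

theorem nrm_le_one (t : List ℕ) (a d i : ℕ) {n j : ℕ} (hj : j < n) : nrm t a d i n j ≤ 1 := by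
  rw [← nrm_sum t a d i (Nat.zero_lt_of_lt hj)]
  exact single_le_sum (fun j _ => nrm_nonneg t a d i n j) (mem_range.mpr hj)

section codes
variable {S : Type} {n : ℕ} (eS : S ≃ Fin n) (hn : 0 < n)

theorem edgeQ_cast (b : ℚ) (t : List ℕ) (g c : ℕ) :
    (edgeQ b t n g c : ℝ) = 1 - b * ∏ l : Fin 3,
      (nrm t 2 0 (eS (dec eS (Equiv.refl (Fin 3)) hn c l)) 2
        (eB (dec eB (Equiv.refl (Fin 3)) two_pos g l)) : ℝ) := by
  simp only [eS_dec, Equiv.refl_apply]
  unfold edgeQ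
  push_cast
  rw [Finset.prod_range]

theorem siteQ_cast (b : ℚ) (t : List ℕ) (k g c : ℕ) :
    (siteQ b t n k g c : ℝ) = (1 / 2) * ∑ ε : Bool, ∏ j : Fin k,
      (1 - b * ((if ε = dec eB (finProdFinEquiv (m := k) (n := 3)) two_pos g (j, 2) then 0 else 1) *
        ∏ l : Fin 2, (nrm t 2 0 (eS (dec eS (finProdFinEquiv (m := k) (n := 2)) hn c (j, l))) 2
          (eB (dec eB (finProdFinEquiv (m := k) (n := 3)) two_pos g (j, l.castSucc))) : ℝ))) := by
  have h : ∀ (ε : Bool) (j : Fin k),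
      (if ε = dec eB (finProdFinEquiv (m := k) (n := 3)) two_pos g (j, 2) then (0 : ℝ) else 1) =
        ((cond (Nat.beq (eB ε) (dig 2 g (2 + 3 * j))) 0 1 : ℚ) : ℝ) := by
    intro ε j
    have h1 : dig 2 g (2 + 3 * j) =
        eB (dec eB (finProdFinEquiv (m := k) (n := 3)) two_pos g (j, 2)) := by
      rw [eS_dec]; rfl
    rw [h1]
    generalize dec eB (finProdFinEquiv (m := k) (n := 3)) two_pos g (j, 2) = G
    cases ε <;> cases G <;> simp [eB_false, eB_true, Nat.beq]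
  simp only [eS_dec, h, finProdFinEquiv_apply_val, Fin.val_castSucc]
  unfold siteQ
  rw [Fintype.sum_bool, sum_range_succ, sum_range_one, eB_false, eB_true, add_comm]
  push_cast
  simp only [Finset.prod_range]

theorem edgeQ_nonneg {b : ℚ} (hb1 : b ≤ 1) (t : List ℕ) (n g c : ℕ) :
    0 ≤ edgeQ b t n g c := by
  unfold edgeQ
  refine sub_nonneg.mpr (mul_le_one₀ hb1 (prod_nonneg fun _ _ => nrm_nonneg _ _ _ _ _ _) ?_)
  exact prod_le_one (fun _ _ => nrm_nonneg _ _ _ _ _ _)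
    fun _ _ => nrm_le_one _ _ _ _ (Nat.mod_lt _ two_pos)

theorem siteQ_nonneg {b : ℚ} (hb1 : b ≤ 1) (t : List ℕ) (n k g c : ℕ) :
    0 ≤ siteQ b t n k g c := by
  unfold siteQ
  refine mul_nonneg (by norm_num) (sum_nonneg fun ε _ => prod_nonneg fun j _ => ?_)
  have h0 : 0 ≤ ∏ l ∈ range 2, nrm t 2 0 (dig n c (l + 2 * j)) 2 (dig 2 g (l + 3 * j)) :=
    prod_nonneg fun _ _ => nrm_nonneg _ _ _ _ _ _
  have h1 : ∏ l ∈ range 2, nrm t 2 0 (dig n c (l + 2 * j)) 2 (dig 2 g (l + 3 * j)) ≤ 1 :=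
    prod_le_one (fun _ _ => nrm_nonneg _ _ _ _ _ _)
      fun _ _ => nrm_le_one _ _ _ _ (Nat.mod_lt _ two_pos)
  cases Nat.beq ε (dig 2 g (2 + 3 * j))
  · simp only [cond_false, one_mul]
    exact sub_nonneg.mpr (mul_le_one₀ hb1 h0 h1)
  · simp

end codes

theorem siteA_cast (b : ℚ) (N : ℕ) (t : List ℕ) (n r k : ℕ) :
    (siteA b N t n r k : ℝ) = (1 / 8) ^ k * ∑ g ∈ range (2 ^ (k * 3)),
      (valQ 1 N t n (k * 2) r ((List.range (n ^ (k * 2))).map fun c => siteQ b t n k g c) : ℝ) := by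
  unfold siteA; push_cast; rfl

theorem edgeA_cast (b : ℚ) (N : ℕ) (t : List ℕ) (n r : ℕ) :
    (edgeA b N t n r : ℝ) = (1 / 8) * ∑ g ∈ range (2 ^ 3),
      (valQ 0 N t n 3 r ((List.range (n ^ 3)).map fun c => edgeQ b t n g c) : ℝ) -
        (b : ℝ) ^ (N + 1) / (1 - b) := by
  unfold edgeA; push_cast; rfl

theorem cert_cast (a b : ℚ) (n r K N : ℕ) (t : List ℕ) :
    (cert a b n r K N t : ℝ) = ((-lser N (1 / 2) + (1 / 2) ^ N : ℚ) : ℝ) +
      (rho (a * 3) N : ℝ) * ∑ k ∈ range K, ((a : ℝ) * 3) ^ k / (k.factorial : ℝ) *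
        (siteA b N t n r k : ℝ) - a * 2 * (edgeA b N t n r : ℝ) := by
  unfold cert; push_cast; rfl

section sound
variable (T : FT) {n : ℕ} (eS : T.S ≃ Fin n) (hn : 0 < n) {t : List ℕ} {r N : ℕ}
  {m : Fin r → ℝ} {b : ℚ}

include hn in
theorem genK_le_cert (hN : 0 < N) (hm0 : AdmissibleExponents m) (hb0 : 0 ≤ b) (hb1 : b < 1)
    (hι : ∀ s, T.init s = nrm t 1 0 0 n (eS s))
    (hκ : ∀ d s s', T.κ d s s' = nrm t 0 d (eS s) n (eS s'))
    (hm : ∀ d < r, mrev m d = (ts t 3 0 0 (r - d) : ℝ) / ts t 3 0 0 (r + 1))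
    (hp : ∀ s g, tilt (T.x s) (!g) = nrm t 2 0 (eS s) 2 (eB g)) {a : ℚ} (ha : 0 ≤ a) (K : ℕ) :
    genK a b (T.val m) K ≤ cert a b n r K N t := by
  have hb0' : (0 : ℝ) ≤ b := by exact_mod_cast hb0
  have hb1' : (b : ℝ) < 1 := by exact_mod_cast hb1
  have ha' : (0 : ℝ) ≤ a := by exact_mod_cast ha
  have hS : ∀ k, SA b (T.val m) k ≤ siteA b N t n r k := by
    intro k
    rw [siteA_cast, SA, sum_dec eB finProdFinEquiv two_pos]
    refine mul_le_mul_of_nonneg_left (sum_le_sum fun g _ => ?_) (by positivity)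
    refine val_hi T eS finProdFinEquiv hn hN hm0 hι hκ hm (sW_pos hb0' hb1' _)
      (fun x => (sW_bounds hb0' hb1' _ x).2) fun c hc => ?_
    rw [getD_map _ _ hc, siteQ_cast eS hn, sW]
    simp only [hp]
  have hE : (edgeA b N t n r : ℝ) ≤ EA b (T.val m) := by
    rw [edgeA_cast, EA, sum_dec eB (Equiv.refl (Fin 3)) two_pos]
    have h : ∀ g ∈ range (2 ^ 3),
        (valQ 0 N t n 3 r ((List.range (n ^ 3)).map fun c => edgeQ b t n g c) : ℝ) -
          (b : ℝ) ^ (N + 1) / (1 - b) ≤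
          T.val m (Fin 3) (eW b (dec eB (Equiv.refl (Fin 3)) two_pos g)) := fun g _ => by
      refine val_lo T eS (Equiv.refl (Fin 3)) hn hN hm0 hι hκ hm hb1'
        (fun x => (eW_bounds hb0' _ x).1) (fun x => (eW_bounds hb0' _ x).2) fun c hc => ?_
      rw [getD_map _ _ hc, edgeQ_cast eS hn, eW]
      simp only [hp]
    have h2 := sum_le_sum h
    rw [sum_sub_distrib, sum_const, card_range, nsmul_eq_mul] at h2
    push_cast at h2
    linarith
  rw [cert_cast, genK]
  have h1 := log2_le N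
  have h2 := rho_le (a * 3) N
  have h3 : (0 : ℝ) ≤ rho (a * 3) N := by exact_mod_cast rho_nonneg _ _
  push_cast at h2
  have h4 : ∑ k ∈ range K, ((a : ℝ) * 3) ^ k / (k.factorial : ℝ) * SA b (T.val m) k ≤ 0 :=
    sum_nonpos fun k _ => mul_nonpos_of_nonneg_of_nonpos (by positivity)
      (SA_nonpos T hm0 hb0' hb1' k)
  have h5 : ∑ k ∈ range K, ((a : ℝ) * 3) ^ k / (k.factorial : ℝ) * SA b (T.val m) k ≤
      ∑ k ∈ range K, ((a : ℝ) * 3) ^ k / (k.factorial : ℝ) * (siteA b N t n r k : ℝ) :=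
    sum_le_sum fun k _ => mul_le_mul_of_nonneg_left (hS k) (by positivity)
  have h6 := mul_le_mul_of_nonpos_right h2 h4
  have h7 := mul_le_mul_of_nonneg_left h5 h3
  have h8 := mul_le_mul_of_nonneg_left hE (by positivity : (0 : ℝ) ≤ a * 2)
  linarith

end sound

section complete
variable (T : FT) {n : ℕ} (eS : T.S ≃ Fin n) (hn : 0 < n) {t : ℕ → List ℕ} {r : ℕ}
  {m : Fin r → ℝ} {b : ℚ}

include hn in
theorem cert_tendsto (hm0 : AdmissibleExponents m) (hb0 : 0 ≤ b) (hb1 : b < 1)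
    (hι : ∀ s, Tendsto (fun D => (nrm (t D) 1 0 0 n (eS s) : ℝ)) atTop (𝓝 (T.init s)))
    (hκ : ∀ d s s', Tendsto (fun D => (nrm (t D) 0 d (eS s) n (eS s') : ℝ)) atTop
      (𝓝 (T.κ d s s')))
    (hm : ∀ d < r, Tendsto (fun D => (ts (t D) 3 0 0 (r - d) : ℝ) / ts (t D) 3 0 0 (r + 1)) atTop
      (𝓝 (mrev m d)))
    (hp : ∀ s g, Tendsto (fun D => (nrm (t D) 2 0 (eS s) 2 (eB g) : ℝ)) atTop
      (𝓝 (tilt (T.x s) (!g)))) (a : ℚ) (K : ℕ) :
    Tendsto (fun D => (cert a b n r K (D + 1) (t D) : ℝ)) atTop (𝓝 (genK a b (T.val m) K)) := by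
  have hb0' : (0 : ℝ) ≤ b := by exact_mod_cast hb0
  have hb1' : (b : ℝ) < 1 := by exact_mod_cast hb1
  have hS : ∀ k, Tendsto (fun D => (siteA b (D + 1) (t D) n r k : ℝ)) atTop
      (𝓝 (SA b (T.val m) k)) := by
    intro k
    simp only [siteA_cast]
    rw [SA, sum_dec eB finProdFinEquiv two_pos]
    refine Tendsto.const_mul _ (tendsto_finsetSum _ fun g _ => ?_)
    refine val_tendsto T eS finProdFinEquiv hn le_rfl hm0 hι hκ hm (sW_pos hb0' hb1' _)
      (fun x => (sW_bounds hb0' hb1' _ x).2) (fun D c hc => ?_) fun c hc => ?_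
    · rw [getD_map _ _ hc]
      exact siteQ_nonneg hb1.le _ _ _ _ _
    · simp only [getD_map _ _ hc, siteQ_cast eS hn, sW]
      exact Tendsto.const_mul _ (tendsto_finsetSum _ fun ε _ => tendsto_finsetProd _ fun j _ =>
        Tendsto.const_sub _ (Tendsto.const_mul _ (Tendsto.const_mul _
          (tendsto_finsetProd _ fun l _ => hp _ _))))
  have hE : Tendsto (fun D => (edgeA b (D + 1) (t D) n r : ℝ)) atTop (𝓝 (EA b (T.val m))) := by
    simp only [edgeA_cast]
    rw [EA, sum_dec eB (Equiv.refl (Fin 3)) two_pos, ← sub_zero (_ * _ : ℝ)]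
    refine Tendsto.sub (Tendsto.const_mul _ (tendsto_finsetSum _ fun g _ => ?_)) ?_
    · refine val_tendsto T eS (Equiv.refl (Fin 3)) hn zero_le_one hm0 hι hκ hm
        (fun x => lt_of_lt_of_le (by linarith) (eW_bounds hb0' _ x).1)
        (fun x => (eW_bounds hb0' _ x).2) (fun D c hc => ?_) fun c hc => ?_
      · rw [getD_map _ _ hc]
        exact edgeQ_nonneg hb1.le _ _ _ _
      · simp only [getD_map _ _ hc, edgeQ_cast eS hn, eW]
        exact Tendsto.const_sub _ (Tendsto.const_mul _ (tendsto_finsetProd _ fun l _ => hp _ _))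
    · have := ((tendsto_pow_atTop_nhds_zero_of_lt_one hb0' hb1').comp
        (tendsto_add_atTop_nat 2)).div_const (1 - (b : ℝ))
      rw [zero_div] at this
      exact this
  simp only [cert_cast]
  have h2 := rho_tendsto (a * 3)
  push_cast at h2
  exact (log2_tendsto.add (h2.mul (tendsto_finsetSum _ fun k _ => (hS k).const_mul _))).sub
    (hE.const_mul _)

end complete

/-- The rational trial read from a table. -/
noncomputable def trial (t : List ℕ) (n : ℕ) : FT where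
  S := Fin (n + 1)
  init s := nrm t 1 0 0 (n + 1) s
  κ d s s' := nrm t 0 d s (n + 1) s'
  x s := Real.log ((nrm t 2 0 s 2 0 : ℝ) / (1 - nrm t 2 0 s 2 0)) / 2
  init_nonneg s := by exact_mod_cast nrm_nonneg _ _ _ _ _ _
  init_sum := by
    rw [← Finset.sum_range fun s => (nrm t 1 0 0 (n + 1) s : ℝ)]
    exact_mod_cast nrm_sum t 1 0 0 (Nat.succ_pos n)
  κ_nonneg d s s' := by exact_mod_cast nrm_nonneg _ _ _ _ _ _
  κ_sum d s := by
    rw [← Finset.sum_range fun s' => (nrm t 0 d s (n + 1) s' : ℝ)]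
    exact_mod_cast nrm_sum t 0 d s (Nat.succ_pos n)

/-- The rational exponents read from a table. -/
noncomputable def expo (t : List ℕ) (r : ℕ) : Fin r → ℝ :=
  fun i => (ts t 3 0 0 (i + 1) : ℝ) / ts t 3 0 0 (r + 1)

theorem ts_strictMono (t : List ℕ) (a d i : ℕ) : StrictMono (ts t a d i) :=
  strictMono_nat_of_lt_succ fun n => by
    unfold ts
    rw [sum_range_succ]
    exact Nat.lt_add_of_pos_right (tb_pos _ _ _ _ _)

theorem expo_adm (t : List ℕ) (r : ℕ) : AdmissibleExponents (expo t r) := by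
  have h0 : (0 : ℝ) < ts t 3 0 0 (r + 1) := by exact_mod_cast ts_pos t 3 0 0 (Nat.succ_pos r)
  refine ⟨fun i j hij => div_lt_div_of_pos_right ?_ h0, fun i => ⟨div_pos ?_ h0, ?_⟩⟩
  · exact_mod_cast ts_strictMono t 3 0 0 (Nat.succ_lt_succ hij)
  · exact_mod_cast ts_pos t 3 0 0 (Nat.succ_pos i)
  · rw [expo, div_lt_one h0]
    exact_mod_cast ts_strictMono t 3 0 0 (Nat.succ_lt_succ i.2)

theorem sound (B : ℕ) {a : ℚ} (ha : 0 ≤ a) (n r K N : ℕ) (t : List ℕ) :
    (satM B).gen a ((trial t n).val (expo t r)) ≤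
      cert a ((B : ℚ) / (B + 1)) (n + 1) r K (N + 1) t := by
  refine (gen_le_genK _ (expo_adm t r) B (by exact_mod_cast ha) K).trans ?_
  have h := genK_le_cert (trial t n) (Equiv.refl (Fin (n + 1))) (Nat.succ_pos n) (t := t)
    (b := (B : ℚ) / (B + 1)) (Nat.succ_pos N) (expo_adm t r) (by positivity)
    (by rw [div_lt_one (by positivity)]; linarith) (fun _ => rfl) (fun _ _ _ => rfl)
    (fun d hd => by
      rw [mrev, dif_pos hd, expo]
      congr 3
      simp only
      omega)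
    (fun (s : Fin (n + 1)) g => by
      have h1 := nrm_sum t 2 0 s Nat.two_pos
      rw [sum_range_succ, sum_range_one] at h1
      have h2 := nrm_pos t 2 0 s Nat.two_pos 0
      have h3 := nrm_pos t 2 0 s Nat.two_pos 1
      have h4 : (nrm t 2 0 s 2 0 : ℝ) + nrm t 2 0 s 2 1 = 1 := by exact_mod_cast h1
      have h5 : (0 : ℝ) < nrm t 2 0 s 2 0 := by exact_mod_cast h2
      have h6 : (0 : ℝ) < nrm t 2 0 s 2 1 := by exact_mod_cast h3
      have h7 := tilt_logit' h5 (by linarith) (!g)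
      refine h7.trans ?_
      cases g
      · rfl
      · change 1 - (nrm t 2 0 s 2 0 : ℝ) = nrm t 2 0 s 2 1
        linarith) ha K
  push_cast at h
  exact h

/-- Exponents extended by `0` and `1`. -/
noncomputable def ext {r : ℕ} (m : Fin r → ℝ) : ℕ → ℝ
  | 0 => 0
  | i + 1 => if h : i < r then m ⟨i, h⟩ else 1

theorem ext_mono {r : ℕ} {m : Fin r → ℝ} (hm : AdmissibleExponents m) (i : ℕ) :
    ext m i ≤ ext m (i + 1) := by
  cases i with
  | zero =>
    simp only [ext]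
    split_ifs
    · exact (hm.2 _).1.le
    · exact zero_le_one
  | succ i =>
    simp only [ext]
    split_ifs with h1 h2 h2
    · exact hm.1.monotone (Fin.mk_le_mk.mpr (Nat.le_succ i))
    · exact (hm.2 _).2.le
    · omega
    · exact le_rfl

/-- The target array of a trial. -/
noncomputable def tgt (T : FT) {n : ℕ} (eS : T.S ≃ Fin n) (hn : 0 < n) {r : ℕ} (m : Fin r → ℝ)
    (a d i j : ℕ) : ℝ :=
  if a = 0 then T.κ d (eS.symm ⟨i % n, Nat.mod_lt _ hn⟩) (eS.symm ⟨j % n, Nat.mod_lt _ hn⟩)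
  else if a = 1 then T.init (eS.symm ⟨j % n, Nat.mod_lt _ hn⟩)
  else if a = 2 then tilt (T.x (eS.symm ⟨i % n, Nat.mod_lt _ hn⟩)) (decide (j = 0))
  else ext m (j + 1) - ext m j

theorem symm_mod {S : Type} {n : ℕ} (eS : S ≃ Fin n) (hn : 0 < n) (i : Fin n) :
    eS.symm ⟨i % n, Nat.mod_lt _ hn⟩ = eS.symm i := by
  congr 1
  exact Fin.ext (Nat.mod_eq_of_lt i.2)

theorem complete (B : ℕ) (a : ℚ) {r : ℕ} {m : Fin r → ℝ} (T : FT) (hm : AdmissibleExponents m)
    (h : (satM B).gen a (T.val m) < 0) :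
    ∃ n K N t, cert a ((B : ℚ) / (B + 1)) (n + 1) r K (N + 1) t < 0 := by
  obtain ⟨K, hK⟩ := ((genK_tendsto T hm B a).eventually (gt_mem_nhds h)).exists
  have hne : Nonempty T.S := by
    by_contra hc
    have := T.init_sum
    rw [not_nonempty_iff] at hc
    simp at this
  obtain ⟨n, hn⟩ : ∃ n, Fintype.card T.S = n + 1 :=
    Nat.exists_eq_succ_of_ne_zero Fintype.card_ne_zero
  let eS : T.S ≃ Fin (n + 1) := Fintype.equivFinOfCardEq hn
  have hn0 := Nat.succ_pos n
  let Y := tgt T eS hn0 m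
  have hY0 : ∀ d i j, Y 0 d i j =
      T.κ d (eS.symm ⟨i % (n + 1), Nat.mod_lt _ hn0⟩) (eS.symm ⟨j % (n + 1), Nat.mod_lt _ hn0⟩) :=
    fun _ _ _ => rfl
  have hY1 : ∀ d i j, Y 1 d i j = T.init (eS.symm ⟨j % (n + 1), Nat.mod_lt _ hn0⟩) :=
    fun _ _ _ => rfl
  have hY2 : ∀ d i j, Y 2 d i j =
      tilt (T.x (eS.symm ⟨i % (n + 1), Nat.mod_lt _ hn0⟩)) (decide (j = 0)) := fun _ _ _ => rfl
  have hY3 : ∀ d i j, Y 3 d i j = ext m (j + 1) - ext m j := fun _ _ _ => rfl
  have key := cert_tendsto T eS hn0 (t := tD Y) (b := (B : ℚ) / (B + 1)) hm (by positivity)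
    (by rw [div_lt_one (by positivity)]; linarith)
    (fun s => by
      have := nrm_tendsto Y 1 0 0 (n + 1) (fun j _ => by rw [hY1]; exact T.init_nonneg _)
        (by
          rw [Finset.sum_range, ← T.init_sum, ← eS.symm.sum_comp]
          exact sum_congr rfl fun j _ => by rw [hY1, symm_mod eS hn0]) (eS s).2
      rwa [hY1, symm_mod eS hn0, Equiv.symm_apply_apply] at this)
    (fun d s s' => by
      have := nrm_tendsto Y 0 d (eS s) (n + 1) (fun j _ => by rw [hY0]; exact T.κ_nonneg _ _ _)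
        (by
          rw [Finset.sum_range, ← T.κ_sum d s, ← eS.symm.sum_comp]
          exact sum_congr rfl fun j _ => by
            rw [hY0, symm_mod eS hn0, symm_mod eS hn0, Equiv.symm_apply_apply]) (eS s').2
      rwa [hY0, symm_mod eS hn0, symm_mod eS hn0, Equiv.symm_apply_apply, Equiv.symm_apply_apply] at this)
    (fun d hd => by
      have h1 : ∀ i, ∑ j ∈ range i, Y 3 0 0 j = ext m i := fun i => by
        simp only [hY3]
        rw [sum_range_sub]
        exact sub_zero _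
      have h2 : ext m (r + 1) = 1 := by simp [ext]
      have := ts_div_tendsto Y 3 0 0 (r - d) (r + 1)
        (fun j => by rw [hY3]; exact sub_nonneg.mpr (ext_mono hm j)) (by rw [h1, h2]; simp)
      rw [h1, h1, h2, div_one] at this
      have h3 : ext m (r - d) = mrev m d := by
        rw [show r - d = (r - 1 - d) + 1 by omega, mrev, dif_pos hd, ext, dif_pos (by omega)]
      rwa [h3] at this)
    (fun s g => by
      have := nrm_tendsto Y 2 0 (eS s) 2 (fun j _ => by rw [hY2]; exact (tilt_pos' _ _).le)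
        (by
          rw [sum_range_succ, sum_range_one, hY2, hY2, ← tilt_sum' (T.x s), Fintype.sum_bool,
            symm_mod eS hn0, Equiv.symm_apply_apply]
          rfl) (eB g).2
      rw [hY2, symm_mod eS hn0, Equiv.symm_apply_apply] at this
      cases g
      · exact this
      · exact this) a K
  push_cast at key
  obtain ⟨D, hD⟩ := (key.eventually (gt_mem_nhds hK)).exists
  exact ⟨n, K, D, tD Y D, by exact_mod_cast hD⟩

end Crest.Agent.R153.CU

namespace Crest.Agent.R153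

open CU Crest.Agent.RatPrim

theorem partCU : PartCU := by
  refine ⟨test, test_pr.to_comp, fun j d B => ?_⟩
  have ht : ∀ w, test ((j, d, B), w) = true ↔
      cert ((j : ℚ) / 2 ^ d) ((B : ℚ) / (B + 1)) ((wit w).1 + 1) (wit w).2.1 (wit w).2.2.1
        ((wit w).2.2.2.1 + 1) (wit w).2.2.2.2 < 0 := fun w => by
    rw [test, Bool.not_eq_true', ← Bool.not_eq_true, qle_iff, not_le]
  have ha : (((j : ℚ) / 2 ^ d : ℚ) : ℝ) = (j : ℝ) / 2 ^ d := by push_cast; rfl
  constructor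
  · rintro ⟨w, hw⟩
    rw [ht] at hw
    refine ⟨_, expo (wit w).2.2.2.2 (wit w).2.1, trial (wit w).2.2.2.2 (wit w).1,
      expo_adm _ _, ?_⟩
    rw [← ha]
    exact (sound B (by positivity) _ _ _ _ _).trans_lt (by exact_mod_cast hw)
  · rintro ⟨r, m, T, hm, h⟩
    rw [← ha] at h
    obtain ⟨n, K, N, t, hc⟩ := complete B _ T hm h
    refine ⟨Encodable.encode ((n, r, K, N, t) : Wit), ?_⟩
    rw [ht, wit_encode]
    exact hc

end Crest.Agent.R153
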