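import Crest.Agent.R153.Defs
import Crest.Agent.Lib.RatPrim.FunProp

/-! Row 153, part CU: the rational certificate and its primitive recursiveness. -/

set_option autoImplicit false

namespace Crest.Agent.R153.CU

open Finset Crest.Agent.RatPrim

attribute [local irreducible] Primrec

/-- Digit number `l` of `c` in base `n`. -/
def dig (n c l : ℕ) : ℕ := c / n ^ l % n

/-- Positive entries read from a list. -/
def tb (t : List ℕ) (a d i j : ℕ) : ℕ := t.getD (Nat.pair (Nat.pair a d) (Nat.pair i j)) 0 + 1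

/-- Partial row sums of the table. -/
def ts (t : List ℕ) (a d i n : ℕ) : ℕ := ∑ j ∈ range n, tb t a d i j

/-- Normalised rows of the table. -/
def nrm (t : List ℕ) (a d i n j : ℕ) : ℚ := (tb t a d i j : ℚ) / (ts t a d i n : ℚ)

/-- `min 1 (x ^ (u / v))` rounded to a multiple of `1 / N`: down for `e = 0`, up for `e = 1`. -/
def rp (e N : ℕ) (x : ℚ) (u v : ℕ) : ℚ :=
  ((min N (e + ∑ c ∈ range N,
    cond (qle ((((c + 1 : ℕ) : ℚ) / (N : ℚ)) ^ v) (x ^ u)) 1 0) : ℕ) : ℚ) / (N : ℚ)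

/-- Truncated series of the logarithm. -/
def lser (N : ℕ) (x : ℚ) : ℚ := -∑ i ∈ range N, (1 - x) ^ (i + 1) / ((i : ℚ) + 1)

/-- One rounded power-mean step on tables. -/
def step (e N : ℕ) (t : List ℕ) (n ℓ r d : ℕ) (A : List ℚ) : List ℚ :=
  (List.range (n ^ ℓ)).map fun c => rp e N
    (∑ c' ∈ range (n ^ ℓ), (∏ l ∈ range ℓ, nrm t 0 d (dig n c l) n (dig n c' l)) *
      rp e N (A.getD c' 0) (ts t 3 0 0 (r - d)) (ts t 3 0 0 (r + 1)))
    (ts t 3 0 0 (r + 1)) (ts t 3 0 0 (r - d))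

/-- Rounded nested power means. -/
def tab (e N : ℕ) (t : List ℕ) (n ℓ r : ℕ) (Z : List ℚ) (d : ℕ) : List ℚ :=
  natRec d Z fun d A => step e N t n ℓ r d A

/-- Rounded value of a trial. -/
def valQ (e N : ℕ) (t : List ℕ) (n ℓ r : ℕ) (Z : List ℚ) : ℚ :=
  ∑ c ∈ range (n ^ ℓ), (∏ l ∈ range ℓ, nrm t 1 0 0 n (dig n c l)) *
    lser N ((tab e N t n ℓ r Z r).getD c 0)

/-- The edge term on codes. -/
def edgeQ (b : ℚ) (t : List ℕ) (n g c : ℕ) : ℚ :=
  1 - b * ∏ l ∈ range 3, nrm t 2 0 (dig n c l) 2 (dig 2 g l)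

/-- The site term on codes. -/
def siteQ (b : ℚ) (t : List ℕ) (n k g c : ℕ) : ℚ :=
  (1 / 2) * ∑ ε ∈ range 2, ∏ j ∈ range k,
    (1 - b * (cond (Nat.beq ε (dig 2 g (2 + 3 * j))) 0 1 *
      ∏ l ∈ range 2, nrm t 2 0 (dig n c (l + 2 * j)) 2 (dig 2 g (l + 3 * j))))

/-- Upper approximation of the average site value. -/
def siteA (b : ℚ) (N : ℕ) (t : List ℕ) (n r k : ℕ) : ℚ :=
  (1 / 8) ^ k * ∑ g ∈ range (2 ^ (k * 3)),
    valQ 1 N t n (k * 2) r ((List.range (n ^ (k * 2))).map fun c => siteQ b t n k g c)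

/-- Lower approximation of the average edge value. -/
def edgeA (b : ℚ) (N : ℕ) (t : List ℕ) (n r : ℕ) : ℚ :=
  (1 / 8) * ∑ g ∈ range (2 ^ 3),
    valQ 0 N t n 3 r ((List.range (n ^ 3)).map fun c => edgeQ b t n g c) - b ^ (N + 1) / (1 - b)

/-- Lower approximation of `exp (-y)`. -/
def rho (y : ℚ) (N : ℕ) : ℚ := cond (qle y (N : ℚ)) ((1 - y / (N : ℚ)) ^ N) 0

/-- The certificate. -/
def cert (a b : ℚ) (n r K N : ℕ) (t : List ℕ) : ℚ :=
  (-lser N (1 / 2) + (1 / 2) ^ N) +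
    rho (a * 3) N * ∑ k ∈ range K, (a * 3) ^ k / (k.factorial : ℚ) * siteA b N t n r k -
    a * 2 * edgeA b N t n r

/-- Witness data. -/
abbrev Wit : Type := ℕ × ℕ × ℕ × ℕ × List ℕ

/-- Decoding of witnesses. -/
def wit (w : ℕ) : Wit := (Encodable.decode (α := Wit) w).getD (0, 0, 0, 0, [])

/-- The test. -/
def test (p : (ℕ × ℕ × ℕ) × ℕ) : Bool :=
  !qle 0 (cert ((p.1.1 : ℚ) / 2 ^ p.1.2.1) ((p.1.2.2 : ℚ) / ((p.1.2.2 : ℚ) + 1))
    ((wit p.2).1 + 1) (wit p.2).2.1 (wit p.2).2.2.1 ((wit p.2).2.2.2.1 + 1) (wit p.2).2.2.2.2)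

variable {α : Type*} [Primcodable α]

@[fun_prop] theorem dig_pr {n c l : α → ℕ} (hn : Primrec n) (hc : Primrec c) (hl : Primrec l) :
    Primrec fun x => dig (n x) (c x) (l x) := by
  unfold dig; fun_prop

@[fun_prop] theorem tb_pr {t : α → List ℕ} {a d i j : α → ℕ} (ht : Primrec t) (ha : Primrec a)
    (hd : Primrec d) (hi : Primrec i) (hj : Primrec j) :
    Primrec fun x => tb (t x) (a x) (d x) (i x) (j x) := by
  unfold tb; fun_prop

@[fun_prop] theorem ts_pr {t : α → List ℕ} {a d i j : α → ℕ} (ht : Primrec t) (ha : Primrec a)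
    (hd : Primrec d) (hi : Primrec i) (hj : Primrec j) :
    Primrec fun x => ts (t x) (a x) (d x) (i x) (j x) := by
  unfold ts; fun_prop

@[fun_prop] theorem nrm_pr {t : α → List ℕ} {a d i n j : α → ℕ} (ht : Primrec t)
    (ha : Primrec a) (hd : Primrec d) (hi : Primrec i) (hn : Primrec n) (hj : Primrec j) :
    Primrec fun x => nrm (t x) (a x) (d x) (i x) (n x) (j x) := by
  unfold nrm; fun_prop

@[fun_prop] theorem rp_pr {e N u v : α → ℕ} {y : α → ℚ} (he : Primrec e) (hN : Primrec N)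
    (hy : Primrec y) (hu : Primrec u) (hv : Primrec v) :
    Primrec fun x => rp (e x) (N x) (y x) (u x) (v x) := by
  unfold rp; fun_prop

@[fun_prop] theorem lser_pr {N : α → ℕ} {y : α → ℚ} (hN : Primrec N) (hy : Primrec y) :
    Primrec fun x => lser (N x) (y x) := by
  unfold lser; fun_prop

@[fun_prop] theorem step_pr {e N n ℓ r d : α → ℕ} {t : α → List ℕ} {A : α → List ℚ}
    (he : Primrec e) (hN : Primrec N) (ht : Primrec t) (hn : Primrec n) (hℓ : Primrec ℓ)
    (hr : Primrec r) (hd : Primrec d) (hA : Primrec A) :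
    Primrec fun x => step (e x) (N x) (t x) (n x) (ℓ x) (r x) (d x) (A x) := by
  unfold step; fun_prop

@[fun_prop] theorem tab_pr {e N n ℓ r d : α → ℕ} {t : α → List ℕ} {A : α → List ℚ}
    (he : Primrec e) (hN : Primrec N) (ht : Primrec t) (hn : Primrec n) (hℓ : Primrec ℓ)
    (hr : Primrec r) (hA : Primrec A) (hd : Primrec d) :
    Primrec fun x => tab (e x) (N x) (t x) (n x) (ℓ x) (r x) (A x) (d x) := by
  unfold tab; fun_prop

@[fun_prop] theorem valQ_pr {e N n ℓ r : α → ℕ} {t : α → List ℕ} {A : α → List ℚ}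
    (he : Primrec e) (hN : Primrec N) (ht : Primrec t) (hn : Primrec n) (hℓ : Primrec ℓ)
    (hr : Primrec r) (hA : Primrec A) :
    Primrec fun x => valQ (e x) (N x) (t x) (n x) (ℓ x) (r x) (A x) := by
  unfold valQ; fun_prop

@[fun_prop] theorem edgeQ_pr {b : α → ℚ} {t : α → List ℕ} {n g c : α → ℕ} (hb : Primrec b)
    (ht : Primrec t) (hn : Primrec n) (hg : Primrec g) (hc : Primrec c) :
    Primrec fun x => edgeQ (b x) (t x) (n x) (g x) (c x) := by
  unfold edgeQ; fun_prop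

@[fun_prop] theorem siteQ_pr {b : α → ℚ} {t : α → List ℕ} {n k g c : α → ℕ} (hb : Primrec b)
    (ht : Primrec t) (hn : Primrec n) (hk : Primrec k) (hg : Primrec g) (hc : Primrec c) :
    Primrec fun x => siteQ (b x) (t x) (n x) (k x) (g x) (c x) := by
  unfold siteQ; fun_prop

@[fun_prop] theorem siteA_pr {b : α → ℚ} {t : α → List ℕ} {N n r k : α → ℕ} (hb : Primrec b)
    (hN : Primrec N) (ht : Primrec t) (hn : Primrec n) (hr : Primrec r) (hk : Primrec k) :
    Primrec fun x => siteA (b x) (N x) (t x) (n x) (r x) (k x) := by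
  unfold siteA; fun_prop

@[fun_prop] theorem edgeA_pr {b : α → ℚ} {t : α → List ℕ} {N n r : α → ℕ} (hb : Primrec b)
    (hN : Primrec N) (ht : Primrec t) (hn : Primrec n) (hr : Primrec r) :
    Primrec fun x => edgeA (b x) (N x) (t x) (n x) (r x) := by
  unfold edgeA; fun_prop

@[fun_prop] theorem rho_pr {y : α → ℚ} {N : α → ℕ} (hy : Primrec y) (hN : Primrec N) :
    Primrec fun x => rho (y x) (N x) := by
  unfold rho; fun_prop

@[fun_prop] theorem cert_pr {a b : α → ℚ} {t : α → List ℕ} {n r K N : α → ℕ} (ha : Primrec a)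
    (hb : Primrec b) (hn : Primrec n) (hr : Primrec r) (hK : Primrec K) (hN : Primrec N)
    (ht : Primrec t) : Primrec fun x => cert (a x) (b x) (n x) (r x) (K x) (N x) (t x) := by
  unfold cert; fun_prop

@[fun_prop] theorem wit_pr {w : α → ℕ} (hw : Primrec w) : Primrec fun x => wit (w x) :=
  Primrec.option_getD.comp (Primrec.decode.comp hw) (Primrec.const _)

theorem test_pr : Primrec test := by
  unfold test; fun_prop

theorem wit_encode (x : Wit) : wit (Encodable.encode x) = x := by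
  unfold wit
  rw [Encodable.encodek]
  rfl

end Crest.Agent.R153.CU
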