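import Crest.Agent.R153.CU1

/-! Row 153, part CU: analytic facts on the rational approximants. -/

set_option autoImplicit false

namespace Crest.Agent.R153.CU

open Finset Crest.Agent.RatPrim Filter Topology

theorem sum_lt_ind (N M : ℕ) : ∑ c ∈ range N, (if c < M then 1 else 0 : ℕ) = min N M := by
  induction N with
  | zero => simp
  | succ N ih => rw [sum_range_succ, ih]; split_ifs <;> omega

theorem rp_eq {e N : ℕ} (hN : 0 < N) {x : ℚ} (hx : 0 ≤ x) {u v : ℕ} (hv : 0 < v) :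
    (rp e N x u v : ℝ) =
      ((min N (e + min N ⌊(x : ℝ) ^ ((u : ℝ) / v) * N⌋₊) : ℕ) : ℝ) / N := by
  have hxr : (0 : ℝ) ≤ x := by exact_mod_cast hx
  have hNr : (0 : ℝ) < N := by exact_mod_cast hN
  have hy : 0 ≤ (x : ℝ) ^ ((u : ℝ) / v) := Real.rpow_nonneg hxr _
  have key : ∀ c : ℕ, cond (qle ((((c + 1 : ℕ) : ℚ) / (N : ℚ)) ^ v) (x ^ u)) 1 0 =
      (if c < ⌊(x : ℝ) ^ ((u : ℝ) / v) * N⌋₊ then 1 else 0 : ℕ) := by
    intro c
    have h1 : (((c + 1 : ℕ) : ℚ) / (N : ℚ)) ^ v ≤ x ^ u ↔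
        c < ⌊(x : ℝ) ^ ((u : ℝ) / v) * N⌋₊ := by
      rw [← Nat.succ_le_iff, Nat.le_floor_iff (by positivity), ← div_le_iff₀ hNr,
        ← Rat.cast_le (K := ℝ)]
      have h2 : ((x : ℝ) ^ ((u : ℝ) / v)) ^ v = (x : ℝ) ^ u := by
        rw [← Real.rpow_natCast, ← Real.rpow_mul hxr, div_mul_cancel₀ _ (by positivity),
          Real.rpow_natCast]
      push_cast
      rw [← h2, pow_le_pow_iff_left₀ (by positivity) hy hv.ne']
    by_cases h : c < ⌊(x : ℝ) ^ ((u : ℝ) / v) * N⌋₊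
    · rw [if_pos h, qle_iff.mpr (h1.mpr h)]; rfl
    · rw [if_neg h]
      have : qle ((((c + 1 : ℕ) : ℚ) / (N : ℚ)) ^ v) (x ^ u) = false := by
        rw [← Bool.not_eq_true, qle_iff, h1]; exact h
      rw [this]; rfl
  unfold rp
  simp only [key, sum_lt_ind]
  push_cast
  rfl

theorem rp_nonneg (e N : ℕ) (x : ℚ) (u v : ℕ) : 0 ≤ rp e N x u v := by
  unfold rp; positivity

theorem rp_le_one (e N : ℕ) (x : ℚ) (u v : ℕ) : rp e N x u v ≤ 1 := by
  unfold rp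
  refine div_le_one_of_le₀ ?_ (by positivity)
  exact_mod_cast min_le_left _ _

theorem rp_lo {N : ℕ} (hN : 0 < N) {x : ℚ} (hx : 0 ≤ x) {u v : ℕ} (hv : 0 < v) :
    (rp 0 N x u v : ℝ) ≤ (x : ℝ) ^ ((u : ℝ) / v) := by
  have hxr : (0 : ℝ) ≤ x := by exact_mod_cast hx
  have hNr : (0 : ℝ) < N := by exact_mod_cast hN
  rw [rp_eq hN hx hv, div_le_iff₀ hNr]
  refine le_trans ?_ (Nat.floor_le (by positivity))
  exact_mod_cast (by omega)

theorem rp_hi {N : ℕ} (hN : 0 < N) {x : ℚ} (hx : 0 ≤ x) {u v : ℕ} (hv : 0 < v) :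
    min 1 ((x : ℝ) ^ ((u : ℝ) / v)) ≤ (rp 1 N x u v : ℝ) := by
  have hNr : (0 : ℝ) < N := by exact_mod_cast hN
  rw [rp_eq hN hx hv, le_div_iff₀ hNr]
  set y := (x : ℝ) ^ ((u : ℝ) / v)
  have h1 := Nat.lt_floor_add_one (y * N)
  by_cases h : N ≤ 1 + ⌊y * N⌋₊
  · have : min N (1 + min N ⌊y * N⌋₊) = N := by omega
    rw [this]
    exact mul_le_of_le_one_left hNr.le (min_le_left _ _)
  · have : min N (1 + min N ⌊y * N⌋₊) = ⌊y * N⌋₊ + 1 := by omega
    rw [this]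
    push_cast
    exact (mul_le_mul_of_nonneg_right (min_le_right _ _) hNr.le).trans h1.le

theorem rp_abs {e N : ℕ} (he : e ≤ 1) (hN : 0 < N) {x : ℚ} (hx : 0 ≤ x) {u v : ℕ} (hv : 0 < v) :
    |(rp e N x u v : ℝ) - min 1 ((x : ℝ) ^ ((u : ℝ) / v))| ≤ 1 / N := by
  have hxr : (0 : ℝ) ≤ x := by exact_mod_cast hx
  have hNr : (0 : ℝ) < N := by exact_mod_cast hN
  have h0 : (rp 0 N x u v : ℝ) ≤ min 1 ((x : ℝ) ^ ((u : ℝ) / v)) :=
    le_min (by exact_mod_cast rp_le_one 0 N x u v) (rp_lo hN hx hv)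
  have h1 := rp_hi hN hx (u := u) hv
  have h2 : (rp 1 N x u v : ℝ) ≤ rp 0 N x u v + 1 / N := by
    rw [rp_eq hN hx hv, rp_eq hN hx hv, ← add_div]
    refine div_le_div_of_nonneg_right ?_ hNr.le
    exact_mod_cast (by omega)
  have h3 : (0 : ℝ) ≤ 1 / N := by positivity
  rw [abs_le]
  rcases Nat.le_one_iff_eq_zero_or_eq_one.mp he with rfl | rfl
  · constructor <;> linarith
  · constructor <;> linarith

theorem rp_tendsto {e : ℕ} (he : e ≤ 1) {x : ℕ → ℚ} (hx0 : ∀ D, 0 ≤ x D) {u v : ℕ → ℕ}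
    (hv : ∀ D, 0 < v D) {y p : ℝ} (hy : 0 < y) (hyp : y ^ p ≤ 1)
    (hx : Tendsto (fun D => (x D : ℝ)) atTop (𝓝 y))
    (hp : Tendsto (fun D => (u D : ℝ) / v D) atTop (𝓝 p)) :
    Tendsto (fun D => (rp e (D + 1) (x D) (u D) (v D) : ℝ)) atTop (𝓝 (y ^ p)) := by
  have h1 : Tendsto (fun D => min 1 ((x D : ℝ) ^ ((u D : ℝ) / v D))) atTop (𝓝 (y ^ p)) := by
    have := (tendsto_const_nhds (x := (1 : ℝ))).min (hx.rpow hp (Or.inl hy.ne'))
    rwa [min_eq_right hyp] at this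
  have h2 : Tendsto (fun D => (rp e (D + 1) (x D) (u D) (v D) : ℝ) -
      min 1 ((x D : ℝ) ^ ((u D : ℝ) / v D))) atTop (𝓝 0) := by
    refine squeeze_zero_norm (fun D => ?_) tendsto_one_div_add_atTop_nhds_zero_nat
    have := rp_abs he (Nat.succ_pos D) (hx0 D) (u := u D) (hv D)
    simpa using this
  simpa using h2.add h1

theorem lser_cast (N : ℕ) (x : ℚ) :
    (lser N x : ℝ) = -∑ i ∈ range N, (1 - (x : ℝ)) ^ (i + 1) / ((i : ℝ) + 1) := by
  unfold lser; push_cast; rfl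

theorem lser_mono (N : ℕ) {x y : ℝ} (hxy : x ≤ y) (hy : y ≤ 1) :
    -∑ i ∈ range N, (1 - x) ^ (i + 1) / ((i : ℝ) + 1) ≤
      -∑ i ∈ range N, (1 - y) ^ (i + 1) / ((i : ℝ) + 1) := by
  refine neg_le_neg (sum_le_sum fun i _ => div_le_div_of_nonneg_right ?_ (by positivity))
  exact pow_le_pow_left₀ (by linarith) (by linarith) _

theorem log_le_lser (N : ℕ) {y : ℝ} (hy : 0 < y) {x : ℚ} (hyx : y ≤ x) (hx : x ≤ 1) :
    Real.log y ≤ lser N x := by
  have hx1 : (x : ℝ) ≤ 1 := by exact_mod_cast hx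
  rw [lser_cast]
  refine le_trans ?_ (lser_mono N hyx hx1)
  have h := Real.hasSum_pow_div_log_of_abs_lt_one (x := 1 - y)
    (by rw [abs_lt]; constructor <;> linarith)
  have := sum_le_hasSum (range N) (fun i _ => by
    have : 0 ≤ 1 - y := by linarith
    positivity) h
  rw [sub_sub_cancel] at this
  linarith

theorem lser_le_log (N : ℕ) {y b : ℝ} (hb : b < 1) (hy : 1 - b ≤ y) (hy1 : y ≤ 1) {x : ℚ}
    (hxy : (x : ℝ) ≤ y) : (lser N x : ℝ) - b ^ (N + 1) / (1 - b) ≤ Real.log y := by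
  rw [lser_cast]
  have h0 := lser_mono N hxy hy1
  have h := Real.abs_log_sub_add_sum_range_le (x := 1 - y)
    (by rw [abs_lt]; constructor <;> linarith) N
  rw [sub_sub_cancel, abs_of_nonneg (by linarith : 0 ≤ 1 - y)] at h
  have h2 : (1 - y) ^ (N + 1) / (1 - (1 - y)) ≤ b ^ (N + 1) / (1 - b) :=
    div_le_div₀ (pow_nonneg (by linarith) _) (pow_le_pow_left₀ (by linarith) (by linarith) _)
      (by linarith) (by linarith)
  have := (abs_le.mp h).1
  linarith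

theorem lser_tendsto {x : ℕ → ℚ} {y : ℝ} (hy : 0 < y) (hy1 : y ≤ 1)
    (hx : Tendsto (fun D => (x D : ℝ)) atTop (𝓝 y)) :
    Tendsto (fun D => (lser (D + 1) (x D) : ℝ)) atTop (𝓝 (Real.log y)) := by
  have h1 : Tendsto (fun D => Real.log (x D : ℝ)) atTop (𝓝 (Real.log y)) := hx.log hy.ne'
  have hq0 : 0 ≤ 1 - y / 2 := by linarith
  have hq1 : 1 - y / 2 < 1 := by linarith
  have h2 : Tendsto (fun D => Real.log (x D : ℝ) - (lser (D + 1) (x D) : ℝ)) atTop (𝓝 0) := by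
    have h3 : Tendsto (fun D : ℕ => (1 - y / 2) ^ D / (y / 2)) atTop (𝓝 0) := by
      simpa using (tendsto_pow_atTop_nhds_zero_of_lt_one hq0 hq1).div_const (y / 2)
    refine squeeze_zero_norm' ?_ h3
    have h4 : ∀ᶠ D in atTop, y / 2 < (x D : ℝ) := hx.eventually (lt_mem_nhds (by linarith))
    have h5 : ∀ᶠ D in atTop, (x D : ℝ) < 2 - y / 2 := hx.eventually (gt_mem_nhds (by linarith))
    filter_upwards [h4, h5] with D h4 h5
    have ha : |1 - (x D : ℝ)| ≤ 1 - y / 2 := by rw [abs_le]; constructor <;> linarith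
    have h := Real.abs_log_sub_add_sum_range_le (x := 1 - (x D : ℝ)) (by linarith) (D + 1)
    rw [sub_sub_cancel] at h
    rw [lser_cast, Real.norm_eq_abs, sub_neg_eq_add, add_comm]
    refine h.trans (div_le_div₀ (by positivity) ?_ (by linarith) (by linarith))
    exact (pow_le_pow_left₀ (abs_nonneg _) ha _).trans
      (pow_le_pow_of_le_one hq0 hq1.le (by omega))
  simpa using h1.sub h2

theorem rho_nonneg (y : ℚ) (N : ℕ) : 0 ≤ rho y N := by
  unfold rho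
  by_cases h : y ≤ N
  · rw [qle_iff.mpr h]
    refine pow_nonneg (sub_nonneg.mpr (div_le_one_of_le₀ h (by positivity))) _
  · have : qle y N = false := by rw [← Bool.not_eq_true, qle_iff]; exact h
    rw [this]; rfl

theorem rho_le (y : ℚ) (N : ℕ) : (rho y N : ℝ) ≤ Real.exp (-y) := by
  unfold rho
  by_cases h : y ≤ N
  · rw [qle_iff.mpr h]
    have := Real.one_sub_div_pow_le_exp_neg (n := N) (t := y) (by exact_mod_cast h)
    simpa using this
  · have : qle y N = false := by rw [← Bool.not_eq_true, qle_iff]; exact h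
    rw [this]
    simpa using (Real.exp_pos _).le

theorem rho_tendsto (y : ℚ) :
    Tendsto (fun D => (rho y (D + 1) : ℝ)) atTop (𝓝 (Real.exp (-y))) := by
  have h := (Real.tendsto_one_add_div_pow_exp (-(y : ℝ))).comp (tendsto_add_atTop_nat 1)
  refine h.congr' ?_
  obtain ⟨M, hM⟩ := exists_nat_ge y
  filter_upwards [eventually_ge_atTop M] with D hD
  have : y ≤ ((D + 1 : ℕ) : ℚ) := hM.trans (by exact_mod_cast (by omega))
  unfold rho
  rw [qle_iff.mpr this]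
  simp [neg_div, sub_eq_add_neg]

theorem log2_le (N : ℕ) : Real.log 2 ≤ ((-lser N (1 / 2) + (1 / 2) ^ N : ℚ) : ℝ) := by
  have h := lser_le_log N (y := 1 / 2) (b := 1 / 2) (by norm_num) (by norm_num) (by norm_num)
    (x := 1 / 2) (by norm_num)
  have h2 : ((1 : ℝ) / 2) ^ (N + 1) / (1 - 1 / 2) = (1 / 2) ^ N := by
    rw [pow_succ]; ring
  have h3 : Real.log (1 / 2) = -Real.log 2 := by rw [one_div, Real.log_inv]
  rw [h2, h3] at h
  push_cast
  linarith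

theorem log2_tendsto : Tendsto (fun D => ((-lser (D + 1) (1 / 2) + (1 / 2) ^ (D + 1) : ℚ) : ℝ))
    atTop (𝓝 (Real.log 2)) := by
  have h1 := lser_tendsto (x := fun _ => 1 / 2) (y := 1 / 2) (by norm_num) (by norm_num)
    (by simp)
  have h2 : Tendsto (fun D : ℕ => (1 / 2 : ℝ) ^ (D + 1)) atTop (𝓝 0) :=
    (tendsto_pow_atTop_nhds_zero_of_lt_one (by norm_num) (by norm_num)).comp
      (tendsto_add_atTop_nat 1)
  have h3 := h1.neg.add h2
  rw [one_div (2 : ℝ), Real.log_inv, neg_neg, add_zero] at h3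
  refine h3.congr fun D => ?_
  push_cast
  rw [one_div (2 : ℝ)]

theorem tb_pos (t : List ℕ) (a d i j : ℕ) : 0 < tb t a d i j := Nat.succ_pos _

theorem ts_pos (t : List ℕ) (a d i : ℕ) {n : ℕ} (hn : 0 < n) : 0 < ts t a d i n :=
  sum_pos (fun _ _ => tb_pos _ _ _ _ _) (nonempty_range_iff.mpr hn.ne')

theorem nrm_nonneg (t : List ℕ) (a d i n j : ℕ) : 0 ≤ nrm t a d i n j := by
  unfold nrm; positivity

theorem nrm_pos (t : List ℕ) (a d i : ℕ) {n : ℕ} (hn : 0 < n) (j : ℕ) : 0 < nrm t a d i n j := by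
  unfold nrm
  have h1 := tb_pos t a d i j
  have h2 := ts_pos t a d i hn
  positivity

theorem nrm_sum (t : List ℕ) (a d i : ℕ) {n : ℕ} (hn : 0 < n) :
    ∑ j ∈ range n, nrm t a d i n j = 1 := by
  unfold nrm
  have h2 := ts_pos t a d i hn
  rw [← sum_div, div_eq_one_iff_eq (by positivity), ts]
  push_cast
  rfl

/-- Tables approximating a target array. -/
noncomputable def tD (Y : ℕ → ℕ → ℕ → ℕ → ℝ) (D : ℕ) : List ℕ :=
  (List.range D).map fun c =>
    ⌊Y c.unpair.1.unpair.1 c.unpair.1.unpair.2 c.unpair.2.unpair.1 c.unpair.2.unpair.2 * D⌋₊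

theorem tb_tendsto (Y : ℕ → ℕ → ℕ → ℕ → ℝ) (a d i j : ℕ) (hY : 0 ≤ Y a d i j) :
    Tendsto (fun D : ℕ => (tb (tD Y D) a d i j : ℝ) / D) atTop (𝓝 (Y a d i j)) := by
  have h1 := (tendsto_nat_floor_mul_div_atTop hY).comp tendsto_natCast_atTop_atTop
  have h2 := h1.add (tendsto_one_div_atTop_nhds_zero_nat (𝕜 := ℝ))
  rw [add_zero] at h2
  refine h2.congr' ?_
  filter_upwards [eventually_gt_atTop (Nat.pair (Nat.pair a d) (Nat.pair i j))] with D hD
  simp [tb, tD, hD, add_div]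

theorem ts_tendsto (Y : ℕ → ℕ → ℕ → ℕ → ℝ) (a d i n : ℕ) (hY : ∀ j < n, 0 ≤ Y a d i j) :
    Tendsto (fun D : ℕ => (ts (tD Y D) a d i n : ℝ) / D) atTop
      (𝓝 (∑ j ∈ range n, Y a d i j)) := by
  have := tendsto_finsetSum (range n) fun j hj => tb_tendsto Y a d i j (hY j (mem_range.mp hj))
  refine this.congr fun D => ?_
  rw [← sum_div, ts]
  push_cast
  rfl

theorem nrm_tendsto (Y : ℕ → ℕ → ℕ → ℕ → ℝ) (a d i n : ℕ) (hY : ∀ j < n, 0 ≤ Y a d i j)
    (hs : ∑ j ∈ range n, Y a d i j = 1) {j : ℕ} (hj : j < n) :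
    Tendsto (fun D : ℕ => (nrm (tD Y D) a d i n j : ℝ)) atTop (𝓝 (Y a d i j)) := by
  have h := (tb_tendsto Y a d i j (hY j hj)).div (ts_tendsto Y a d i n hY) (by rw [hs]; simp)
  rw [hs, div_one] at h
  refine h.congr' ?_
  filter_upwards [eventually_gt_atTop 0] with D hD
  have : (D : ℝ) ≠ 0 := by positivity
  simp only [Pi.div_apply, nrm]
  rw [div_div_div_cancel_right₀ this]
  push_cast
  rfl

theorem ts_div_tendsto (Y : ℕ → ℕ → ℕ → ℕ → ℝ) (a d i n n' : ℕ) (hY : ∀ j, 0 ≤ Y a d i j)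
    (hs : ∑ j ∈ range n', Y a d i j ≠ 0) :
    Tendsto (fun D : ℕ => (ts (tD Y D) a d i n : ℝ) / ts (tD Y D) a d i n') atTop
      (𝓝 ((∑ j ∈ range n, Y a d i j) / ∑ j ∈ range n', Y a d i j)) := by
  have h := (ts_tendsto Y a d i n fun j _ => hY j).div (ts_tendsto Y a d i n' fun j _ => hY j) hs
  refine h.congr' ?_
  filter_upwards [eventually_gt_atTop 0] with D hD
  have : (D : ℝ) ≠ 0 := by positivity
  simp only [Pi.div_apply]
  rw [div_div_div_cancel_right₀ this]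

end Crest.Agent.R153.CU
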