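import Crest.Agent.R153.CU2
import Crest.Agent.R141.Up2

/-! Row 153, part CU: the rounded tables bound the nested power means and converge to them. -/

set_option autoImplicit false

namespace Crest.Agent.R153.CU

open Finset Crest.Agent.RatPrim Filter Topology Crest.Agent.R141 Crest.Agent.R141.Up

section dec
variable {L S : Type} {n ℓ : ℕ}

/-- The configuration coded by `c`. -/
def dec (eS : S ≃ Fin n) (eL : L ≃ Fin ℓ) (hn : 0 < n) (c : ℕ) : L → S :=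
  fun l => eS.symm ⟨dig n c (eL l), Nat.mod_lt _ hn⟩

theorem eS_dec (eS : S ≃ Fin n) (eL : L ≃ Fin ℓ) (hn : 0 < n) (c : ℕ) (l : L) :
    (eS (dec eS eL hn c l) : ℕ) = dig n c (eL l) := by
  simp [dec]

theorem sum_dec [Fintype L] [DecidableEq L] [Fintype S] (eS : S ≃ Fin n) (eL : L ≃ Fin ℓ)
    (hn : 0 < n) (F : (L → S) → ℝ) :
    ∑ s, F s = ∑ c ∈ range (n ^ ℓ), F (dec eS eL hn c) := by
  rw [Finset.sum_range fun c => F (dec eS eL hn c)]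
  symm
  refine Fintype.sum_equiv (finFunctionFinEquiv.symm.trans (Equiv.arrowCongr eL.symm eS.symm))
    _ _ fun c => ?_
  congr 1

theorem prod_lab [Fintype L] (eL : L ≃ Fin ℓ) (g : ℕ → ℝ) :
    ∏ l : L, g (eL l) = ∏ i ∈ range ℓ, g i := by
  rw [Finset.prod_range, ← eL.prod_comp]

end dec

theorem getD_map (M : ℕ) (f : ℕ → ℚ) {c : ℕ} (hc : c < M) :
    ((List.range M).map f).getD c 0 = f c := by
  simp [hc]

/-- The inner sum of a step. -/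
def inn (e N : ℕ) (t : List ℕ) (n ℓ r d : ℕ) (A : List ℚ) (c : ℕ) : ℚ :=
  ∑ c' ∈ range (n ^ ℓ), (∏ l ∈ range ℓ, nrm t 0 d (dig n c l) n (dig n c' l)) *
    rp e N (A.getD c' 0) (ts t 3 0 0 (r - d)) (ts t 3 0 0 (r + 1))

theorem inn_nonneg (e N : ℕ) (t : List ℕ) (n ℓ r d : ℕ) (A : List ℚ) (c : ℕ) :
    0 ≤ inn e N t n ℓ r d A c :=
  sum_nonneg fun _ _ => mul_nonneg (prod_nonneg fun _ _ => nrm_nonneg _ _ _ _ _ _)
    (rp_nonneg _ _ _ _ _)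

theorem inn_cast (e N : ℕ) (t : List ℕ) (n ℓ r d : ℕ) (A : List ℚ) (c : ℕ) :
    (inn e N t n ℓ r d A c : ℝ) =
      ∑ c' ∈ range (n ^ ℓ), (∏ l ∈ range ℓ, (nrm t 0 d (dig n c l) n (dig n c' l) : ℝ)) *
        (rp e N (A.getD c' 0) (ts t 3 0 0 (r - d)) (ts t 3 0 0 (r + 1)) : ℝ) := by
  unfold inn; push_cast; rfl

theorem tab_succ (e N : ℕ) (t : List ℕ) (n ℓ r : ℕ) (Z : List ℚ) (d : ℕ) {c : ℕ}
    (hc : c < n ^ ℓ) : (tab e N t n ℓ r Z (d + 1)).getD c 0 =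
      rp e N (inn e N t n ℓ r d (tab e N t n ℓ r Z d) c) (ts t 3 0 0 (r + 1))
        (ts t 3 0 0 (r - d)) := by
  unfold tab
  rw [natRec_succ, step, getD_map _ _ hc]
  rfl

theorem tab_nonneg (e N : ℕ) (t : List ℕ) (n ℓ r : ℕ) {Z : List ℚ}
    (hZ : ∀ c < n ^ ℓ, 0 ≤ Z.getD c 0) (d : ℕ) {c : ℕ} (hc : c < n ^ ℓ) :
    0 ≤ (tab e N t n ℓ r Z d).getD c 0 := by
  cases d with
  | zero => exact hZ c hc
  | succ d => rw [tab_succ _ _ _ _ _ _ _ _ hc]; exact rp_nonneg _ _ _ _ _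

theorem tab_le_one (e N : ℕ) (t : List ℕ) (n ℓ r : ℕ) {Z : List ℚ}
    (hZ : ∀ c < n ^ ℓ, Z.getD c 0 ≤ 1) (d : ℕ) {c : ℕ} (hc : c < n ^ ℓ) :
    (tab e N t n ℓ r Z d).getD c 0 ≤ 1 := by
  cases d with
  | zero => exact hZ c hc
  | succ d => rw [tab_succ _ _ _ _ _ _ _ _ hc]; exact rp_le_one _ _ _ _ _

variable (T : FT) {L : Type} [Fintype L] [DecidableEq L] {n ℓ : ℕ} (eS : T.S ≃ Fin n)
  (eL : L ≃ Fin ℓ) (hn : 0 < n)

theorem nT_le_one {mm : ℕ → ℝ} (hm : ∀ d, 0 < mm d) {Z : (L → T.S) → ℝ} (hZ : ∀ s, 0 < Z s)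
    (hZ1 : ∀ s, Z s ≤ 1) (d : ℕ) (s : L → T.S) : nT T mm Z d s ≤ 1 := by
  have := nT_le T hm hZ one_pos (Z' := fun _ => 1) (fun _ => one_pos) (by simpa using hZ1) d s
  rwa [nT_one, mul_one] at this

theorem le_nT {mm : ℕ → ℝ} (hm : ∀ d, 0 < mm d) {Z : (L → T.S) → ℝ} {c : ℝ} (hc : 0 < c)
    (hZ : ∀ s, c ≤ Z s) (d : ℕ) (s : L → T.S) : c ≤ nT T mm Z d s := by
  have := nT_le T hm (Z := fun _ => 1) (fun _ => one_pos) (inv_pos.mpr hc) (Z' := Z)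
    (fun s => hc.trans_le (hZ s)) (fun s => by
      rw [inv_mul_eq_div, le_div_iff₀ hc, one_mul]; exact hZ s) d s
  rwa [nT_one, inv_mul_eq_div, le_div_iff₀ hc, one_mul] at this

theorem nT_succ_dec (mm : ℕ → ℝ) (Z : (L → T.S) → ℝ) (d c : ℕ) :
    nT T mm Z (d + 1) (dec eS eL hn c) =
      (∑ c' ∈ range (n ^ ℓ), (∏ l, T.κ d (dec eS eL hn c l) (dec eS eL hn c' l)) *
        nT T mm Z d (dec eS eL hn c') ^ mm d) ^ (1 / mm d) := by
  rw [nT_succ, sum_dec eS eL hn]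

omit [DecidableEq L] in
theorem kw_dec {t : List ℕ} {d : ℕ} (hκ : ∀ s s', T.κ d s s' = nrm t 0 d (eS s) n (eS s'))
    (c c' : ℕ) : ∏ l, T.κ d (dec eS eL hn c l) (dec eS eL hn c' l) =
      ∏ l ∈ range ℓ, (nrm t 0 d (dig n c l) n (dig n c' l) : ℝ) := by
  simp only [hκ, eS_dec]
  exact prod_lab eL fun l => (nrm t 0 d (dig n c l) n (dig n c' l) : ℝ)

theorem tab_hi {t : List ℕ} {r N : ℕ} (hN : 0 < N) {mm : ℕ → ℝ} (hm0 : ∀ d, 0 < mm d)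
    (hκ : ∀ d s s', T.κ d s s' = nrm t 0 d (eS s) n (eS s'))
    (hm : ∀ d < r, mm d = (ts t 3 0 0 (r - d) : ℝ) / ts t 3 0 0 (r + 1))
    {Z : (L → T.S) → ℝ} (hZ : ∀ s, 0 < Z s) (hZ1 : ∀ s, Z s ≤ 1) {A : List ℚ}
    (hA : ∀ c < n ^ ℓ, (A.getD c 0 : ℝ) = Z (dec eS eL hn c)) :
    ∀ d ≤ r, ∀ c < n ^ ℓ, nT T mm Z d (dec eS eL hn c) ≤ (tab 1 N t n ℓ r A d).getD c 0 := by
  have hA0 : ∀ c < n ^ ℓ, 0 ≤ A.getD c 0 := fun c hc => by
    have := (hZ (dec eS eL hn c)).le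
    rw [← hA c hc] at this
    exact_mod_cast this
  intro d
  induction d with
  | zero => intro _ c hc; exact (hA c hc).ge
  | succ d ih =>
    intro hd c hc
    have hv := ts_pos t 3 0 0 (Nat.succ_pos r)
    have hu := ts_pos t 3 0 0 (show 0 < r - d by omega)
    rw [tab_succ _ _ _ _ _ _ _ _ hc]
    refine le_trans (le_min (nT_le_one T hm0 hZ hZ1 _ _) ?_) (rp_hi hN (inn_nonneg _ _ _ _ _ _ _ _ _) hu)
    rw [nT_succ_dec, ← one_div_div (ts t 3 0 0 (r - d) : ℝ), ← hm d (by omega)]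
    refine Real.rpow_le_rpow (sum_nonneg fun c' _ => mul_nonneg (kw_nonneg T d _ _)
      (Real.rpow_nonneg (nT_pos T mm hZ d _).le _)) ?_ (by have := hm0 d; positivity)
    rw [inn_cast]
    refine sum_le_sum fun c' hc' => ?_
    rw [← kw_dec T eS eL hn (hκ d)]
    refine mul_le_mul_of_nonneg_left ?_ (kw_nonneg T d _ _)
    have hc'' := mem_range.mp hc'
    refine le_trans (le_min ?_ ?_) (rp_hi hN (tab_nonneg _ _ _ _ _ _ hA0 d hc'') hv)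
    · exact Real.rpow_le_one (nT_pos T mm hZ d _).le (nT_le_one T hm0 hZ hZ1 _ _) (hm0 d).le
    · rw [← hm d (by omega)]
      exact Real.rpow_le_rpow (nT_pos T mm hZ d _).le (ih (by omega) c' hc'') (hm0 d).le

theorem tab_lo {t : List ℕ} {r N : ℕ} (hN : 0 < N) {mm : ℕ → ℝ} (hm0 : ∀ d, 0 < mm d)
    (hκ : ∀ d s s', T.κ d s s' = nrm t 0 d (eS s) n (eS s'))
    (hm : ∀ d < r, mm d = (ts t 3 0 0 (r - d) : ℝ) / ts t 3 0 0 (r + 1))
    {Z : (L → T.S) → ℝ} (hZ : ∀ s, 0 < Z s) {A : List ℚ}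
    (hA : ∀ c < n ^ ℓ, (A.getD c 0 : ℝ) = Z (dec eS eL hn c)) :
    ∀ d ≤ r, ∀ c < n ^ ℓ, ((tab 0 N t n ℓ r A d).getD c 0 : ℝ) ≤ nT T mm Z d (dec eS eL hn c) := by
  have hA0 : ∀ c < n ^ ℓ, 0 ≤ A.getD c 0 := fun c hc => by
    have := (hZ (dec eS eL hn c)).le
    rw [← hA c hc] at this
    exact_mod_cast this
  intro d
  induction d with
  | zero => intro _ c hc; exact (hA c hc).le
  | succ d ih =>
    intro hd c hc
    have hv := ts_pos t 3 0 0 (Nat.succ_pos r)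
    have hu := ts_pos t 3 0 0 (show 0 < r - d by omega)
    rw [tab_succ _ _ _ _ _ _ _ _ hc]
    refine le_trans (rp_lo hN (inn_nonneg _ _ _ _ _ _ _ _ _) hu) ?_
    rw [nT_succ_dec, ← one_div_div (ts t 3 0 0 (r - d) : ℝ), ← hm d (by omega)]
    refine Real.rpow_le_rpow (by exact_mod_cast inn_nonneg _ _ _ _ _ _ _ _ _) ?_
      (by have := hm0 d; positivity)
    rw [inn_cast]
    refine sum_le_sum fun c' hc' => ?_
    rw [← kw_dec T eS eL hn (hκ d)]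
    refine mul_le_mul_of_nonneg_left ?_ (kw_nonneg T d _ _)
    have hc'' := mem_range.mp hc'
    have h0 := tab_nonneg 0 N t n ℓ r hA0 d hc''
    refine le_trans (rp_lo hN h0 hv) ?_
    rw [← hm d (by omega)]
    exact Real.rpow_le_rpow (by exact_mod_cast h0) (ih (by omega) c' hc'') (hm0 d).le

theorem tab_tendsto {t : ℕ → List ℕ} {r e : ℕ} (he : e ≤ 1) {mm : ℕ → ℝ} (hm0 : ∀ d, 0 < mm d)
    (hκ : ∀ d s s', Tendsto (fun D => (nrm (t D) 0 d (eS s) n (eS s') : ℝ)) atTop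
      (𝓝 (T.κ d s s')))
    (hm : ∀ d < r, Tendsto (fun D => (ts (t D) 3 0 0 (r - d) : ℝ) / ts (t D) 3 0 0 (r + 1)) atTop
      (𝓝 (mm d)))
    {Z : (L → T.S) → ℝ} (hZ : ∀ s, 0 < Z s) (hZ1 : ∀ s, Z s ≤ 1) {A : ℕ → List ℚ}
    (hA0 : ∀ D, ∀ c < n ^ ℓ, 0 ≤ (A D).getD c 0)
    (hA : ∀ c < n ^ ℓ, Tendsto (fun D => ((A D).getD c 0 : ℝ)) atTop (𝓝 (Z (dec eS eL hn c)))) :
    ∀ d ≤ r, ∀ c < n ^ ℓ, Tendsto (fun D => ((tab e (D + 1) (t D) n ℓ r (A D) d).getD c 0 : ℝ))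
      atTop (𝓝 (nT T mm Z d (dec eS eL hn c))) := by
  intro d
  induction d with
  | zero => intro _ c hc; exact hA c hc
  | succ d ih =>
    intro hd c hc
    have hv := fun D => ts_pos (t D) 3 0 0 (Nat.succ_pos r)
    have hu := fun D => ts_pos (t D) 3 0 0 (show 0 < r - d by omega)
    simp only [tab_succ _ _ _ _ _ _ _ _ hc]
    have h1 := nT_le_one T hm0 hZ hZ1 (d + 1) (dec eS eL hn c)
    rw [nT_succ_dec] at h1 ⊢
    refine rp_tendsto he (fun D => inn_nonneg _ _ _ _ _ _ _ _ _) hu ?_ h1 ?_ ?_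
    · rw [← sum_dec eS eL hn fun s' => (∏ l, T.κ d (dec eS eL hn c l) (s' l)) *
        nT T mm Z d s' ^ mm d]
      exact avg_pos (kw_nonneg T d _) (kw_sum T d _)
        fun s' => Real.rpow_pos_of_pos (nT_pos T mm hZ d s') _
    · simp only [inn_cast]
      refine tendsto_finsetSum _ fun c' hc' => Tendsto.mul ?_ ?_
      · simp only [← prod_lab eL, ← eS_dec eS eL hn]
        exact tendsto_finsetProd _ fun l _ => hκ d _ _
      · have hc'' := mem_range.mp hc'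
        exact rp_tendsto he (fun D => tab_nonneg _ _ _ _ _ _ (hA0 D) d hc'') hv
          (nT_pos T mm hZ d _) (Real.rpow_le_one (nT_pos T mm hZ d _).le
            (nT_le_one T hm0 hZ hZ1 _ _) (hm0 d).le) (ih (by omega) c' hc'') (hm d (by omega))
    · have := (hm d (by omega)).inv₀ (hm0 d).ne'
      simpa only [inv_div, one_div] using this

theorem valQ_cast (e N : ℕ) (t : List ℕ) (n ℓ r : ℕ) (Z : List ℚ) :
    (valQ e N t n ℓ r Z : ℝ) = ∑ c ∈ range (n ^ ℓ),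
      (∏ l ∈ range ℓ, (nrm t 1 0 0 n (dig n c l) : ℝ)) *
        (lser N ((tab e N t n ℓ r Z r).getD c 0) : ℝ) := by
  unfold valQ; push_cast; rfl

theorem val_dec {r : ℕ} (m : Fin r → ℝ) (W : (L → ℝ) → ℝ) :
    T.val m L W = ∑ c ∈ range (n ^ ℓ), (∏ l, T.init (dec eS eL hn c l)) *
      Real.log (nT T (mrev m) (fun s => W fun l => T.x (s l)) r (dec eS eL hn c)) := by
  unfold FT.val
  rw [sum_dec eS eL hn]

omit [DecidableEq L] in
theorem iw_dec {t : List ℕ} (hι : ∀ s, T.init s = nrm t 1 0 0 n (eS s)) (c : ℕ) :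
    ∏ l, T.init (dec eS eL hn c l) = ∏ l ∈ range ℓ, (nrm t 1 0 0 n (dig n c l) : ℝ) := by
  simp only [hι, eS_dec]
  exact prod_lab eL fun l => (nrm t 1 0 0 n (dig n c l) : ℝ)

open Crest.ProbabilityR.Diluted in
theorem val_hi {t : List ℕ} {r N : ℕ} (hN : 0 < N) {m : Fin r → ℝ} (hm0 : AdmissibleExponents m)
    (hι : ∀ s, T.init s = nrm t 1 0 0 n (eS s))
    (hκ : ∀ d s s', T.κ d s s' = nrm t 0 d (eS s) n (eS s'))
    (hm : ∀ d < r, mrev m d = (ts t 3 0 0 (r - d) : ℝ) / ts t 3 0 0 (r + 1))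
    {W : (L → ℝ) → ℝ} (hW : ∀ x, 0 < W x) (hW1 : ∀ x, W x ≤ 1) {A : List ℚ}
    (hA : ∀ c < n ^ ℓ, (A.getD c 0 : ℝ) = W fun l => T.x (dec eS eL hn c l)) :
    T.val m L W ≤ valQ 1 N t n ℓ r A := by
  rw [val_dec T eS eL hn, valQ_cast]
  refine sum_le_sum fun c hc => ?_
  have hc' := mem_range.mp hc
  rw [← iw_dec T eS eL hn hι]
  refine mul_le_mul_of_nonneg_left ?_ (iw_nonneg T _)
  refine log_le_lser N (nT_pos T _ (fun _ => hW _) _ _)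
    (tab_hi T eS eL hn hN (mrev_pos hm0) hκ hm (fun _ => hW _) (fun _ => hW1 _) hA r le_rfl c hc')
    (tab_le_one _ _ _ _ _ _ (fun c hc => ?_) r hc')
  have := hW1 fun l => T.x (dec eS eL hn c l)
  rw [← hA c hc] at this
  exact_mod_cast this

open Crest.ProbabilityR.Diluted in
theorem val_lo {t : List ℕ} {r N : ℕ} (hN : 0 < N) {m : Fin r → ℝ} (hm0 : AdmissibleExponents m)
    (hι : ∀ s, T.init s = nrm t 1 0 0 n (eS s))
    (hκ : ∀ d s s', T.κ d s s' = nrm t 0 d (eS s) n (eS s'))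
    (hm : ∀ d < r, mrev m d = (ts t 3 0 0 (r - d) : ℝ) / ts t 3 0 0 (r + 1))
    {W : (L → ℝ) → ℝ} {b : ℝ} (hb : b < 1) (hW : ∀ x, 1 - b ≤ W x) (hW1 : ∀ x, W x ≤ 1)
    {A : List ℚ} (hA : ∀ c < n ^ ℓ, (A.getD c 0 : ℝ) = W fun l => T.x (dec eS eL hn c l)) :
    valQ 0 N t n ℓ r A - b ^ (N + 1) / (1 - b) ≤ T.val m L W := by
  have hW0 : ∀ x, 0 < W x := fun x => lt_of_lt_of_le (by linarith) (hW x)
  have h1 := iw_sum T (L := L)
  rw [sum_dec eS eL hn] at h1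
  have h2 : b ^ (N + 1) / (1 - b) = ∑ c ∈ range (n ^ ℓ),
      (∏ l, T.init (dec eS eL hn c l)) * (b ^ (N + 1) / (1 - b)) := by
    rw [← sum_mul, h1, one_mul]
  rw [val_dec T eS eL hn, valQ_cast, h2, ← sum_sub_distrib]
  refine sum_le_sum fun c hc => ?_
  have hc' := mem_range.mp hc
  rw [← iw_dec T eS eL hn hι, ← mul_sub]
  refine mul_le_mul_of_nonneg_left ?_ (iw_nonneg T _)
  exact lser_le_log N hb (le_nT T (mrev_pos hm0) (by linarith) (fun _ => hW _) _ _)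
    (nT_le_one T (mrev_pos hm0) (fun _ => hW0 _) (fun _ => hW1 _) _ _)
    (tab_lo T eS eL hn hN (mrev_pos hm0) hκ hm (Z := fun s => W fun l => T.x (s l))
      (fun _ => hW0 _) hA r le_rfl c hc')

open Crest.ProbabilityR.Diluted in
theorem val_tendsto {t : ℕ → List ℕ} {r e : ℕ} (he : e ≤ 1) {m : Fin r → ℝ}
    (hm0 : AdmissibleExponents m)
    (hι : ∀ s, Tendsto (fun D => (nrm (t D) 1 0 0 n (eS s) : ℝ)) atTop (𝓝 (T.init s)))
    (hκ : ∀ d s s', Tendsto (fun D => (nrm (t D) 0 d (eS s) n (eS s') : ℝ)) atTop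
      (𝓝 (T.κ d s s')))
    (hm : ∀ d < r, Tendsto (fun D => (ts (t D) 3 0 0 (r - d) : ℝ) / ts (t D) 3 0 0 (r + 1)) atTop
      (𝓝 (mrev m d)))
    {W : (L → ℝ) → ℝ} (hW : ∀ x, 0 < W x) (hW1 : ∀ x, W x ≤ 1) {A : ℕ → List ℚ}
    (hA0 : ∀ D, ∀ c < n ^ ℓ, 0 ≤ (A D).getD c 0)
    (hA : ∀ c < n ^ ℓ, Tendsto (fun D => ((A D).getD c 0 : ℝ)) atTop
      (𝓝 (W fun l => T.x (dec eS eL hn c l)))) :
    Tendsto (fun D => (valQ e (D + 1) (t D) n ℓ r (A D) : ℝ)) atTop (𝓝 (T.val m L W)) := by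
  rw [val_dec T eS eL hn]
  simp only [valQ_cast]
  refine tendsto_finsetSum _ fun c hc => Tendsto.mul ?_ ?_
  · simp only [← prod_lab eL, ← eS_dec eS eL hn]
    exact tendsto_finsetProd _ fun l _ => hι _
  · exact lser_tendsto (nT_pos T _ (fun _ => hW _) _ _)
      (nT_le_one T (mrev_pos hm0) (fun _ => hW _) (fun _ => hW1 _) _ _)
      (tab_tendsto T eS eL hn he (mrev_pos hm0) hκ hm (fun _ => hW _) (fun _ => hW1 _) hA0 hA r
        le_rfl c (mem_range.mp hc))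

end Crest.Agent.R153.CU
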