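import Crest.Agent.R153.CU3

/-! Row 153, part CU: the cavity functional of soft 3-SAT in closed form. -/

set_option autoImplicit false

namespace Crest.Agent.R153.CU

open Finset Filter Topology Crest.Agent.R141 Crest.Agent.R141.Up Crest.ProbabilityR.Diluted

theorem tilt_pos' (x : ℝ) (s : Bool) : 0 < tilt x s := by
  unfold tilt
  have := Real.cosh_pos x
  positivity

theorem tilt_sum' (x : ℝ) : ∑ s : Bool, tilt x s = 1 := by
  have h := Real.cosh_pos x
  simp only [Fintype.sum_bool, tilt, spinVal]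
  rw [← add_div, div_eq_one_iff_eq (by positivity), Real.cosh_eq]
  simp only [if_true, mul_one, Bool.false_eq_true, if_false, mul_neg]
  ring

theorem tilt_le_one (x : ℝ) (s : Bool) : tilt x s ≤ 1 := by
  rw [← tilt_sum' x]
  exact single_le_sum (fun i _ => (tilt_pos' x i).le) (mem_univ s)

theorem tilt_logit' {p : ℝ} (h0 : 0 < p) (h1 : p < 1) (b : Bool) :
    tilt (Real.log (p / (1 - p)) / 2) b = if b then p else 1 - p := by
  have hq : 0 < 1 - p := by linarith
  set x := Real.log (p / (1 - p)) / 2 with hx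
  have he : Real.exp x * Real.exp x = p / (1 - p) := by
    rw [← Real.exp_add, hx, add_halves, Real.exp_log (div_pos h0 hq)]
  have hp := Real.exp_pos x
  have he' : Real.exp x * Real.exp x * (1 - p) = p := by rw [he]; field_simp
  cases b
  · simp only [tilt, spinVal, Real.cosh_eq, Bool.false_eq_true, if_false, mul_neg, mul_one,
      Real.exp_neg]
    field_simp
    nlinarith
  · simp only [tilt, spinVal, Real.cosh_eq, if_true, mul_one, Real.exp_neg]
    field_simp
    nlinarith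

/-- The edge term in closed form. -/
noncomputable def eW (b : ℝ) (g : Fin 3 → Bool) (x : Fin 3 → ℝ) : ℝ :=
  1 - b * ∏ l, tilt (x l) (!g l)

/-- The site term in closed form. -/
noncomputable def sW (b : ℝ) {k : ℕ} (g : Fin k × Fin 3 → Bool) (x : Fin k × Fin 2 → ℝ) : ℝ :=
  (1 / 2) * ∑ ε : Bool, ∏ j : Fin k, (1 - b * ((if ε = g (j, 2) then 0 else 1) *
    ∏ l : Fin 2, tilt (x (j, l)) (!g (j, l.castSucc))))

theorem bB_nonneg (B : ℕ) : (0 : ℝ) ≤ B / (B + 1) := by positivity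

theorem bB_lt (B : ℕ) : (B : ℝ) / (B + 1) < 1 := by
  rw [div_lt_one (by positivity)]; linarith

theorem exp_theta (B : ℕ) (g σ : Fin 3 → Bool) :
    Real.exp ((satM B).θ ((), g) σ) =
      1 - (B : ℝ) / (B + 1) * ∏ j, (if σ j = g j then (0 : ℝ) else 1) := by
  have h := (satM B).bound () g σ
  have h2 := (satM B).s_lt
  exact Real.exp_log (by have := (abs_le.mp h).2; change _ ≤ (satM B).s at this; exact sub_pos.mpr (this.trans_lt h2))

theorem sum_viol {L : Type} [Fintype L] [DecidableEq L] (b : ℝ) (g : L → Bool) (x : L → ℝ) :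
    ∑ s : L → Bool, (1 - b * ∏ l, (if s l = g l then (0 : ℝ) else 1)) * ∏ l, tilt (x l) (s l) =
      1 - b * ∏ l, tilt (x l) (!g l) := by
  simp only [sub_mul, one_mul, sum_sub_distrib, mul_assoc, ← mul_sum, ← prod_mul_distrib]
  rw [sum_prod_one (fun l => tilt (x l)) fun l => tilt_sum' _,
    sum_prod_eq fun l σ => (if σ = g l then (0 : ℝ) else 1) * tilt (x l) σ]
  congr 2
  refine prod_congr rfl fun l _ => ?_
  cases g l <;> simp

theorem edge_eq (B : ℕ) (g : Fin 3 → Bool) (x : Fin 3 → ℝ) :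
    edgeTerm ((satM B).θ ((), g)) x = eW ((B : ℝ) / (B + 1)) g x := by
  unfold edgeTerm eW
  simp only [exp_theta]
  exact sum_viol _ g x

theorem fac_bounds {b : ℝ} (hb0 : 0 ≤ b) {y : ℝ} (hy0 : 0 ≤ y) (hy1 : y ≤ 1) :
    1 - b ≤ 1 - b * y ∧ 1 - b * y ≤ 1 := by
  constructor <;> nlinarith

theorem tprod_bounds {L : Type} [Fintype L] (x : L → ℝ) (g : L → Bool) :
    0 ≤ ∏ l, tilt (x l) (g l) ∧ ∏ l, tilt (x l) (g l) ≤ 1 :=
  ⟨prod_nonneg fun _ _ => (tilt_pos' _ _).le,
    prod_le_one (fun _ _ => (tilt_pos' _ _).le) fun _ _ => tilt_le_one _ _⟩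

theorem eW_bounds {b : ℝ} (hb0 : 0 ≤ b) (g : Fin 3 → Bool) (x : Fin 3 → ℝ) :
    1 - b ≤ eW b g x ∧ eW b g x ≤ 1 :=
  fac_bounds hb0 (tprod_bounds _ _).1 (tprod_bounds _ _).2

theorem sfac_bounds {b : ℝ} (hb0 : 0 ≤ b) (ε g : Bool) {y : ℝ} (hy0 : 0 ≤ y) (hy1 : y ≤ 1) :
    1 - b ≤ 1 - b * ((if ε = g then 0 else 1) * y) ∧
      1 - b * ((if ε = g then 0 else 1) * y) ≤ 1 := by
  refine fac_bounds hb0 ?_ ?_ <;> split_ifs <;> simp [hy0, hy1]

theorem sW_bounds {b : ℝ} (hb0 : 0 ≤ b) (hb1 : b < 1) {k : ℕ} (g : Fin k × Fin 3 → Bool)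
    (x : Fin k × Fin 2 → ℝ) : (1 - b) ^ k ≤ sW b g x ∧ sW b g x ≤ 1 := by
  have h : ∀ ε : Bool, (1 - b) ^ k ≤ ∏ j : Fin k, (1 - b * ((if ε = g (j, 2) then 0 else 1) *
      ∏ l : Fin 2, tilt (x (j, l)) (!g (j, l.castSucc)))) ∧
      ∏ j : Fin k, (1 - b * ((if ε = g (j, 2) then 0 else 1) *
      ∏ l : Fin 2, tilt (x (j, l)) (!g (j, l.castSucc)))) ≤ 1 := by
    intro ε
    have h1 := fun j : Fin k => sfac_bounds hb0 ε (g (j, 2))
      (tprod_bounds (fun l : Fin 2 => x (j, l)) fun l => !g (j, l.castSucc)).1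
      (tprod_bounds (fun l : Fin 2 => x (j, l)) fun l => !g (j, l.castSucc)).2
    constructor
    · calc (1 - b) ^ k = ∏ _j : Fin k, (1 - b) := by simp
        _ ≤ _ := prod_le_prod (fun _ _ => by linarith) fun j _ => (h1 j).1
    · exact prod_le_one (fun j _ => le_trans (by linarith) (h1 j).1) fun j _ => (h1 j).2
  unfold sW
  rw [Fintype.sum_bool]
  have h1 := h true
  have h2 := h false
  constructor <;> linarith [h1.1, h1.2, h2.1, h2.2]

theorem msg_eq (B : ℕ) (g : Fin 3 → Bool) (x : Fin 2 → ℝ) (ε : Bool) :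
    Real.exp (siteMessage ((satM B).θ ((), g)) x ε) =
      1 - (B : ℝ) / (B + 1) * ((if ε = g 2 then 0 else 1) *
        ∏ l : Fin 2, tilt (x l) (!g l.castSucc)) := by
  have h := sum_viol ((B : ℝ) / (B + 1) * (if ε = g 2 then 0 else 1))
    (fun l : Fin 2 => g l.castSucc) x
  rw [mul_assoc] at h
  have hb := sfac_bounds (bB_nonneg B) ε (g 2) (tprod_bounds x fun l => !g l.castSucc).1
    (tprod_bounds x fun l => !g l.castSucc).2
  have hb1 := bB_lt B
  rw [← Real.exp_log (lt_of_lt_of_le (by linarith) hb.1), ← h]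
  unfold siteMessage
  congr 2
  refine sum_congr rfl fun s _ => ?_
  rw [exp_theta, Fin.prod_univ_castSucc, mul_assoc, mul_comm (if ε = g 2 then (0 : ℝ) else 1)]
  rfl

theorem site_eq (B : ℕ) {k : ℕ} (g : Fin k × Fin 3 → Bool) (x : Fin k × Fin 2 → ℝ) :
    siteTerm (p := 3) 0 (fun j => (satM B).θ ((), fun l => g (j, l))) (fun j l => x (j, l)) =
      sW ((B : ℝ) / (B + 1)) g x := by
  unfold siteTerm sW
  congr 1
  refine sum_congr rfl fun ε _ => ?_
  rw [zero_mul, zero_add, Real.exp_sum]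
  exact prod_congr rfl fun j _ => msg_eq B _ _ ε

/-- Average site value. -/
noncomputable def SA (b : ℝ) (v : Valuation) (k : ℕ) : ℝ :=
  (1 / 8) ^ k * ∑ g : Fin k × Fin 3 → Bool, v (Fin k × Fin 2) (sW b g)

/-- Average edge value. -/
noncomputable def EA (b : ℝ) (v : Valuation) : ℝ :=
  (1 / 8) * ∑ g : Fin 3 → Bool, v (Fin 3) (eW b g)

/-- Clause types as sign arrays. -/
def eqS (B k : ℕ) : (Fin k × Fin 3 → Bool) ≃ (Fin k → (satM B).Θ) where
  toFun g := fun j => ((), fun l => g (j, l))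
  invFun c := fun p => (c p.1).2 p.2
  left_inv _ := rfl
  right_inv _ := rfl

/-- One clause type as a sign vector. -/
def eqE (B : ℕ) : (Fin 3 → Bool) ≃ (satM B).Θ where
  toFun g := ((), g)
  invFun c := c.2
  left_inv _ := rfl
  right_inv _ := rfl

theorem w_eq (B : ℕ) (c : (satM B).Θ) : (satM B).w c = 1 / 8 := by
  change (1 : ℝ) * ∏ _j : Fin 3, (1 / 2 : ℝ) = 1 / 8
  simp
  norm_num

theorem gen_eq (B : ℕ) (a : ℝ) (v : Valuation) :
    (satM B).gen a v = Real.log 2 +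
      (∑' k, poissonWeight (a * 3) k * SA ((B : ℝ) / (B + 1)) v k) -
      a * 2 * EA ((B : ℝ) / (B + 1)) v := by
  unfold Model.gen SA EA
  simp only [w_eq]
  congr 2
  · refine tsum_congr fun k => ?_
    congr 1
    rw [mul_sum]
    symm
    refine Fintype.sum_equiv (eqS B k) _ _ fun g => ?_
    rw [prod_const, card_univ, Fintype.card_fin]
    congr 1
    change _ = ∑ _a : Unit, (1 : ℝ) * v (Fin k × Fin 2) fun x =>
      siteTerm (p := 3) 0 (fun j => (satM B).θ ((), fun l => g (j, l))) (fun j l => x (j, l))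
    simp only [site_eq, Fintype.sum_unique, one_mul]
  · norm_num
  · rw [mul_sum]
    symm
    refine Fintype.sum_equiv (eqE B) _ _ fun g => ?_
    congr 2
    funext x
    exact (edge_eq B g x).symm

variable (T : FT) {r : ℕ} {m : Fin r → ℝ}

theorem val_nonpos (hm : AdmissibleExponents m) {L : Type} [Fintype L] [DecidableEq L]
    {W : (L → ℝ) → ℝ} (hW : ∀ x, 0 < W x) (hW1 : ∀ x, W x ≤ 1) : T.val m L W ≤ 0 := by
  have := val_le T hm hW (W' := fun _ => 1) (fun _ => one_pos) one_pos (by simpa using hW1)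
  rwa [val_one, Real.log_one, add_zero] at this

theorem sW_pos {b : ℝ} (hb0 : 0 ≤ b) (hb1 : b < 1) {k : ℕ} (g : Fin k × Fin 3 → Bool)
    (x : Fin k × Fin 2 → ℝ) : 0 < sW b g x :=
  lt_of_lt_of_le (pow_pos (by linarith) k) (sW_bounds hb0 hb1 g x).1

theorem SA_nonpos (hm : AdmissibleExponents m) {b : ℝ} (hb0 : 0 ≤ b) (hb1 : b < 1) (k : ℕ) :
    SA b (T.val m) k ≤ 0 :=
  mul_nonpos_of_nonneg_of_nonpos (by positivity) (sum_nonpos fun g _ =>
    val_nonpos T hm (sW_pos hb0 hb1 g) fun x => (sW_bounds hb0 hb1 g x).2)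

theorem SA_abs (hm : AdmissibleExponents m) {b : ℝ} (hb0 : 0 ≤ b) (hb1 : b < 1) (k : ℕ) :
    |SA b (T.val m) k| ≤ -Real.log (1 - b) * (1 + k) := by
  have hl : 0 ≤ -Real.log (1 - b) := neg_nonneg.mpr (Real.log_nonpos (by linarith) (by linarith))
  have h : ∀ g : Fin k × Fin 3 → Bool,
      |T.val m (Fin k × Fin 2) (sW b g)| ≤ k * -Real.log (1 - b) := fun g =>
    abs_val_le T hm fun x => by
      constructor
      · rw [mul_neg, neg_neg, Real.exp_nat_mul, Real.exp_log (by linarith)]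
        exact (sW_bounds hb0 hb1 g x).1
      · exact (sW_bounds hb0 hb1 g x).2.trans (Real.one_le_exp (by positivity))
  unfold SA
  rw [mul_sum]
  refine (abs_avg_le (w := fun _ => (1 / 8 : ℝ) ^ k) (fun _ => by positivity) ?_ h).trans
    (by nlinarith)
  simp only [sum_const, card_univ, Fintype.card_fun, Fintype.card_bool, Fintype.card_prod,
    Fintype.card_fin, nsmul_eq_mul]
  push_cast
  rw [mul_comm k 3, pow_mul, ← mul_pow]
  norm_num

theorem SA_summable (hm : AdmissibleExponents m) {b : ℝ} (hb0 : 0 ≤ b) (hb1 : b < 1) (y : ℝ) :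
    Summable fun k => poissonWeight y k * SA b (T.val m) k := by
  have := (summable_poi y (SA_abs T hm hb0 hb1)).of_norm.mul_left (Real.exp (-y))
  simpa only [poissonWeight, mul_div_assoc, mul_assoc] using this

/-- The truncated functional. -/
noncomputable def genK (a b : ℝ) (v : Valuation) (K : ℕ) : ℝ :=
  Real.log 2 + Real.exp (-(a * 3)) * ∑ k ∈ range K, (a * 3) ^ k / (k.factorial : ℝ) * SA b v k -
    a * 2 * EA b v

theorem genK_eq (a b : ℝ) (v : Valuation) (K : ℕ) : genK a b v K =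
    Real.log 2 + ∑ k ∈ range K, poissonWeight (a * 3) k * SA b v k - a * 2 * EA b v := by
  simp only [genK, poissonWeight, mul_sum, mul_div_assoc, mul_assoc]

theorem gen_le_genK (hm : AdmissibleExponents m) (B : ℕ) {a : ℝ} (ha : 0 ≤ a) (K : ℕ) :
    (satM B).gen a (T.val m) ≤ genK a ((B : ℝ) / (B + 1)) (T.val m) K := by
  rw [gen_eq, genK_eq, ← (SA_summable T hm (bB_nonneg B) (bB_lt B) (a * 3)).sum_add_tsum_nat_add K]
  have : ∑' k, poissonWeight (a * 3) (k + K) * SA ((B : ℝ) / (B + 1)) (T.val m) (k + K) ≤ 0 :=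
    tsum_nonpos fun k => mul_nonpos_of_nonneg_of_nonpos (by unfold poissonWeight; positivity)
      (SA_nonpos T hm (bB_nonneg B) (bB_lt B) _)
  linarith

theorem genK_tendsto (hm : AdmissibleExponents m) (B : ℕ) (a : ℝ) :
    Tendsto (genK a ((B : ℝ) / (B + 1)) (T.val m)) atTop (𝓝 ((satM B).gen a (T.val m))) := by
  rw [gen_eq]
  have h := (SA_summable T hm (bB_nonneg B) (bB_lt B) (a * 3)).hasSum.tendsto_sum_nat
  refine ((h.const_add (Real.log 2)).sub_const _).congr fun K => ?_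
  rw [genK_eq]

end Crest.Agent.R153.CU
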