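import Crest.Agent.R153.Tilt

/-! Counting clauses. -/

set_option autoImplicit false
set_option maxHeartbeats 400000

namespace Crest.Agent.R153

open Finset
open scoped BigOperators

variable {V : Type} [Fintype V] [DecidableEq V] {k : ℕ}

/-- Assignments satisfying a clause. -/
def csat (c : Cl k V) : Set (V → Bool) := {σ | ∃ i, σ (c.1 i) = c.2 i}

open Classical in
/-- Injective tuples of variables from `A`. -/
noncomputable def IA (k : ℕ) (A : Finset V) : Finset (Fin k → V) :=
  univ.filter fun v => Function.Injective v ∧ ∀ i, v i ∈ A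

/-- Clauses on distinct variables from `A`. -/
noncomputable def CA (k : ℕ) (A : Finset V) : Finset (Cl k V) := IA k A ×ˢ univ

theorem mem_CA {A : Finset V} {c : Cl k V} :
    c ∈ CA k A ↔ Function.Injective c.1 ∧ ∀ i, c.1 i ∈ A := by simp [CA, IA]

theorem card_IA (A : Finset V) : (IA k A).card = A.card.descFactorial k := by
  have := Fintype.card_embedding_eq (α := Fin k) (β := A)
  rw [Fintype.card_coe, Fintype.card_fin] at this
  rw [← this, ← card_univ]
  refine (card_bij (fun (e : Fin k ↪ A) _ i => (e i : V)) (fun e _ => ?_) (fun e _ e' _ h => ?_)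
    (fun v hv => ?_)).symm
  · simp only [IA, mem_filter, mem_univ, true_and]
    exact ⟨fun i j h => e.injective (Subtype.ext h), fun i => (e i).2⟩
  · ext i; exact congrFun h i
  · simp only [IA, mem_filter, mem_univ, true_and] at hv
    exact ⟨⟨fun i => ⟨v i, hv.2 i⟩, fun i j h => hv.1 (congrArg Subtype.val h)⟩, mem_univ _, rfl⟩

theorem card_CA (A : Finset V) : (CA k A).card = A.card.descFactorial k * 2 ^ k := by
  simp [CA, card_IA]

theorem CA_nonempty {A : Finset V} (h : k ≤ A.card) : (CA k A).Nonempty := by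
  rw [← card_pos, card_CA]
  exact Nat.mul_pos (Nat.descFactorial_pos.2 h) (by positivity)

/-- The clause contains the variable `y`. -/
def touch (y : V) (c : Cl k V) : Prop := ∃ i, c.1 i = y

instance (y : V) : DecidablePred (touch (k := k) y) :=
  fun c => inferInstanceAs (Decidable (∃ i, c.1 i = y))

theorem CA_not_touch (A : Finset V) (y : V) :
    (CA k A).filter (¬ touch y ·) = CA k (A.erase y) := by
  ext c
  simp only [mem_filter, mem_CA, touch, not_exists, mem_erase, forall_and]
  tauto

theorem card_touch {A : Finset V} {y : V} (hy : y ∈ A) :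
    ((CA (k + 1) A).filter (touch y)).card =
      (k + 1) * (A.card - 1).descFactorial k * 2 ^ (k + 1) := by
  have h := card_filter_add_card_filter_not (s := CA (k + 1) A) (touch y)
  rw [CA_not_touch, card_CA, card_CA, card_erase_of_mem hy] at h
  obtain ⟨n, hn⟩ : ∃ n, A.card = n + 1 := ⟨A.card - 1, by have := card_pos.2 ⟨y, hy⟩; omega⟩
  rw [hn, Nat.add_sub_cancel] at h ⊢
  rw [Nat.succ_descFactorial_succ, Nat.descFactorial_succ] at h
  rcases le_or_gt k n with hk | hk
  · obtain ⟨d, rfl⟩ := Nat.exists_eq_add_of_le hk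
    rw [Nat.add_sub_cancel_left] at h
    nlinarith
  · rw [Nat.descFactorial_eq_zero_iff_lt.2 hk] at h ⊢
    omega

theorem touch_ratio {A : Finset V} {y : V} (hy : y ∈ A) :
    (((CA (k + 1) A).filter (touch y)).card : ℝ) / (CA (k + 1) A).card ≤ (k + 1) / A.card := by
  obtain ⟨n, hn⟩ : ∃ n, A.card = n + 1 := ⟨A.card - 1, by have := card_pos.2 ⟨y, hy⟩; omega⟩
  rw [card_touch hy, card_CA, hn, Nat.add_sub_cancel, Nat.succ_descFactorial_succ]
  push_cast
  rcases (Nat.cast_nonneg (α := ℝ) (n.descFactorial k)).eq_or_lt with h | h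
  · rw [← h]; simp; positivity
  · exact le_of_eq (by field_simp)

open Classical in
/-- Variables of `A` that are frozen in `S`. -/
noncomputable def frz (A : Finset V) (S : Set (V → Bool)) : Finset V :=
  A.filter fun v => ∃ b, ∀ σ ∈ S, σ v = b

theorem frz_mono (A : Finset V) {S S' : Set (V → Bool)} (h : S' ⊆ S) : frz A S ⊆ frz A S' := by
  intro v hv
  simp only [frz, mem_filter] at hv ⊢
  exact ⟨hv.1, hv.2.imp fun b hb σ hσ => hb σ (h hσ)⟩

open Classical in
theorem hazard_CA {A : Finset V} {b : ℝ} (hb : 0 < b) (hn : 2 * k ≤ b * A.card)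
    (hA : A.Nonempty) {S : Set (V → Bool)} (hS : b * A.card ≤ (frz A S).card) :
    (b / 4) ^ k ≤ 𝔼 c ∈ CA k A, if S ∩ csat c = ∅ then (1 : ℝ) else 0 := by
  have hfA : (frz A S).card ≤ A.card := card_le_card (filter_subset _ _)
  have hk : k ≤ (frz A S).card := by
    have : (k : ℝ) ≤ (frz A S).card := by linarith [Nat.cast_nonneg (α := ℝ) k]
    exact_mod_cast this
  have hA0 : (0 : ℝ) < A.card := by exact_mod_cast hA.card_pos
  set val : V → Bool := fun v => if h : ∃ b, ∀ σ ∈ S, σ v = b then h.choose else false with hval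
  have h1 : (frz A S).card.descFactorial k ≤ ((CA k A).filter fun c => S ∩ csat c = ∅).card := by
    rw [← card_IA]
    refine card_le_card_of_injOn (fun v => (v, fun i => !val (v i))) (fun v hv => ?_)
      (fun v _ v' _ h => congrArg Prod.fst h)
    simp only [IA, frz, coe_filter, mem_filter, mem_univ, true_and, Set.mem_ofPred_eq] at hv
    simp only [coe_filter, mem_CA, Set.mem_ofPred_eq]
    refine ⟨⟨hv.1, fun i => (hv.2 i).1⟩, Set.eq_empty_of_forall_notMem ?_⟩
    rintro σ ⟨hσ, i, hi⟩
    have := (hv.2 i).2.choose_spec σ hσ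
    simp only [hval, dif_pos (hv.2 i).2, this] at hi
    simp at hi
  have h2 : (b * A.card / 2) ^ k ≤ (frz A S).card.descFactorial k := by
    refine le_trans (pow_le_pow_left₀ (b := (((frz A S).card + 1 - k : ℕ) : ℝ)) (by positivity) ?_ k)
      (by exact_mod_cast Nat.pow_sub_le_descFactorial (frz A S).card k)
    rw [Nat.cast_sub (by omega)]
    push_cast; linarith
  have h3 : ((CA k A).card : ℝ) ≤ A.card ^ k * 2 ^ k := by
    rw [card_CA]; exact_mod_cast Nat.mul_le_mul_right _ (Nat.descFactorial_le_pow _ _)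
  rw [expect_eq_sum_div_card, sum_boole, le_div_iff₀
    (by exact_mod_cast (CA_nonempty (hk.trans hfA)).card_pos)]
  refine (mul_le_mul_of_nonneg_left h3 (by positivity)).trans
    (le_trans (le_of_eq ?_) (h2.trans (by exact_mod_cast h1)))
  rw [← mul_pow, ← mul_pow]; congr 1; ring

/-- The clause with the literals on `y` removed. -/
def red (y : V) (c : Cl k V) : Set (V → Bool) := {σ | ∃ i, c.1 i ≠ y ∧ σ (c.1 i) = c.2 i}

open Classical in
theorem kill_le {A : Finset V} {y : V} (hy : y ∈ A) (hk : 2 ≤ k) (hn : 2 * (k + 1) ≤ A.card)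
    (S : Set (V → Bool)) :
    (𝔼 c ∈ (CA (k + 1) A).filter (touch y), if S ∩ red y c = ∅ then (1 : ℝ) else 0) ≤
      (2 * (frz (A.erase y) S).card / A.card) ^ 2 := by
  set F := frz (A.erase y) S with hF
  have hyF : y ∉ F := fun h => by simpa using filter_subset _ _ h
  have hA0 : (0 : ℝ) < A.card := by exact_mod_cast card_pos.2 ⟨y, hy⟩
  have h1 : (((CA (k + 1) A).filter (touch y)).filter fun c => S ∩ red y c = ∅) ⊆
      (CA (k + 1) (insert y F)).filter (touch y) := by
    intro c hc
    simp only [mem_filter, mem_CA] at hc ⊢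
    refine ⟨⟨hc.1.1.1, fun i => ?_⟩, hc.1.2⟩
    by_cases hi : c.1 i = y
    · simp [hi]
    · refine mem_insert_of_mem (mem_filter.2 ⟨mem_erase.2 ⟨hi, hc.1.1.2 i⟩, !c.2 i, fun σ hσ => ?_⟩)
      by_contra h
      exact (Set.eq_empty_iff_forall_notMem.1 hc.2) σ ⟨hσ, i, hi, by simpa using h⟩
  have h2 := card_le_card h1
  rw [card_touch (mem_insert_self _ _), card_insert_of_notMem hyF, Nat.add_sub_cancel] at h2
  have h3 : ((A.card : ℝ) / 2) ^ k ≤ (A.card - 1).descFactorial k := by
    refine le_trans (pow_le_pow_left₀ (b := ((A.card - 1 + 1 - k : ℕ) : ℝ)) (by positivity) ?_ k)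
      (by exact_mod_cast Nat.pow_sub_le_descFactorial (A.card - 1) k)
    have : (2 : ℝ) * (k + 1) ≤ A.card := by exact_mod_cast hn
    rw [Nat.cast_sub (by omega), Nat.sub_add_cancel (by omega)]
    linarith
  have h4 : (0 : ℝ) < (A.card - 1).descFactorial k := lt_of_lt_of_le (by positivity) h3
  set x : ℝ := 2 * F.card / A.card with hx
  have hx0 : 0 ≤ x := by positivity
  rcases le_total 1 x with h | h
  · refine le_trans ?_ (one_le_pow₀ h)
    rw [expect_eq_sum_div_card, sum_boole]
    exact div_le_one_of_le₀ (by exact_mod_cast card_filter_le _ _) (by positivity)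
  refine le_trans ?_ (pow_le_pow_of_le_one hx0 h hk)
  rw [expect_eq_sum_div_card, sum_boole, card_touch hy, div_le_iff₀ (by push_cast; positivity)]
  refine (Nat.cast_le.2 h2).trans ?_
  push_cast
  have h5 : (F.card.descFactorial k : ℝ) ≤ x ^ k * (A.card - 1).descFactorial k := by
    refine le_trans (b := (F.card : ℝ) ^ k) (by exact_mod_cast Nat.descFactorial_le_pow F.card k)
      (le_trans (le_of_eq ?_) (mul_le_mul_of_nonneg_left h3 (by positivity)))
    rw [← mul_pow, hx]; congr 1; field_simp
  calc _ ≤ (k + 1) * (x ^ k * (A.card - 1).descFactorial k) * 2 ^ (k + 1) := by gcongr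
    _ = _ := by ring

end Crest.Agent.R153
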