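import Crest.Agent.R141.Defs
import Crest.Prelude.Def_RandomSAT

/-!
Interface for row 153 (S0217: variance of the hitting time of random k-SAT; S0218: the 3-SAT
threshold is computable).
-/

set_option autoImplicit false

namespace Crest.Agent.R153

open Crest.Agent.R141 Crest.ProbabilityR.Diluted Finset
open scoped BigOperators

/-- Soft 3-SAT: a violated clause costs the factor `1 / (B + 1)`. A clause has signs `g`
(clause type `((), g)`) and is violated by `σ` when `σ j ≠ g j` for all three positions. -/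
noncomputable def satM (B : ℕ) : Model 3 where
  B := Unit
  F := Bool
  H := Unit
  wb _ := 1
  wf _ := 1 / 2
  wh _ := 1
  β _ := (B : ℝ) / (B + 1)
  f g σ := if σ = g then 0 else 1
  h _ := 0
  s := (B : ℝ) / (B + 1)
  wb_nonneg _ := zero_le_one
  wb_sum := by simp
  wf_nonneg _ := by norm_num
  wf_sum := by simp
  wh_nonneg _ := zero_le_one
  wh_sum := by simp
  s_lt := by rw [div_lt_one (by positivity)]; linarith
  bound _ g σ := by
    have h0 : ∀ j, (0 : ℝ) ≤ if σ j = g j then 0 else 1 := fun j => by split_ifs <;> norm_num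
    have h1 : ∀ j, (if σ j = g j then (0 : ℝ) else 1) ≤ 1 := fun j => by split_ifs <;> norm_num
    rw [abs_of_nonneg (mul_nonneg (by positivity) (prod_nonneg fun j _ => h0 j))]
    exact mul_le_of_le_one_right (by positivity) (prod_le_one (fun j _ => h0 j) fun j _ => h1 j)
  mom n := by simp; positivity

/-- Clauses with repeated variables allowed: variables and required values. -/
abbrev Cl (k : ℕ) (V : Type) : Type := (Fin k → V) × (Fin k → Bool)

/-- Number of clauses of `F` violated by `σ`. -/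
def cost {k m : ℕ} {V : Type} (F : Fin m → Cl k V) (σ : V → Bool) : ℕ :=
  (univ.filter fun j : Fin m => ∀ i, σ ((F j).1 i) ≠ (F j).2 i).card

/-- Least number of violated clauses. -/
def emin {k m N : ℕ} (F : Fin m → Cl k (Fin N)) : ℕ :=
  (univ : Finset (Fin N → Bool)).inf' univ_nonempty (cost F)

/-- Expected least number of violated clauses among `m` uniform 3-clauses on `N` variables
(variables drawn with replacement). -/
noncomputable def RR (N m : ℕ) : ℝ := 𝔼 F : Fin m → Cl 3 (Fin N), (emin F : ℝ)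

/-- (CU) "Some finite trial has a negative cavity functional" is recursively enumerable. -/
def PartCU : Prop :=
  ∃ P : (ℕ × ℕ × ℕ) × ℕ → Bool, Computable P ∧ ∀ j d B : ℕ,
    (∃ w, P ((j, d, B), w) = true) ↔ ∃ (r : ℕ) (m : Fin r → ℝ) (T : FT),
      AdmissibleExponents m ∧ (satM B).gen ((j : ℝ) / 2 ^ d) (T.val m) < 0

/-- (CL) The ground-state energy of finite systems is computable. -/
def PartCL : Prop :=
  ∃ F : ℕ × ℕ → ℕ, Computable F ∧ ∀ N m : ℕ, (F (N, m) : ℝ) = (8 * (N : ℝ) ^ 3) ^ m * RR N m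

/-- (P) The pressure of soft 3-SAT is sandwiched by the ground-state energy. -/
def PartP : Prop :=
  ∀ (B : ℕ) (a : ℝ), 0 < a → ∀ N : ℕ, 0 < N →
    -(Real.log (B + 1) * (RR N ⌊a * N⌋₊ + (√(a * N) + 1))) ≤ N * (satM B).press a N ∧
    N * (satM B).press a N ≤
      N * Real.log 2 - Real.log (B + 1) * (RR N ⌊a * N⌋₊ - (√(a * N) + 1))

/-- (T) Below the threshold the ground-state energy is sublinear, above it is linear with an
explicit rate. -/
def PartT : Prop :=
  ∀ α : ℝ, Crest.ProbabilityR.RandomSAT.IsSharpThreshold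
      (Crest.ProbabilityR.RandomSAT.satProb 3) α →
    (∀ a : ℝ, 0 ≤ a → a < α →
      Filter.Tendsto (fun N : ℕ => RR N ⌊a * N⌋₊ / N) Filter.atTop (nhds 0)) ∧
    ∀ C₀ : ℝ, ∃ A : ℝ, 0 < A ∧ ∀ ε : ℝ, 0 < ε → ε ≤ 1 → ∀ a : ℝ, α + ε ≤ a → a ≤ C₀ →
      ∀ᶠ N : ℕ in Filter.atTop, ε ^ 3 / A * N ≤ RR N ⌊a * N⌋₊

end Crest.Agent.R153
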