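import Crest.Agent.R153.Ex

/-! The entropy method on random lists: modified log-Sobolev inequality and Herbst argument. -/

set_option autoImplicit false
set_option maxHeartbeats 400000

namespace Crest.Agent.R153

open Finset Filter Topology
open scoped BigOperators

variable {C : Type*} {A : Finset C}

theorem one_coord (hA : A.Nonempty) (L r : C → ℝ) (hr : ∀ c, 0 < r c) (hr1 : 𝔼 c ∈ A, r c = 1)
    (D : C → C → ℝ) (hD : ∀ c c', L c - L c' ≤ D c' c) :
    𝔼 c ∈ A, Real.exp (L c) * Real.log (r c) ≤ 𝔼 c ∈ A, Real.exp (L c) * 𝔼 c' ∈ A, D c' c ^ 2 := by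
  have h1 : 𝔼 c ∈ A, Real.exp (L c) * Real.log (r c) ≤
      𝔼 c ∈ A, 𝔼 c' ∈ A, Real.exp (L c) * (L c - L c') := by
    have h2 : ∀ c c', Real.exp (L c) * Real.log (r c) ≤ Real.exp (L c) * (L c - L c') +
        (r c * Real.exp (L c') - Real.exp (L c)) := by
      intro c c'
      have := mul_le_mul_of_nonneg_left (Real.add_one_le_exp (Real.log (r c) - L c + L c'))
        (Real.exp_pos (L c)).le
      rw [Real.exp_add, Real.exp_sub, Real.exp_log (hr c), ← mul_assoc,
        mul_div_cancel₀ _ (Real.exp_pos _).ne'] at this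
      linarith
    refine (expect_le_expect fun c _ => le_expect hA fun c' _ => h2 c c').trans (le_of_eq ?_)
    simp only [expect_add_distrib, expect_sub_distrib, ← mul_expect, ← expect_mul, hr1,
      expect_const hA]
    ring
  have h3 : ∀ c c', L c' ≤ L c → Real.exp (L c) * (L c - L c') + Real.exp (L c') * (L c' - L c) ≤
      Real.exp (L c) * D c' c ^ 2 + Real.exp (L c') * D c c' ^ 2 := by
    intro c c' h
    have h4 := mul_le_mul_of_nonneg_left (Real.add_one_le_exp (L c' - L c)) (Real.exp_pos (L c)).le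
    rw [← Real.exp_add, add_sub_cancel] at h4
    have h5 := mul_le_mul_of_nonneg_left (pow_le_pow_left₀ (sub_nonneg.2 h) (hD c c') 2)
      (Real.exp_pos (L c)).le
    nlinarith [mul_nonneg (Real.exp_pos (L c')).le (sq_nonneg (D c c')),
      mul_le_mul_of_nonneg_right h4 (sub_nonneg.2 h)]
  have h6 := expect_le_expect (s := A) fun c _ => expect_le_expect (s := A) fun c' _ =>
    (le_total (L c') (L c)).elim (h3 c c') fun h => by linarith [h3 c' c h]
  simp only [expect_add_distrib] at h6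
  rw [expect_comm A A fun c c' => Real.exp (L c') * (L c' - L c),
    expect_comm A A fun c c' => Real.exp (L c') * D c c' ^ 2] at h6
  simp only [mul_expect]
  linarith

theorem Ex_pos (hA : A.Nonempty) : ∀ (M : ℕ) {f : List C → ℝ}, (∀ l, 0 < f l) → 0 < Ex A M f
  | 0, _, h => h _
  | M + 1, _, h => expect_pos (fun _ _ => Ex_pos hA M fun _ => h _) hA

theorem mlsi (hA : A.Nonempty) : ∀ (M : ℕ) (W : List C → ℝ) (D : C → List C → ℝ),
    (∀ l1 c c' l2, W (l1 ++ c :: l2) - W (l1 ++ c' :: l2) ≤ D c' (l1 ++ c :: l2)) →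
    Ex A M (fun l => Real.exp (W l) * W l) -
      Ex A M (fun l => Real.exp (W l)) * Real.log (Ex A M (fun l => Real.exp (W l))) ≤
      M * Ex A M (fun l => Real.exp (W l) * 𝔼 c' ∈ A, D c' l ^ 2)
  | 0, W, D, _ => by simp [Ex_zero]
  | M + 1, W, D, h => by
    have ih := expect_le_expect (s := A) fun c _ => mlsi hA M (fun l => W (c :: l))
      (fun c' l => D c' (c :: l)) (fun l1 => h (c :: l1))
    set g : C → ℝ := fun c => Ex A M (fun l => Real.exp (W (c :: l))) with hg
    have hg0 : ∀ c, 0 < g c := fun c => Ex_pos hA M fun _ => Real.exp_pos _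
    set m : ℝ := 𝔼 c ∈ A, g c with hm
    have hm0 : 0 < m := expect_pos (fun c _ => hg0 c) hA
    have h1 := Ex_mono (A := A) M fun l => one_coord hA (fun c => W (c :: l)) (fun c => g c / m)
      (fun c => div_pos (hg0 c) hm0) (by rw [← expect_div, div_self hm0.ne'])
      (fun c' c => D c' (c :: l)) (fun c c' => h [] c c' l)
    simp only [Ex_expect, Ex_mul_const, Real.log_div (hg0 _).ne' hm0.ne', mul_sub,
      expect_sub_distrib, ← expect_mul, ← mul_expect, Ex_sub] at h1 ih
    simp only [Ex_succ]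
    push_cast
    linarith

theorem Ex_hasDerivAt : ∀ (M : ℕ) (Z : List C → ℝ) (x : ℝ),
    HasDerivAt (fun t => Ex A M (fun l => Real.exp (t * Z l)))
      (Ex A M (fun l => Real.exp (x * Z l) * Z l)) x
  | 0, Z, x => by simpa [Ex_zero] using ((hasDerivAt_id x).mul_const (Z [])).exp
  | M + 1, Z, x => by
    simp only [Ex_succ, expect_eq_sum_div_card]
    exact (HasDerivAt.fun_sum fun c _ => Ex_hasDerivAt M (fun l => Z (c :: l)) x).div_const _

theorem herbst (hA : A.Nonempty) (M : ℕ) (Z : List C → ℝ) {K lam0 : ℝ}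
    (h : ∀ t, 0 < t → t ≤ lam0 → Ex A M (fun l => Real.exp (t * Z l) * (t * Z l)) -
      Ex A M (fun l => Real.exp (t * Z l)) * Real.log (Ex A M (fun l => Real.exp (t * Z l))) ≤
      K * t ^ 2 * Ex A M (fun l => Real.exp (t * Z l))) {lam : ℝ} (h0 : 0 < lam)
    (h1 : lam ≤ lam0) :
    Real.log (Ex A M (fun l => Real.exp (lam * Z l))) ≤ lam * Ex A M Z + K * lam ^ 2 := by
  set φ : ℝ → ℝ := fun t => Ex A M (fun l => Real.exp (t * Z l)) with hφ
  have hp : ∀ t, 0 < φ t := fun t => Ex_pos hA M fun _ => Real.exp_pos _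
  have hd : ∀ t, HasDerivAt (fun t => Real.log (φ t))
      (Ex A M (fun l => Real.exp (t * Z l) * Z l) / φ t) t :=
    fun t => (Ex_hasDerivAt M Z t).log (hp t).ne'
  have hd2 : ∀ t, 0 < t → HasDerivAt (fun t => Real.log (φ t) / t - K * t)
      ((Ex A M (fun l => Real.exp (t * Z l) * Z l) / φ t * t - Real.log (φ t) * 1) / t ^ 2 -
        K * 1) t :=
    fun t ht => ((hd t).div (hasDerivAt_id t) ht.ne').sub ((hasDerivAt_id t).const_mul K)
  have anti : AntitoneOn (fun t => Real.log (φ t) / t - K * t) (Set.Ioc 0 lam0) := by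
    refine antitoneOn_of_deriv_nonpos (convex_Ioc _ _)
      (fun t ht => (hd2 t ht.1).continuousAt.continuousWithinAt) (fun t ht => ?_) (fun t ht => ?_)
    · exact (hd2 t (interior_subset ht).1).differentiableAt.differentiableWithinAt
    · have ht' := interior_subset ht
      rw [(hd2 t ht'.1).deriv, mul_one, mul_one, sub_nonpos, div_le_iff₀ (pow_pos ht'.1 2)]
      refine le_of_mul_le_mul_right ?_ (hp t)
      have := h t ht'.1 ht'.2
      simp only [mul_left_comm _ t, Ex_const_mul] at this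
      rw [sub_mul, mul_right_comm, div_mul_cancel₀ _ (hp t).ne']
      linarith
  have hφ0 : φ 0 = 1 := by simp [hφ, Ex_const hA]
  have lim : Tendsto (fun t => Real.log (φ t) / t - K * t) (𝓝[>] 0) (𝓝 (Ex A M Z - K * 0)) := by
    refine Tendsto.sub ?_ (((continuous_const.mul continuous_id).tendsto 0).mono_left
      nhdsWithin_le_nhds)
    have := (hd 0).tendsto_slope_zero_right
    simpa [hφ0, div_eq_inv_mul] using this
  have key : Real.log (φ lam) / lam - K * lam ≤ Ex A M Z - K * 0 :=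
    ge_of_tendsto lim (by
      filter_upwards [Ioc_mem_nhdsGT h0] with t ht
      exact anti ⟨ht.1, ht.2.trans h1⟩ ⟨h0, h1⟩ ht.2)
  rw [mul_zero, sub_zero, sub_le_iff_le_add, div_le_iff₀ h0] at key
  linarith

theorem cubic_le_exp (x : ℝ) : 1 + x + x ^ 2 / 2 + x ^ 3 / 6 ≤ Real.exp x := by
  rcases le_total 0 x with h | h
  · have := Real.sum_le_exp_of_nonneg h 4
    simp only [sum_range_succ, range_zero, sum_empty, Nat.factorial] at this
    norm_num at this; linarith
  have hd : ∀ x : ℝ, HasDerivAt (fun x => Real.exp x - (1 + x + x ^ 2 / 2 + x ^ 3 / 6))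
      (Real.exp x - (1 + x + x ^ 2 / 2)) x := fun x => by
    refine ((Real.hasDerivAt_exp x).sub (((((hasDerivAt_id' x).const_add 1).fun_add
      ((hasDerivAt_pow 2 x).div_const 2))).fun_add
      ((hasDerivAt_pow 3 x).div_const 6))).congr_deriv ?_
    norm_num; ring
  have anti := antitoneOn_of_deriv_nonpos (convex_Iic (0 : ℝ))
    (fun t _ => (hd t).continuousAt.continuousWithinAt)
    (fun t _ => (hd t).differentiableAt.differentiableWithinAt) (fun t ht => by
      have ht' : t ≤ 0 := Set.mem_Iic.1 (interior_subset ht)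
      have h1 := Real.quadratic_le_exp_of_nonneg (neg_nonneg.2 ht')
      have h2 : Real.exp t * Real.exp (-t) = 1 := by rw [← Real.exp_add]; simp
      rw [(hd t).deriv, sub_nonpos]
      refine le_of_mul_le_mul_right ?_ (Real.exp_pos (-t))
      have h3 : 0 ≤ 1 + t + t ^ 2 / 2 := by nlinarith [sq_nonneg (t + 1)]
      nlinarith [mul_le_mul_of_nonneg_left h1 h3, sq_nonneg (t ^ 2)])
  have := anti h (Set.mem_Iic.2 le_rfl) h
  simp at this; linarith

/-- A sub-Gaussian bound on the upper tail bounds the variance. -/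
theorem var_le (hA : A.Nonempty) (M : ℕ) (Z : List C → ℝ) {K lam0 : ℝ} (h0 : 0 < lam0)
    (h : ∀ t, 0 < t → t ≤ lam0 →
      Real.log (Ex A M (fun l => Real.exp (t * Z l))) ≤ t * Ex A M Z + K * t ^ 2) :
    Ex A M (fun l => Z l ^ 2) - Ex A M Z ^ 2 ≤ 2 * K := by
  set μ := Ex A M Z with hμ
  set v := Ex A M (fun l => (Z l - μ) ^ 2) with hv
  set w := Ex A M (fun l => (Z l - μ) ^ 3) with hw
  have e1 : Ex A M (fun l => Z l ^ 2) - μ ^ 2 = v := by
    have : (fun l => (Z l - μ) ^ 2) = fun l => Z l ^ 2 - 2 * μ * Z l + μ ^ 2 := by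
      funext l; ring
    rw [hv, this, Ex_add, Ex_sub, Ex_const_mul, Ex_const hA]; ring
  rw [e1]
  have h2 : ∀ t, 0 < t → t ≤ lam0 → v / 2 + t * (w / 6) ≤ (Real.exp (K * t ^ 2) - 1) / t ^ 2 := by
    intro t ht ht'
    have h3 := h t ht ht'
    rw [Real.log_le_iff_le_exp (Ex_pos hA M fun _ => Real.exp_pos _), Real.exp_add] at h3
    have h4 : Ex A M (fun l => 1 + t * (Z l - μ) + t ^ 2 / 2 * (Z l - μ) ^ 2 +
        t ^ 3 / 6 * (Z l - μ) ^ 3) ≤ Ex A M (fun l => Real.exp (-(t * μ)) * Real.exp (t * Z l)) := by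
      refine Ex_mono M fun l => ?_
      rw [← Real.exp_add, show -(t * μ) + t * Z l = t * (Z l - μ) by ring]
      set x := t * (Z l - μ) with hx
      have := cubic_le_exp x
      refine le_of_eq_of_le (by rw [hx]; ring) this
    simp only [Ex_add, Ex_const_mul, Ex_sub, Ex_const hA, ← hμ, sub_self] at h4
    rw [Real.exp_neg, ← hv, ← hw] at h4
    have h5 := h4.trans ((inv_mul_le_iff₀ (Real.exp_pos _)).2 h3)
    rw [le_div_iff₀ (by positivity)]
    linarith
  have l1 : Tendsto (fun t : ℝ => v / 2 + t * (w / 6)) (𝓝[>] 0) (𝓝 (v / 2 + 0 * (w / 6))) :=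
    ((continuous_const.add (continuous_id.mul continuous_const)).tendsto 0).mono_left
      nhdsWithin_le_nhds
  have l2 : Tendsto (fun t : ℝ => (Real.exp (K * t ^ 2) - 1) / t ^ 2) (𝓝[>] 0) (𝓝 K) := by
    have d : HasDerivAt (fun s : ℝ => Real.exp (K * s)) (Real.exp (K * 0) * (K * 1)) 0 :=
      ((hasDerivAt_id (0 : ℝ)).const_mul K).exp
    have l3 : Tendsto (fun t : ℝ => t ^ 2) (𝓝[>] 0) (𝓝[>] 0) := by
      refine tendsto_nhdsWithin_iff.2 ⟨?_, ?_⟩
      · simpa using ((continuous_pow 2).tendsto (0 : ℝ)).mono_left nhdsWithin_le_nhds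
      · filter_upwards [self_mem_nhdsWithin] with t ht using pow_pos (Set.mem_Ioi.1 ht) 2
    simpa [Function.comp_def, div_eq_inv_mul] using d.tendsto_slope_zero_right.comp l3
  have := le_of_tendsto_of_tendsto l1 l2 (by
    filter_upwards [Ioc_mem_nhdsGT h0] with t ht using h2 t ht.1 ht.2)
  linarith

end Crest.Agent.R153
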