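import Crest.Agent.R153.Defs

/-! Expectations over random lists; hitting times of random constraint sequences. -/

set_option autoImplicit false
set_option maxHeartbeats 400000

namespace Crest.Agent.R153

open Finset
open scoped BigOperators

section ex

variable {C : Type*}

/-- Expectation over lists of `M` independent uniform elements of `A`. -/
noncomputable def Ex (A : Finset C) : ℕ → (List C → ℝ) → ℝ
  | 0, f => f []
  | M + 1, f => 𝔼 c ∈ A, Ex A M (fun l => f (c :: l))

variable {A : Finset C}

theorem Ex_zero (f : List C → ℝ) : Ex A 0 f = f [] := rfl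

theorem Ex_succ (M : ℕ) (f : List C → ℝ) :
    Ex A (M + 1) f = 𝔼 c ∈ A, Ex A M (fun l => f (c :: l)) := rfl

theorem Ex_mono' : ∀ (M : ℕ) {f g : List C → ℝ},
    (∀ l, l.length = M → (∀ c ∈ l, c ∈ A) → f l ≤ g l) → Ex A M f ≤ Ex A M g
  | 0, _, _, h => h [] rfl (by simp)
  | M + 1, _, _, h => expect_le_expect fun c hc => Ex_mono' M fun l hl hA =>
      h (c :: l) (by simp [hl]) (by simpa [hc] using hA)

theorem Ex_mono (M : ℕ) {f g : List C → ℝ} (h : ∀ l, f l ≤ g l) : Ex A M f ≤ Ex A M g :=
  Ex_mono' M fun l _ _ => h l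

theorem Ex_add : ∀ (M : ℕ) (f g : List C → ℝ),
    Ex A M (fun l => f l + g l) = Ex A M f + Ex A M g
  | 0, _, _ => rfl
  | M + 1, f, g => by simp only [Ex_succ, Ex_add M, expect_add_distrib]

theorem Ex_const_mul : ∀ (M : ℕ) (a : ℝ) (f : List C → ℝ),
    Ex A M (fun l => a * f l) = a * Ex A M f
  | 0, _, _ => rfl
  | M + 1, a, f => by simp only [Ex_succ, Ex_const_mul M, mul_expect]

theorem Ex_mul_const (M : ℕ) (a : ℝ) (f : List C → ℝ) :
    Ex A M (fun l => f l * a) = Ex A M f * a := by
  simp only [mul_comm _ a, Ex_const_mul]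

theorem Ex_sub (M : ℕ) (f g : List C → ℝ) :
    Ex A M (fun l => f l - g l) = Ex A M f - Ex A M g := by
  have := Ex_add (A := A) M f (fun l => (-1) * g l)
  rw [Ex_const_mul] at this
  simpa [sub_eq_add_neg] using this

theorem Ex_const (hA : A.Nonempty) : ∀ (M : ℕ) (a : ℝ), Ex A M (fun _ => a) = a
  | 0, _ => rfl
  | M + 1, a => by simp only [Ex_succ, Ex_const hA M, expect_const hA]

theorem Ex_nonneg (M : ℕ) {f : List C → ℝ} (h : ∀ l, 0 ≤ f l) : 0 ≤ Ex A M f := by
  have := Ex_const_mul (A := A) M 0 (fun _ => 0)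
  simp only [zero_mul] at this
  exact this.symm.trans_le (Ex_mono M h)

theorem Ex_sum {ι : Type*} (s : Finset ι) : ∀ (M : ℕ) (f : ι → List C → ℝ),
    Ex A M (fun l => ∑ i ∈ s, f i l) = ∑ i ∈ s, Ex A M (f i)
  | 0, _ => rfl
  | M + 1, f => by simp only [Ex_succ, Ex_sum s M, expect_sum_comm]

theorem Ex_expect {ι : Type*} (s : Finset ι) (M : ℕ) (f : ι → List C → ℝ) :
    Ex A M (fun l => 𝔼 i ∈ s, f i l) = 𝔼 i ∈ s, Ex A M (f i) := by
  simp only [expect_eq_sum_div_card, div_eq_mul_inv, Ex_mul_const, Ex_sum]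

theorem expect_split (t : C → Prop) [DecidablePred t] (f : C → ℝ) :
    𝔼 c ∈ A, f c = ((A.filter fun c => ¬ t c).card : ℝ) / A.card * 𝔼 c ∈ A.filter (¬ t ·), f c +
      ((A.filter t).card : ℝ) / A.card * 𝔼 c ∈ A.filter t, f c := by
  simp only [div_mul_eq_mul_div, card_mul_expect]
  rw [← add_div, add_comm, sum_filter_add_sum_filter_not, expect_eq_sum_div_card]

/-- Thinning: split a random list according to a predicate. -/
theorem Ex_thin (t : C → Prop) [DecidablePred t] (z : ℝ) :
    ∀ (M : ℕ) (G : ℝ) (F : List C → List C → ℝ),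
    (∀ M' J, M' + J = M → Ex (A.filter t) J (fun l1 => Ex (A.filter (¬ t ·)) M'
      (fun l0 => F l0 l1)) ≤ G * z ^ J) →
    Ex A M (fun l => F (l.filter (¬ t ·)) (l.filter t)) ≤
      G * (((A.filter fun c => ¬ t c).card : ℝ) / A.card +
        ((A.filter t).card : ℝ) / A.card * z) ^ M
  | 0, G, F, h => h 0 0 rfl
  | M + 1, G, F, h => by
    rw [Ex_succ, expect_split t]
    have h0 := Ex_thin t z M G (fun l0 l1 => 𝔼 c ∈ A.filter (¬ t ·), F (c :: l0) l1)
      (fun M' J hM => by
        simpa only [Ex_succ, Ex_expect] using h (M' + 1) J (by omega))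
    have h1 := Ex_thin t z M (G * z) (fun l0 l1 => 𝔼 c ∈ A.filter t, F l0 (c :: l1))
      (fun M' J hM => by
        have := h M' (J + 1) (by omega)
        rw [pow_succ', ← mul_assoc] at this
        simpa only [Ex_succ, Ex_expect] using this)
    rw [Ex_expect] at h0 h1
    rw [expect_congr (g := fun c => Ex A M fun l => F (c :: l.filter (¬ t ·)) (l.filter t)) rfl
      (fun c hc => by simp [(mem_filter.1 hc).2]),
      expect_congr (s := A.filter t)
        (g := fun c => Ex A M fun l => F (l.filter (¬ t ·)) (c :: l.filter t)) rfl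
      (fun c hc => by simp [(mem_filter.1 hc).2])]
    refine (add_le_add (mul_le_mul_of_nonneg_left h0 (by positivity))
      (mul_le_mul_of_nonneg_left h1 (by positivity))).trans (le_of_eq ?_)
    ring

theorem Ex_subset {B : Finset C} (hB : B ⊆ A) : ∀ (M : ℕ) {f : List C → ℝ}, (∀ l, 0 ≤ f l) →
    ((B.card : ℝ) / A.card) ^ M * Ex B M f ≤ Ex A M f
  | 0, _, _ => by simp [Ex_zero]
  | M + 1, f, h => by
    rw [Ex_succ, Ex_succ, pow_succ', mul_assoc, mul_expect, div_mul_eq_mul_div, card_mul_expect,
      expect_eq_sum_div_card]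
    refine div_le_div_of_nonneg_right ((sum_le_sum fun c _ =>
      Ex_subset hB M fun l => h _).trans ?_) (by positivity)
    exact sum_le_sum_of_subset_of_nonneg hB fun c _ _ => Ex_nonneg M fun l => h _

end ex

section ht

variable {C X : Type*} (sat : C → Set X)

open Classical in
/-- The number of prefixes (of length less than the length of the list) that are satisfiable
inside `S`. -/
noncomputable def HT : Set X → List C → ℕ
  | _, [] => 0
  | S, c :: l => if S.Nonempty then HT (S ∩ sat c) l + 1 else 0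

@[simp] theorem HT_nil (S : Set X) : HT sat S [] = 0 := rfl

theorem HT_cons {S : Set X} (h : S.Nonempty) (c : C) (l : List C) :
    HT sat S (c :: l) = HT sat (S ∩ sat c) l + 1 := by simp [HT, h]

@[simp] theorem HT_empty : ∀ l : List C, HT sat ∅ l = 0
  | [] => rfl
  | _ :: _ => by simp [HT]

theorem HT_le_length : ∀ (l : List C) (S : Set X), HT sat S l ≤ l.length
  | [], _ => le_rfl
  | c :: l, S => by
    rcases S.eq_empty_or_nonempty with rfl | h
    · simp
    · rw [HT_cons sat h]; exact Nat.succ_le_succ (HT_le_length l _)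

theorem HT_mono : ∀ (l : List C) {S S' : Set X}, S ⊆ S' → HT sat S l ≤ HT sat S' l
  | [], _, _, _ => le_rfl
  | c :: l, S, S', hS => by
    rcases S.eq_empty_or_nonempty with rfl | h
    · simp
    · rw [HT_cons sat h, HT_cons sat (h.mono hS)]
      exact Nat.succ_le_succ (HT_mono l (Set.inter_subset_inter_left _ hS))

theorem HT_replace (c c' : C) (l2 : List C) : ∀ (l1 : List C) (S : Set X),
    HT sat (S ∩ sat c') (l1 ++ c :: l2) ≤ HT sat S (l1 ++ c' :: l2)
  | [], S => by
    rcases (S ∩ sat c').eq_empty_or_nonempty with h | h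
    · simp [h]
    · simp only [List.nil_append]
      rw [HT_cons sat h, HT_cons sat h.left]
      exact Nat.succ_le_succ (HT_mono sat l2 Set.inter_subset_left)
  | d :: l1, S => by
    rcases (S ∩ sat c').eq_empty_or_nonempty with h | h
    · simp [h]
    · simp only [List.cons_append]
      rw [HT_cons sat h, HT_cons sat h.left, Set.inter_right_comm]
      exact Nat.succ_le_succ (HT_replace c c' l2 l1 _)

theorem HT_le_filter (t : C → Prop) [DecidablePred t] : ∀ (l : List C) (S : Set X),
    HT sat S l ≤ HT sat S (l.filter (¬ t ·)) + (l.filter t).length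
  | [], _ => le_rfl
  | c :: l, S => by
    rcases S.eq_empty_or_nonempty with rfl | h
    · simp
    · have ih := HT_le_filter t l (S ∩ sat c)
      by_cases hc : t c
      · have := HT_mono sat (l.filter (¬ t ·)) (Set.inter_subset_left (s := S) (t := sat c))
        simp only [List.filter_cons, hc, not_true, decide_false, decide_true, if_true,
          List.length_cons, Bool.false_eq_true, if_false]
        rw [HT_cons sat h]; omega
      · simp only [List.filter_cons, hc, not_false_iff, decide_false, decide_true, if_true,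
          Bool.false_eq_true, if_false]
        rw [HT_cons sat h, HT_cons sat h]; omega

/-- Loss caused by imposing the extra constraint `a`. -/
noncomputable def loss (S a : Set X) (l : List C) : ℝ := (HT sat S l : ℝ) - HT sat (S ∩ a) l

theorem loss_nonneg (S a : Set X) (l : List C) : 0 ≤ loss sat S a l :=
  sub_nonneg.2 (by exact_mod_cast HT_mono sat l Set.inter_subset_left)

theorem loss_le (S a : Set X) (l : List C) : loss sat S a l ≤ HT sat S l :=
  sub_le_self _ (Nat.cast_nonneg _)

theorem loss_sq_le (S a : Set X) (l : List C) : loss sat S a l ^ 2 ≤ (HT sat S l : ℝ) ^ 2 :=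
  pow_le_pow_left₀ (loss_nonneg sat S a l) (loss_le sat S a l) 2

open Classical in
theorem loss_cons_sq {S : Set X} (h : S.Nonempty) (a : Set X) (c : C) (l : List C) :
    loss sat S a (c :: l) ^ 2 = loss sat (S ∩ sat c) a l ^ 2 +
      (if S ∩ a = ∅ then 1 else 0) * (2 * HT sat (S ∩ sat c) l + 1) := by
  simp only [loss, HT_cons sat h]
  split_ifs with h1
  · rw [Set.inter_right_comm, h1]; simp; ring
  · rw [HT_cons sat (Set.nonempty_iff_ne_empty.2 h1), Set.inter_right_comm]; push_cast; ring

open Classical in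
/-- Time survived after the set has become `big`. -/
noncomputable def NB (big : Set X → Prop) : Set X → List C → ℕ
  | _, [] => 0
  | S, c :: l => if big S then HT sat S (c :: l) else NB big (S ∩ sat c) l

theorem NB_empty (big : Set X → Prop) : ∀ l : List C, NB sat big ∅ l = 0
  | [] => rfl
  | _ :: l => by simp [NB, NB_empty big l]

open Classical in
theorem loss_avg_le {P R : Type*} (π : Finset P) (a : P → Set X) (ρ : Finset R) (a' : R → Set X)
    (big : Set X → Prop) {κ η : ℝ} (hκ : 0 ≤ κ) (hη : 0 ≤ η)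
    (h : ∀ S : Set X, S.Nonempty → ¬ big S → 𝔼 p ∈ π, (if S ∩ a p = ∅ then (1 : ℝ) else 0) ≤
      κ * ∑ r ∈ ρ, (if S ∩ a' r = ∅ then (1 : ℝ) else 0) + η) :
    ∀ (l : List C) (S : Set X), 𝔼 p ∈ π, loss sat S (a p) l ^ 2 ≤
      κ * ∑ r ∈ ρ, loss sat S (a' r) l ^ 2 + η * (HT sat S l : ℝ) ^ 2 + (NB sat big S l : ℝ) ^ 2
  | [], S => by simp [loss, NB]
  | c :: l, S => by
    have h0 : 0 ≤ κ * ∑ r ∈ ρ, loss sat S (a' r) (c :: l) ^ 2 + η * (HT sat S (c :: l) : ℝ) ^ 2 := by
      positivity
    have h1 : 𝔼 p ∈ π, loss sat S (a p) (c :: l) ^ 2 ≤ (HT sat S (c :: l) : ℝ) ^ 2 := by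
      rcases π.eq_empty_or_nonempty with rfl | hπ
      · simp
      · exact expect_le hπ fun p _ => loss_sq_le sat _ _ _
    by_cases hb : big S
    · simp only [NB, hb, if_true]; linarith
    rcases S.eq_empty_or_nonempty with rfl | hS
    · have : (HT sat ∅ (c :: l) : ℝ) ^ 2 = 0 := by simp
      linarith [sq_nonneg (NB sat big ∅ (c :: l) : ℝ)]
    have ih := loss_avg_le π a ρ a' big hκ hη h l (S ∩ sat c)
    have h2 := mul_le_mul_of_nonneg_right (h S hS hb)
      (show (0 : ℝ) ≤ 2 * HT sat (S ∩ sat c) l + 1 by positivity)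
    simp only [NB, hb, if_false, loss_cons_sq sat hS, expect_add_distrib, sum_add_distrib,
      ← expect_mul, ← sum_mul, HT_cons sat hS]
    push_cast
    nlinarith

end ht

end Crest.Agent.R153
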