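import Crest.Agent.R153.Defs
import Crest.Agent.R141.Up
import Crest.Agent.Lib.RatPrim.FunProp

/-! The threshold is computable: assembly. -/

set_option autoImplicit false
set_option maxHeartbeats 400000

namespace Crest.Agent.R153

open Finset Filter Topology Crest.ProbabilityR.RandomSAT Crest.ProbabilityR.Diluted
  Crest.Agent.R141 Crest.Agent.RatPrim

attribute [local irreducible] Primrec

theorem press_le_gen (B : ℕ) {a : ℝ} (ha : 0 < a) {r : ℕ} {m : Fin r → ℝ} (T : FT)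
    (hm : AdmissibleExponents m) {N : ℕ} (hN : 0 < N) :
    (satM B).press a N ≤ (satM B).gen a (T.val m) :=
  partU' 3 (by norm_num) (satM B) (Or.inr fun g σ => by
    simp only [satM]; split_ifs <;> norm_num) a ha r m T hm N hN

theorem sqrt_tendsto (a : ℝ) : Tendsto (fun N : ℕ => (√(a * N) + 1) / N) atTop (𝓝 0) := by
  have h1 : Tendsto (fun N : ℕ => √(a / N) + 1 / N) atTop (𝓝 (√0 + 0)) :=
    (tendsto_const_div_atTop_nhds_zero_nat a).sqrt.add (tendsto_const_div_atTop_nhds_zero_nat 1)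
  rw [Real.sqrt_zero, add_zero] at h1
  refine h1.congr' ?_
  filter_upwards [eventually_gt_atTop 0] with N hN
  have h0 : (0 : ℝ) < N := by exact_mod_cast hN
  rw [add_div, show a / N = a * N / N ^ 2 by field_simp, Real.sqrt_div' _ (sq_nonneg _),
    Real.sqrt_sq h0.le]

theorem computable_of_parts (hL : PartL) (hCU : PartCU) (hCL : PartCL) (hP : PartP) (hT : PartT)
    (α : ℝ) (α0 : 0 ≤ α) (hα : IsSharpThreshold (satProb 3) α) :
    ∃ f : ℕ → ℕ, Computable f ∧ ∀ r : ℕ, |(f r : ℝ) / 2 ^ r - α| ≤ 1 / 2 ^ r := by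
  classical
  obtain ⟨P, hPc, hPs⟩ := hCU
  obtain ⟨F, hFc, hF⟩ := hCL
  obtain ⟨hT1, hT2⟩ := hT α hα
  set C₀ : ℕ := ⌈α⌉₊ + 2 with hC₀
  have hC : α + 2 ≤ C₀ := by rw [hC₀]; push_cast; linarith [Nat.le_ceil α]
  obtain ⟨A, hA, hT3⟩ := hT2 C₀
  set A' : ℕ := ⌈A⌉₊ with hA'
  have hAA : A ≤ A' := Nat.le_ceil A
  set E : ℕ → ℕ := fun r => 3 * A' * 8 ^ (r + 2) with hE
  set B : ℕ → ℕ := fun r => 2 ^ E r - 1 with hB
  have hlog : ∀ r, Real.log (B r + 1) = E r * Real.log 2 := fun r => by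
    rw [hB, ← Real.log_pow]
    simp only [Nat.cast_sub (Nat.one_le_two_pow)]
    push_cast; ring_nf
  have l2 : 2 / 3 ≤ Real.log 2 := by linarith [Real.log_two_gt_d9]
  have l2' : Real.log 2 ≤ 0.7 := by linarith [Real.log_two_lt_d9]
  have high : ∀ (r : ℕ) (a : ℝ), α + 1 / 2 ^ (r + 2) ≤ a → a ≤ C₀ →
      ∀ᶠ N : ℕ in atTop, (satM (B r)).press a N ≤ -1 := by
    intro r a h1 h2
    have hε : (0 : ℝ) < 1 / 2 ^ (r + 2) := by positivity
    have h3 := ((sqrt_tendsto a).const_mul (Real.log (B r + 1))).eventually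
      (ge_mem_nhds (a := (0.3 : ℝ)) (by norm_num))
    filter_upwards [hT3 _ hε ((div_le_one (by positivity)).2 (one_le_pow₀ one_le_two)) a h1 h2,
      h3, eventually_gt_atTop 0] with N h4 h5 hN
    have N0 : (0 : ℝ) < N := by exact_mod_cast hN
    have h6 := (hP (B r) a (by linarith) N hN).2
    rw [← mul_div_assoc, div_le_iff₀ N0] at h5
    have h7 : 2 * (N : ℝ) ≤ Real.log (B r + 1) * RR N ⌊a * N⌋₊ := by
      refine le_trans ?_ (mul_le_mul_of_nonneg_left h4 (by rw [hlog]; positivity))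
      rw [← mul_assoc]
      refine mul_le_mul_of_nonneg_right ?_ N0.le
      rw [hlog, ← mul_div_assoc, le_div_iff₀ hA, hE]
      have e : ((3 * A' * 8 ^ (r + 2) : ℕ) : ℝ) * Real.log 2 * (1 / 2 ^ (r + 2)) ^ 3 =
          3 * A' * Real.log 2 := by
        push_cast
        rw [show (8 : ℝ) = 2 ^ 3 by norm_num, ← pow_mul, mul_comm 3 (r + 2), pow_mul]
        field_simp
      rw [e]; nlinarith
    refine le_of_mul_le_mul_left ?_ N0
    nlinarith
  have low : ∀ (B : ℕ) (a : ℝ), 0 < a → a < α → ∀ η : ℝ, 0 < η →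
      ∀ᶠ N : ℕ in atTop, -η ≤ (satM B).press a N := by
    intro B a h1 h2 η hη
    have h3 := (((hT1 a h1.le h2).add (sqrt_tendsto a)).const_mul (Real.log (B + 1))).eventually
      (ge_mem_nhds (a := η) (by simpa using hη))
    filter_upwards [h3, eventually_gt_atTop 0] with N h5 hN
    have N0 : (0 : ℝ) < N := by exact_mod_cast hN
    rw [← add_div, ← mul_div_assoc, div_le_iff₀ N0] at h5
    refine le_of_mul_le_mul_left ?_ N0
    linarith [(hP B a h1 N hN).1]
  set m : ℕ → ℕ → ℕ → ℕ := fun r j n => (2 * j - 1) * n ^ 2 / 2 ^ (r + 1) with hm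
  set G : (ℕ × ℕ) × ℕ × Bool → Bool := fun x =>
    (Nat.beq x.1.2.unpair.1 0 || (Nat.ble x.1.2.unpair.1 (C₀ * 2 ^ x.1.1) &&
      Nat.ble (E x.1.1 * (x.2.1 + (C₀ * x.1.2.unpair.2.unpair.1 + 1) *
        (8 * (x.1.2.unpair.2.unpair.1 ^ 2) ^ 3) ^ m x.1.1 x.1.2.unpair.1 x.1.2.unpair.2.unpair.1)
        + 1) (x.1.2.unpair.2.unpair.1 ^ 2 * (8 * (x.1.2.unpair.2.unpair.1 ^ 2) ^ 3) ^
          m x.1.1 x.1.2.unpair.1 x.1.2.unpair.2.unpair.1))) && x.2.2 with hG
  set Q : ℕ × ℕ → Bool := fun x => G (x, F (x.2.unpair.2.unpair.1 ^ 2,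
    m x.1 x.2.unpair.1 x.2.unpair.2.unpair.1),
    P ((x.2.unpair.1 + 1, x.1, B x.1), x.2.unpair.2.unpair.2)) with hQ
  have hQc : Computable Q := by
    have g1 : Primrec G := by simp only [hG, hE, hm]; fun_prop
    have g2 : Primrec fun x : ℕ × ℕ => (x.2.unpair.2.unpair.1 ^ 2,
        m x.1 x.2.unpair.1 x.2.unpair.2.unpair.1) := by simp only [hm]; fun_prop
    have g3 : Primrec fun x : ℕ × ℕ =>
        ((x.2.unpair.1 + 1, x.1, B x.1), x.2.unpair.2.unpair.2) := by simp only [hB, hE]; fun_prop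
    exact g1.to_comp.comp (Computable.id.pair ((hFc.comp g2.to_comp).pair (hPc.comp g3.to_comp)))
  have spec : ∀ r j n w, Q (r, Nat.pair j (Nat.pair n w)) = true ↔ (j = 0 ∨ (j ≤ C₀ * 2 ^ r ∧
      E r * (RR (n ^ 2) (m r j n) + (C₀ * n + 1)) < (n ^ 2 : ℕ))) ∧
      P ((j + 1, r, B r), w) = true := by
    intro r j n w
    simp only [hQ, hG, Nat.unpair_pair, Bool.and_eq_true, Bool.or_eq_true, Nat.beq_eq,
      Nat.ble_eq, Nat.succ_le_iff]
    refine and_congr_left' (or_congr_right (and_congr_right' ?_))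
    rw [← Nat.cast_lt (α := ℝ)]
    push_cast
    rw [hF]
    push_cast
    rcases Nat.eq_zero_or_pos n with rfl | hn
    · refine iff_of_false (not_lt.2 ?_) (not_lt.2 ?_) <;> simp only [Nat.cast_zero]
      · rw [zero_pow two_ne_zero, zero_mul]
        exact mul_nonneg (by positivity) (add_nonneg (mul_nonneg (by positivity)
          (expect_nonneg fun _ _ => Nat.cast_nonneg _)) (by positivity))
      · rw [zero_pow two_ne_zero]
        exact mul_nonneg (by positivity) (add_nonneg (expect_nonneg fun _ _ => Nat.cast_nonneg _)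
          (by positivity))
    · rw [mul_comm _ (RR _ _), ← add_mul, ← mul_assoc, mul_lt_mul_iff_left₀ (by positivity)]
  have fl : ∀ r j n : ℕ, 0 < j → ⌊(2 * (j : ℝ) - 1) / 2 ^ (r + 1) * (n ^ 2 : ℕ)⌋₊ = m r j n := by
    intro r j n hj
    simp only [hm]
    rw [← Nat.floor_div_eq_div (K := ℝ)]
    congr 1
    push_cast [Nat.cast_sub (show 1 ≤ 2 * j by omega)]
    ring
  have sound : ∀ r j n w, Q (r, Nat.pair j (Nat.pair n w)) = true →
      |(j : ℝ) / 2 ^ r - α| ≤ 1 / 2 ^ r := by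
    intro r j n w h
    obtain ⟨h1, h2⟩ := (spec r j n w).1 h
    have p2 : (0 : ℝ) < 2 ^ r := by positivity
    obtain ⟨r', m', T, hm', hT'⟩ := (hPs _ _ _).1 ⟨w, h2⟩
    have up : α ≤ ((j + 1 : ℕ) : ℝ) / 2 ^ r := by
      by_contra hc
      obtain ⟨N, h3, hN⟩ := ((low (B r) _ (by positivity) (not_le.1 hc) _ (half_pos
        (neg_pos.2 hT'))).and (eventually_gt_atTop 0)).exists
      linarith [press_le_gen (B r) (a := ((j + 1 : ℕ) : ℝ) / 2 ^ r) (by positivity) T hm' hN]
    push_cast at up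
    rw [add_div] at up
    refine abs_le.2 ⟨by linarith, ?_⟩
    rcases Nat.eq_zero_or_pos j with rfl | hj
    · have : (0 : ℝ) < 1 / 2 ^ r := by positivity
      simp only [Nat.cast_zero, zero_div]; linarith
    obtain ⟨h3, h4⟩ := h1.resolve_left hj.ne'
    set a : ℝ := (2 * (j : ℝ) - 1) / 2 ^ (r + 1) with ha
    have j1 : (1 : ℝ) ≤ j := by exact_mod_cast hj
    have a0 : 0 < a := div_pos (by linarith) (by positivity)
    have ea : a = j / 2 ^ r - 1 / 2 ^ r / 2 := by rw [ha, pow_succ]; field_simp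
    have aC : a ≤ C₀ := by
      have : (j : ℝ) / 2 ^ r ≤ C₀ := by rw [div_le_iff₀ p2]; exact_mod_cast h3
      linarith [show (0 : ℝ) < 1 / 2 ^ r / 2 by positivity]
    have hn : 0 < n ^ 2 := by
      have : (0 : ℝ) < (n ^ 2 : ℕ) := lt_of_le_of_lt (mul_nonneg (by positivity) (add_nonneg
        (expect_nonneg fun _ _ => Nat.cast_nonneg _) (by positivity))) h4
      exact_mod_cast this
    have h5 := (hP (B r) a a0 _ hn).1
    rw [fl r j n hj, hlog] at h5
    have h6 : √(a * (n ^ 2 : ℕ)) ≤ C₀ * n := by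
      rw [Real.sqrt_le_left (by positivity), mul_pow]
      push_cast
      exact mul_le_mul_of_nonneg_right (by nlinarith) (sq_nonneg _)
    have h7 : -1 < (satM (B r)).press a (n ^ 2) := by
      refine lt_of_mul_lt_mul_left (a := ((n ^ 2 : ℕ) : ℝ)) (lt_of_lt_of_le ?_ h5) (by positivity)
      rw [mul_neg, mul_one, neg_lt_neg_iff]
      refine lt_of_le_of_lt (mul_le_mul (mul_le_of_le_one_right (by positivity) (by linarith))
        (by linarith) (add_nonneg (expect_nonneg fun _ _ => Nat.cast_nonneg _) (by positivity))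
        (by positivity)) h4
    by_contra hc
    have h8 : α + 1 / 2 ^ (r + 2) ≤ a := by
      have : (1 : ℝ) / 2 ^ (r + 2) = 1 / 2 ^ r / 4 := by rw [pow_add]; field_simp; norm_num
      linarith [show (0 : ℝ) < 1 / 2 ^ r by positivity]
    obtain ⟨N, h9, h10⟩ := ((high r a h8 aC).and (hL 3 (by norm_num) (satM (B r)) a a0 _
      (fun _ _ T hm => press_le_gen (B r) a0 T hm hn) _ (half_pos (sub_pos.2 h7)))).exists
    linarith
  have complete : ∀ r, ∃ x, Q (r, x) = true := by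
    intro r
    have p2 : (0 : ℝ) < 2 ^ r := by positivity
    set j : ℕ := ⌊2 ^ r * α + 1 / 4⌋₊ with hj
    have j1 : (j : ℝ) ≤ 2 ^ r * α + 1 / 4 := Nat.floor_le (by positivity)
    have j2 : 2 ^ r * α + 1 / 4 < j + 1 := Nat.lt_floor_add_one _
    have r1 : (1 : ℝ) ≤ 2 ^ r := one_le_pow₀ one_le_two
    obtain ⟨w, hw⟩ : ∃ w, P ((j + 1, r, B r), w) = true := by
      refine (hPs _ _ _).2 ?_
      by_contra hc
      push Not at hc
      obtain ⟨N, h1, h2⟩ := ((high r (((j + 1 : ℕ) : ℝ) / 2 ^ r) (by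
        rw [le_div_iff₀ p2, add_mul, pow_add]
        have : (1 : ℝ) / (2 ^ r * 2 ^ 2) * 2 ^ r = 1 / 4 := by field_simp; norm_num
        push_cast; linarith) (by
        rw [div_le_iff₀ p2]; push_cast; nlinarith)).and (hL 3 (by norm_num) (satM (B r)) _
        (by positivity) 0 (fun r m T hm => hc r m T hm) (1 / 2) (by norm_num))).exists
      linarith
    rcases Nat.eq_zero_or_pos j with h0 | h0
    · exact ⟨_, (spec r j 0 w).2 ⟨Or.inl h0, hw⟩⟩
    have j3 : (1 : ℝ) ≤ j := by exact_mod_cast h0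
    have t1 : Tendsto (fun n : ℕ => n ^ 2) atTop atTop := tendsto_pow_atTop two_ne_zero
    have t2 := (hT1 ((2 * (j : ℝ) - 1) / 2 ^ (r + 1)) (div_nonneg (by linarith) (by positivity))
      (by rw [div_lt_iff₀ (by positivity), pow_succ]; linarith)).comp t1
    have t3 := ((t2.add ((tendsto_const_div_atTop_nhds_zero_nat (C₀ : ℝ)).add
      ((tendsto_const_div_atTop_nhds_zero_nat (1 : ℝ)).comp t1))).const_mul (E r : ℝ)).eventually
      (gt_mem_nhds (a := 1) (by simp))
    obtain ⟨n, h1, hn⟩ := (t3.and (eventually_gt_atTop 0)).exists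
    refine ⟨_, (spec r j n w).2 ⟨Or.inr ⟨?_, ?_⟩, hw⟩⟩
    · have : (j : ℝ) ≤ C₀ * 2 ^ r := by nlinarith
      exact_mod_cast this
    · simp only [Function.comp, fl r j n h0] at h1
      have n0 : (0 : ℝ) < n := by exact_mod_cast hn
      rw [← div_lt_one (by positivity)]
      refine lt_of_eq_of_lt ?_ h1
      push_cast; field_simp
  have hf := Computable.find (P := fun r x => Q (r, x) = true)
    (Computable.computablePred (by simpa using hQc)) complete
  refine ⟨fun r => (Nat.find (complete r)).unpair.1,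
    (Primrec.fst.comp Primrec.unpair).to_comp.comp hf, fun r => ?_⟩
  refine sound r _ (Nat.find (complete r)).unpair.2.unpair.1
    (Nat.find (complete r)).unpair.2.unpair.2 ?_
  rw [Nat.pair_unpair, Nat.pair_unpair]
  exact Nat.find_spec (complete r)

end Crest.Agent.R153
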