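import Crest.Agent.R153.Main
import Crest.Agent.R153.Ent

/-! Sub-Gaussian upper tail of the hitting time; link with `satProb`; the variance bound. -/

set_option autoImplicit false
set_option maxHeartbeats 400000

namespace Crest.Agent.R153

open Finset Crest.ProbabilityR.RandomSAT
open scoped BigOperators

theorem mgf_bound {k : ℕ} (hk : 2 ≤ k) (C₀ : ℕ) : ∃ lam0 A0 : ℝ, 0 < lam0 ∧ 0 < A0 ∧
    ∀ N : ℕ, k + 1 ≤ N → ∀ M : ℕ, M ≤ C₀ * N → ∀ lam, 0 < lam → lam ≤ lam0 →
      Real.log (Ex (CA (k + 1) (univ : Finset (Fin N))) M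
        (fun l => Real.exp (lam * HT csat Set.univ l))) ≤
      lam * Ex (CA (k + 1) (univ : Finset (Fin N))) M (fun l => HT csat Set.univ l) +
        A0 * M * lam ^ 2 := by
  obtain ⟨lam0, A0, h0, hA0, h⟩ := loss_bound hk C₀
  refine ⟨lam0, A0, h0, hA0, fun N hN M hM lam hl hl0 => ?_⟩
  have hne : (CA (k + 1) (univ : Finset (Fin N))).Nonempty := CA_nonempty (by simpa using hN)
  refine herbst hne M (fun l => HT csat Set.univ l) (fun t ht ht' => ?_) hl hl0
  refine (mlsi hne M (fun l => t * HT csat Set.univ l)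
    (fun c' l => t * loss csat Set.univ (csat c') l) (fun l1 c c' l2 => ?_)).trans ?_
  · rw [← mul_sub, loss]
    refine mul_le_mul_of_nonneg_left (sub_le_sub_left ?_ _) ht.le
    exact_mod_cast HT_replace csat c c' l2 l1 _
  · have h1 : Tl csat (CA (k + 1) (univ : Finset (Fin N))) t M Set.univ
        (fun l => 𝔼 c' ∈ CA (k + 1) (univ : Finset (Fin N)),
          (t * loss csat Set.univ (csat c') l) ^ 2) ≤
        t ^ 2 * (A0 * Phi csat (CA (k + 1) (univ : Finset (Fin N))) t M Set.univ) := by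
      rw [Tl_expect]
      refine expect_le hne fun c _ => ?_
      simp only [mul_pow, Tl_const_mul]
      refine mul_le_mul_of_nonneg_left ?_ (sq_nonneg _)
      have := h (Fin N) t ht.le ht' N univ (by simp) 0 M hM ∅ Set.univ (fun _ _ _ _ => trivial)
        (c.1 0) (mem_univ _) (notMem_empty _) (c.2 0)
      simp only [card_empty, add_zero, pow_zero, mul_one] at this
      refine le_trans (Tl_mono _ _ fun l => pow_le_pow_left₀ (loss_nonneg _ _ _ _) ?_ 2) this
      refine sub_le_sub_left ?_ _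
      exact_mod_cast HT_mono csat l (Set.inter_subset_inter_right _
        (show lit (c.1 0) (c.2 0) ⊆ csat c from fun σ hσ => ⟨0, hσ⟩))
    simp only [Phi, Tl, mul_one] at h1
    refine (mul_le_mul_of_nonneg_left h1 (Nat.cast_nonneg _)).trans (le_of_eq ?_)
    ring

theorem Ex_ofFn {C D : Type*} [Fintype D] {A : Finset C} (ι : D → C)
    (h : ∀ f : C → ℝ, 𝔼 c ∈ A, f c = 𝔼 d, f (ι d)) : ∀ (M : ℕ) (F : List C → ℝ),
    Ex A M F = 𝔼 G : Fin M → D, F (List.ofFn fun j => ι (G j))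
  | 0, F => by simp [Ex_zero]
  | M + 1, F => by
    simp only [Ex_succ, Ex_ofFn ι h M, h]
    rw [← expect_product' (f := fun d (G : Fin M → D) => F (ι d :: List.ofFn fun j => ι (G j))),
      univ_product_univ]
    exact Fintype.expect_equiv (Fin.consEquiv fun _ => D) _ _ fun x => by
      simp [List.ofFn_succ, Fin.consEquiv]

open Classical in
/-- Indicator of a proposition. -/
noncomputable def I (p : Prop) : ℝ := if p then 1 else 0

theorem I_pos {p : Prop} (h : p) : I p = 1 := if_pos h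

theorem I_neg {p : Prop} (h : ¬ p) : I p = 0 := if_neg h

theorem I_nonneg (p : Prop) : 0 ≤ I p := by unfold I; split_ifs <;> norm_num

theorem I_le_one (p : Prop) : I p ≤ 1 := by unfold I; split_ifs <;> norm_num

theorem I_mono {p q : Prop} (h : p → q) : I p ≤ I q := by
  by_cases hp : p
  · rw [I_pos hp, I_pos (h hp)]
  · rw [I_neg hp]; exact I_nonneg q

theorem sum_I {ι : Type*} (s : Finset ι) (p : ι → Prop) [DecidablePred p] :
    ∑ i ∈ s, I (p i) = (s.filter p).card := by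
  rw [← sum_boole]; exact sum_congr rfl fun i _ => by unfold I; congr

section

variable {C X : Type*} (sat : C → Set X) (A : Finset C)

/-- Probability that `m` random constraints are satisfiable inside `S`. -/
noncomputable def PS (S : Set X) (m : ℕ) : ℝ :=
  Ex A m fun l => I (∃ σ ∈ S, ∀ c ∈ l, σ ∈ sat c)

variable {sat A}

theorem PS_nonneg (S : Set X) (m : ℕ) : 0 ≤ PS sat A S m := Ex_nonneg m fun _ => I_nonneg _

theorem PS_le_one (hA : A.Nonempty) (S : Set X) (m : ℕ) : PS sat A S m ≤ 1 :=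
  (Ex_mono m fun _ => I_le_one _).trans_eq (Ex_const hA m 1)

theorem PS_mono {S S' : Set X} (h : S ⊆ S') (m : ℕ) : PS sat A S m ≤ PS sat A S' m :=
  Ex_mono m fun _ => I_mono fun h1 => h1.imp fun _ hσ => ⟨h hσ.1, hσ.2⟩

theorem PS_empty (m : ℕ) : PS sat A ∅ m = 0 := by
  simpa [PS, I] using Ex_const_mul (A := A) m 0 (fun _ => 0)

theorem PS_zero {S : Set X} (hS : S.Nonempty) : PS sat A S 0 = 1 :=
  I_pos (hS.imp fun _ h => ⟨h, by simp⟩)

theorem PS_succ (S : Set X) (m : ℕ) :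
    PS sat A S (m + 1) = 𝔼 c ∈ A, PS sat A (S ∩ sat c) m := by
  simp only [PS, Ex_succ, List.forall_mem_cons, Set.mem_inter_iff, and_assoc]

theorem PS_anti (hA : A.Nonempty) (S : Set X) : Antitone (PS sat A S) :=
  antitone_nat_of_succ_le fun m => by
    rw [PS_succ]; exact expect_le hA fun c _ => PS_mono Set.inter_subset_left m

theorem Ex_HT (hA : A.Nonempty) : ∀ (M : ℕ) (S : Set X) (g : ℕ → ℝ),
    Ex A M (fun l => g (HT sat S l)) = g 0 + ∑ m ∈ range M, (g (m + 1) - g m) * PS sat A S m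
  | 0, _, _ => by simp [Ex_zero]
  | M + 1, S, g => by
    rcases S.eq_empty_or_nonempty with rfl | hS
    · simp [PS_empty, Ex_const hA]
    simp only [Ex_succ, HT_cons sat hS, Ex_HT hA M _ (fun n => g (n + 1)), sum_range_succ',
      PS_succ, expect_add_distrib, expect_const hA, expect_sum_comm, ← mul_expect, PS_zero hS]
    ring

theorem PS_le [Fintype X] {q : ℝ} (hq0 : 0 ≤ q) (hq : ∀ σ, 𝔼 c ∈ A, I (σ ∈ sat c) ≤ q) (m : ℕ) :
    PS sat A Set.univ m ≤ Fintype.card X * q ^ m := by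
  have h1 : ∀ σ m, PS sat A {σ} m ≤ q ^ m := by
    intro σ m
    induction m with
    | zero => rw [PS_zero (Set.singleton_nonempty σ), pow_zero]
    | succ m ih =>
      rw [PS_succ, pow_succ']
      refine le_trans (expect_le_expect (g := fun c => I (σ ∈ sat c) * q ^ m) fun c _ => ?_) ?_
      · by_cases h : σ ∈ sat c
        · rwa [Set.inter_eq_left.2 (Set.singleton_subset_iff.2 h), I_pos h, one_mul]
        · rw [Set.singleton_inter_eq_empty.2 h, I_neg h, zero_mul, PS_empty]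
      · rw [← expect_mul]; exact mul_le_mul_of_nonneg_right (hq σ) (by positivity)
  refine le_trans ?_ ((sum_le_card_nsmul univ _ _ fun σ _ => h1 σ m).trans_eq
    (by simp))
  simp only [PS]
  rw [← Ex_sum]
  refine Ex_mono m fun l => ?_
  by_cases h : ∃ σ ∈ Set.univ, ∀ c ∈ l, σ ∈ sat c
  · obtain ⟨σ, -, hσ⟩ := h
    exact le_trans (I_mono fun _ => ⟨σ, rfl, hσ⟩) (single_le_sum (f := fun σ : X =>
      I (∃ σ' ∈ ({σ} : Set X), ∀ c ∈ l, σ' ∈ sat c)) (fun _ _ => I_nonneg _) (mem_univ σ))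
  · rw [I_neg h]; exact sum_nonneg fun _ _ => I_nonneg _

end

theorem satProb_eq (k n m : ℕ) :
    satProb k n m = PS csat (CA k (univ : Finset (Fin n))) Set.univ m := by
  classical
  rw [PS, Ex_ofFn (fun d : Clause k n => ((d.1.1, d.2) : Cl k (Fin n))) (fun f => ?_),
    Fintype.expect_eq_sum_div_card, sum_I, satProb, Crest.FinProb.uniformProb]
  · congr 2
    refine congrArg _ (Finset.ext fun F => ?_)
    simp [Satisfiable, ClauseSat, csat]
  · refine (expect_bij (fun (d : Clause k n) _ => ((d.1.1, d.2) : Cl k (Fin n)))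
      (fun d _ => mem_CA.2 ⟨d.1.2, fun _ => mem_univ _⟩) (fun _ _ => rfl)
      (fun d _ d' _ h => ?_) (fun c hc => ⟨(⟨c.1, (mem_CA.1 hc).1⟩, c.2), mem_univ _, rfl⟩)).symm
    exact Prod.ext (Subtype.ext (Prod.ext_iff.1 h).1) (Prod.ext_iff.1 h).2

theorem satProb_le {k n : ℕ} (h : k ≤ n) (m : ℕ) :
    satProb k n m ≤ 2 ^ n * (1 - 1 / 2 ^ k) ^ m := by
  classical
  have h2 : (0 : ℝ) < 2 ^ k := by positivity
  rw [satProb_eq]
  refine (PS_le (q := 1 - 1 / 2 ^ k) (sub_nonneg.2 ((div_le_one h2).2 (one_le_pow₀ one_le_two)))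
    (fun σ => ?_) m).trans_eq (by simp)
  have hne : (IA k (univ : Finset (Fin n))).Nonempty := by
    obtain ⟨c, hc⟩ := CA_nonempty (k := k) (A := (univ : Finset (Fin n))) (by simpa using h)
    exact ⟨c.1, (mem_product.1 hc).1⟩
  rw [CA, expect_product]
  refine expect_le hne fun v _ => ?_
  rw [expect_eq_sum_div_card, sum_I, div_le_iff₀ (by simp)]
  have : (univ.filter fun s : Fin k → Bool => σ ∈ csat (v, s)) ⊆ univ.erase fun i => !σ (v i) := by
    intro s hs
    obtain ⟨i, hi⟩ := (mem_filter.1 hs).2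
    refine mem_erase.2 ⟨fun h => ?_, mem_univ _⟩
    simp [h] at hi
  refine (Nat.cast_le.2 (card_le_card this)).trans (le_of_eq ?_)
  rw [card_erase_of_mem (mem_univ _), Nat.cast_pred (card_pos.2 univ_nonempty)]
  simp only [card_univ, Fintype.card_pi, Fintype.card_bool, prod_const, Fintype.card_fin]
  push_cast; field_simp

theorem var_bound (k : ℕ) (hk : 3 ≤ k) : ∃ C : ℝ, ∀ n : ℕ, k ≤ n →
    Summable (fun m : ℕ => satProb k n m) ∧
    Summable (fun m : ℕ => (2 * (m : ℝ) + 1) * satProb k n m) ∧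
    (∑' m : ℕ, (2 * (m : ℝ) + 1) * satProb k n m) - (∑' m : ℕ, satProb k n m) ^ 2 ≤ C * n := by
  obtain ⟨k, rfl⟩ : ∃ k', k = k' + 1 := ⟨k - 1, by omega⟩
  set q : ℝ := 1 - 1 / 2 ^ (k + 1) with hq
  have h2 : (0 : ℝ) < 1 / 2 ^ (k + 1) := by positivity
  have hq0 : 0 ≤ q := sub_nonneg.2 ((div_le_one (by positivity)).2 (one_le_pow₀ one_le_two))
  have hq1 : q < 1 := by linarith
  set ρ : ℝ := (1 + q) / 2 with hρ
  have hρ0 : 0 < ρ := by positivity
  have hρ1 : ρ < 1 := by linarith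
  have hs : ∀ x : ℝ, 0 ≤ x → x < 1 → Summable fun m : ℕ => (2 * (m : ℝ) + 1) * x ^ m := by
    intro x h0 h1
    have := ((summable_pow_mul_geometric_of_norm_lt_one 1 (r := x)
      (by rwa [Real.norm_of_nonneg h0])).mul_left 2).add (summable_geometric_of_lt_one h0 h1)
    exact this.congr fun m => by ring
  obtain ⟨C₀, hC₀⟩ := exists_pow_lt_of_lt_one (show (0 : ℝ) < 1 / 2 by norm_num)
    (show q / ρ < 1 by rw [div_lt_one hρ0]; linarith)
  obtain ⟨lam0, A0, h0, hA0, h⟩ := mgf_bound (k := k) (by omega) C₀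
  refine ⟨2 * (A0 * C₀) + ∑' m : ℕ, (2 * (m : ℝ) + 1) * ρ ^ m, fun n hn => ?_⟩
  have hne : (CA (k + 1) (univ : Finset (Fin n))).Nonempty := CA_nonempty (by simpa using hn)
  have p0 : ∀ m, 0 ≤ satProb (k + 1) n m := fun m => by rw [satProb_eq]; exact PS_nonneg _ _
  have s1 : Summable (fun m : ℕ => satProb (k + 1) n m) := Summable.of_nonneg_of_le p0
    (satProb_le hn) ((summable_geometric_of_lt_one hq0 hq1).mul_left _)
  have s2 : Summable (fun m : ℕ => (2 * (m : ℝ) + 1) * satProb (k + 1) n m) :=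
    Summable.of_nonneg_of_le (fun m => mul_nonneg (by positivity) (p0 m))
      (fun m => (mul_le_mul_of_nonneg_left (satProb_le hn m) (by positivity)).trans_eq
        (mul_left_comm _ _ _)) ((hs q hq0 hq1).mul_left _)
  refine ⟨s1, s2, ?_⟩
  have v := var_le hne (C₀ * n) _ h0 (h n hn (C₀ * n) le_rfl)
  rw [Ex_HT hne _ _ (fun n => (n : ℝ) ^ 2), Ex_HT hne _ _ (fun n => (n : ℝ))] at v
  simp only [← satProb_eq] at v
  have t1 : ∑ m ∈ range (C₀ * n), satProb (k + 1) n m ≤ ∑' m, satProb (k + 1) n m :=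
    s1.sum_le_tsum _ fun m _ => p0 m
  have t2 := pow_le_pow_left₀ (sum_nonneg fun m _ => p0 m) t1 2
  have t3 : ∑' m : ℕ, (2 * ((m + C₀ * n : ℕ) : ℝ) + 1) * satProb (k + 1) n (m + C₀ * n) ≤
      ∑' m : ℕ, (2 * ((m + C₀ * n : ℕ) : ℝ) + 1) * ρ ^ (m + C₀ * n) := by
    refine Summable.tsum_le_tsum (fun m => mul_le_mul_of_nonneg_left ((satProb_le hn _).trans ?_)
      (by positivity)) ((summable_nat_add_iff _).2 s2)
      ((summable_nat_add_iff (f := fun m : ℕ => (2 * (m : ℝ) + 1) * ρ ^ m) _).2 (hs ρ hρ0.le hρ1))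
    have e : q = q / ρ * ρ := by field_simp
    rw [← hq, e, mul_pow, ← mul_assoc]
    refine mul_le_of_le_one_left (by positivity) ?_
    have a1 : (q / ρ) ^ (m + C₀ * n) ≤ (1 / 2) ^ n := by
      rw [add_comm, pow_add, pow_mul]
      exact (mul_le_of_le_one_right (by positivity) (pow_le_one₀ (by positivity)
        ((div_le_one hρ0).2 (by linarith)))).trans (pow_le_pow_left₀ (by positivity) hC₀.le n)
    refine (mul_le_mul_of_nonneg_left a1 (by positivity)).trans_eq ?_
    rw [← mul_pow]; norm_num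
  have t4 := (hs ρ hρ0.le hρ1).sum_add_tsum_nat_add (C₀ * n)
  have t5 : 0 ≤ ∑ m ∈ range (C₀ * n), (2 * (m : ℝ) + 1) * ρ ^ m :=
    sum_nonneg fun _ _ => by positivity
  have t6 : 0 ≤ ∑' m : ℕ, (2 * (m : ℝ) + 1) * ρ ^ m := tsum_nonneg fun _ => by positivity
  have t7 : (1 : ℝ) ≤ n := by exact_mod_cast (by omega : 1 ≤ n)
  rw [← s2.sum_add_tsum_nat_add (C₀ * n)]
  have e1 : ∀ m : ℕ, (((m + 1 : ℕ) : ℝ)) ^ 2 - (m : ℝ) ^ 2 = 2 * m + 1 := fun m => by
    push_cast; ring
  simp only [e1] at v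
  simp only [Nat.cast_add, Nat.cast_one, add_sub_cancel_left, one_mul, Nat.cast_zero,
    zero_add, Nat.cast_mul] at v t3 t4 ⊢
  nlinarith [mul_le_mul_of_nonneg_left t7 t6]

end Crest.Agent.R153
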