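import Crest.Agent.R153.Count

/-! The tilted second moment of the loss caused by a unit clause is bounded. -/

set_option autoImplicit false
set_option maxHeartbeats 400000

namespace Crest.Agent.R153

open Finset
open scoped BigOperators

variable {V : Type} [Fintype V] [DecidableEq V] {k : ℕ}

/-- `S` depends only on the variables in `Y`. -/
def DepOn (Y : Finset V) (S : Set (V → Bool)) : Prop :=
  ∀ σ σ' : V → Bool, (∀ v ∈ Y, σ v = σ' v) → σ ∈ S → σ' ∈ S

/-- A unit clause. -/
def lit (y : V) (b : Bool) : Set (V → Bool) := {σ | σ y = b}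

/-- Conjunction of reduced clauses. -/
def redL (y : V) : List (Cl k V) → Set (V → Bool)
  | [] => Set.univ
  | c :: l => red y c ∩ redL y l

omit [Fintype V] in
theorem HT_ge_red (y : V) (b : Bool) : ∀ (l : List (Cl k V)) (S1 S2 : Set (V → Bool)),
    (∀ σ ∈ S2, Function.update σ y b ∈ S1) →
    HT csat (S2 ∩ redL y (l.filter (touch y ·))) (l.filter (¬ touch y ·)) ≤ HT csat S1 l
  | [], _, _, _ => le_rfl
  | c :: l, S1, S2, h => by
    rcases S2.eq_empty_or_nonempty with rfl | ⟨σ0, h0⟩
    · simp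
    rw [HT_cons csat ⟨_, h σ0 h0⟩]
    by_cases hc : touch y c
    · simp only [List.filter_cons, hc, not_true, decide_false, decide_true, if_true,
        Bool.false_eq_true, if_false, redL, ← Set.inter_assoc]
      refine Nat.le_succ_of_le (HT_ge_red y b l _ _ ?_)
      rintro σ ⟨hσ, i, hi, hi'⟩
      exact ⟨h σ hσ, i, by rwa [Function.update_of_ne hi]⟩
    · simp only [List.filter_cons, hc, not_false_iff, decide_false, decide_true, if_true,
        Bool.false_eq_true, if_false]
      rcases (S2 ∩ redL y (l.filter (touch y ·))).eq_empty_or_nonempty with h1 | h1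
      · simp [h1]
      rw [HT_cons csat h1, Set.inter_right_comm]
      refine Nat.succ_le_succ (HT_ge_red y b l _ _ ?_)
      rintro σ ⟨hσ, i, hi⟩
      exact ⟨h σ hσ, i, by rwa [Function.update_of_ne fun h => hc ⟨i, h⟩]⟩

theorem one_step {A : Finset V} {y : V} (hy : y ∈ A) (hk : 2 ≤ k) (hn : 2 * (k + 1) ≤ A.card)
    {b lam : ℝ} (hb : 0 < b) (hb1 : b ≤ 1) (hbn : 2 * (k + 1 : ℕ) ≤ b * (A.erase y).card)
    (hl : 0 ≤ lam) (hlh : lam ≤ (b / 4) ^ (k + 1) / 4) (M : ℕ) (Y : Finset V)
    (S : Set (V → Bool)) {Q : ℝ} (hQ : 0 ≤ Q)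
    (IH : ∀ v ∈ A.erase y, v ∉ Y → ∀ s, Tl csat (CA (k + 1) (A.erase y)) lam M Set.univ
      (fun l => loss csat S (lit v s) l ^ 2) ≤ Q) :
    𝔼 c ∈ (CA (k + 1) A).filter (touch y), Tl csat (CA (k + 1) (A.erase y)) lam M Set.univ
      (fun l => loss csat S (red y c) l ^ 2) ≤
      (256 / ((b / 4) ^ (k + 1)) ^ 3 + 8 * (Y.card : ℝ) ^ 2 * (M / A.card) ^ 2) *
        Phi csat (CA (k + 1) (A.erase y)) lam M Set.univ + 16 * b * Q := by
  classical
  set A' := A.erase y with hA'
  have hA0 : (0 : ℝ) < A.card := by exact_mod_cast card_pos.2 ⟨y, hy⟩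
  have hc' : A'.card = A.card - 1 := card_erase_of_mem hy
  have hle : (A'.card : ℝ) ≤ A.card := by exact_mod_cast card_erase_le
  have hne : (CA (k + 1) A').Nonempty := CA_nonempty (by omega)
  set big : Set (V → Bool) → Prop := fun S => b * A'.card ≤ (frz A' S).card with hbig
  have h1 := loss_avg_le (csat (k := k + 1)) ((CA (k + 1) A).filter (touch y)) (red y)
    ((A' \ Y) ×ˢ (univ : Finset Bool)) (fun r => lit r.1 r.2) big (κ := 8 * b / A.card)
    (η := 8 * (Y.card : ℝ) ^ 2 / (A.card : ℝ) ^ 2) (by positivity) (by positivity) (by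
      intro S hS hb'
      refine (kill_le hy hk hn S).trans ?_
      set f : ℝ := ((frz A' S).card : ℝ) with hf
      set g : ℝ := ((frz A' S \ Y).card : ℝ) with hg
      have g1 : f ≤ g + Y.card := by
        rw [hf, hg]; exact_mod_cast card_le_card_sdiff_add_card
      have g2 : g ≤ f := by rw [hf, hg]; exact_mod_cast card_le_card sdiff_subset
      have g0 : 0 ≤ g := Nat.cast_nonneg _
      have g3 : g ≤ b * A.card :=
        g2.trans ((not_le.1 hb').le.trans (mul_le_mul_of_nonneg_left hle hb.le))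
      have g4 : g ≤ ∑ r ∈ (A' \ Y) ×ˢ (univ : Finset Bool),
          (if S ∩ lit r.1 r.2 = ∅ then (1 : ℝ) else 0) := by
        rw [sum_product, hg, card_eq_sum_ones]
        push_cast
        refine le_trans (sum_le_sum fun v hv => ?_) (sum_le_sum_of_subset_of_nonneg
          (sdiff_subset_sdiff (filter_subset _ _) subset_rfl)
          fun v _ _ => sum_nonneg fun _ _ => by split_ifs <;> norm_num)
        obtain ⟨s, hs⟩ := (mem_filter.1 (mem_sdiff.1 hv).1).2
        refine le_trans (le_of_eq (if_pos ?_).symm) (single_le_sum (f := fun s =>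
          if S ∩ lit v s = ∅ then (1 : ℝ) else 0) (fun _ _ => by split_ifs <;> norm_num)
          (mem_univ (!s)))
        refine Set.eq_empty_of_forall_notMem ?_
        rintro σ ⟨hσ, h⟩
        simp [lit, hs σ hσ] at h
      have g5 : (2 * f) ^ 2 ≤ 8 * (b * A.card * g) + 8 * (Y.card : ℝ) ^ 2 := by
        have : f ^ 2 ≤ (g + Y.card) ^ 2 := pow_le_pow_left₀ (g0.trans g2) g1 2
        nlinarith [sq_nonneg (g - Y.card), mul_le_mul_of_nonneg_right g3 g0]
      rw [div_pow]
      refine (div_le_div_of_nonneg_right g5 (by positivity)).trans ?_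
      rw [add_div]
      refine add_le_add (le_of_eq_of_le (by field_simp) (mul_le_mul_of_nonneg_left g4
        (by positivity))) le_rfl)
  have h2 := NB_sq_le (sat := csat) hne hl (big := big)
    (fun S c h => h.trans (by exact_mod_cast card_le_card (frz_mono A' Set.inter_subset_left)))
    (h := (b / 4) ^ (k + 1)) (by positivity) (pow_le_one₀ (by positivity) (by linarith)) hlh
    (fun S hS => hazard_CA hb hbn (card_pos.1 (by omega)) hS) M Set.univ S (Set.subset_univ _)
  rw [← Tl_expect]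
  refine (Tl_mono' M _ (g := fun l => 8 * b / A.card * ∑ r ∈ (A' \ Y) ×ˢ (univ : Finset Bool),
    loss csat S (lit r.1 r.2) l ^ 2 + 8 * (Y.card : ℝ) ^ 2 * (M / A.card) ^ 2 +
    (NB csat big S l : ℝ) ^ 2) fun l hl _ => (h1 l S).trans ?_).trans ?_
  · have : (HT csat S l : ℝ) ≤ M := by exact_mod_cast hl ▸ HT_le_length csat l S
    rw [div_pow, mul_div_assoc', div_mul_eq_mul_div _ (_ ^ 2)]
    gcongr
  rw [Tl_add, Tl_add, Tl_const_mul, Tl_sum, Tl_const]
  have h3 : ∑ r ∈ (A' \ Y) ×ˢ (univ : Finset Bool), Tl csat (CA (k + 1) A') lam M Set.univ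
      (fun l => loss csat S (lit r.1 r.2) l ^ 2) ≤ 2 * A.card * Q := by
    refine (sum_le_card_nsmul _ _ Q fun r hr => ?_).trans ?_
    · have := mem_sdiff.1 (mem_product.1 hr).1
      exact IH _ this.1 this.2 _
    · rw [nsmul_eq_mul, card_product, card_univ, Fintype.card_bool]
      have : ((A' \ Y).card : ℝ) ≤ A.card :=
        le_trans (by exact_mod_cast card_le_card sdiff_subset) hle
      push_cast
      nlinarith
  have h4 := mul_le_mul_of_nonneg_left h3 (show 0 ≤ 8 * b / A.card by positivity)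
  have e : 8 * b / A.card * (2 * A.card * Q) = 16 * b * Q := by field_simp; ring
  linarith

omit [Fintype V] in
theorem multi_step {T A' : Finset (Cl k V)} (y : V) (lam : ℝ) (M : ℕ) {Γ : ℝ} (hΓ : 0 ≤ Γ)
    (h : ∀ Y S, DepOn Y S → 𝔼 c ∈ T, Tl csat A' lam M Set.univ
      (fun l => loss csat S (red y c) l ^ 2) ≤ Γ * 2 ^ Y.card) :
    ∀ (J : ℕ) (Y : Finset V) (S : Set (V → Bool)), DepOn Y S →
      Ex T J (fun l1 => Tl csat A' lam M Set.univ (fun l => loss csat S (redL y l1) l ^ 2)) ≤
        Γ * 2 ^ Y.card * (2 ^ (k + 2)) ^ J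
  | 0, Y, S, _ => by
    simp only [Ex_zero, redL, loss, Set.inter_univ, sub_self, Tl_const]
    norm_num; positivity
  | J + 1, Y, S, hS => by
    rcases T.eq_empty_or_nonempty with rfl | hT
    · simp only [Ex_succ, expect_empty]; positivity
    have h1 : ∀ c, Ex T J (fun l1 => Tl csat A' lam M Set.univ
        (fun l => loss csat S (redL y (c :: l1)) l ^ 2)) ≤
        2 * Tl csat A' lam M Set.univ (fun l => loss csat S (red y c) l ^ 2) +
          2 * (Γ * 2 ^ (Y.card + k) * (2 ^ (k + 2)) ^ J) := by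
      intro c
      have ih := multi_step y lam M hΓ h J (Y ∪ univ.image c.1) (S ∩ red y c) (by
        rintro σ σ' hσ ⟨h1, i, hi, hi'⟩
        refine ⟨hS σ σ' (fun v hv => hσ v (mem_union_left _ hv)) h1, i, hi, ?_⟩
        rw [← hσ _ (mem_union_right _ (mem_image_of_mem _ (mem_univ i))), hi'])
      have hc : (Y ∪ univ.image c.1).card ≤ Y.card + k :=
        (card_union_le _ _).trans (Nat.add_le_add_left (card_image_le.trans (by simp)) _)
      refine (Ex_mono J (g := fun l1 => 2 * Tl csat A' lam M Set.univ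
        (fun l => loss csat S (red y c) l ^ 2) + 2 * Tl csat A' lam M Set.univ
          (fun l => loss csat (S ∩ red y c) (redL y l1) l ^ 2)) fun l1 => ?_).trans ?_
      · rw [← Tl_const_mul, ← Tl_const_mul, ← Tl_add]
        refine Tl_mono _ _ fun l => ?_
        simp only [loss, redL, ← Set.inter_assoc]
        nlinarith [sq_nonneg ((HT csat S l : ℝ) - 2 * HT csat (S ∩ red y c) l +
          HT csat (S ∩ red y c ∩ redL y l1) l)]
      · rw [Ex_add, Ex_const hT, Ex_const_mul]
        gcongr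
        refine ih.trans ?_
        gcongr; norm_num
    rw [Ex_succ]
    refine (expect_le_expect fun c _ => h1 c).trans ?_
    rw [expect_add_distrib, ← mul_expect, expect_const hT]
    have h2 := h Y S hS
    have h3 : (1 : ℝ) ≤ (2 ^ (k + 2)) ^ J := one_le_pow₀ (one_le_pow₀ one_le_two)
    have h4 : (1 : ℝ) ≤ 2 ^ k := one_le_pow₀ one_le_two
    have h5 : 0 ≤ Γ * 2 ^ Y.card := by positivity
    rw [pow_succ _ J, pow_add, pow_add 2 k 2]
    rw [pow_add 2 k 2] at h3
    nlinarith [mul_le_mul h3 h4 zero_le_one (zero_le_one.trans h3),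
      mul_le_mul_of_nonneg_left (mul_le_mul h3 h4 zero_le_one (zero_le_one.trans h3)) h5]

theorem sq_le_two_pow (n : ℕ) : (n : ℝ) ^ 2 ≤ 2 * 2 ^ n := by
  have : ∀ n : ℕ, n ^ 2 ≤ 2 * 2 ^ n := by
    intro n
    induction n with
    | zero => simp
    | succ n ih =>
      rcases le_or_gt n 2 with h | h
      · interval_cases n <;> norm_num
      · rw [pow_succ 2]; nlinarith
  exact_mod_cast this n

end Crest.Agent.R153
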