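import Crest.Agent.R153.Loss

/-! The main recursion: deleting a variable. -/

set_option autoImplicit false
set_option maxHeartbeats 800000

namespace Crest.Agent.R153

open Finset
open scoped BigOperators

variable {V : Type} [Fintype V] [DecidableEq V] {k : ℕ}

theorem exp_neg_two_le {p : ℝ} (h0 : 0 ≤ p) (h1 : p ≤ 1 / 2) : Real.exp (-(2 * p)) ≤ 1 - p := by
  rw [Real.exp_neg, inv_le_comm₀ (Real.exp_pos _) (by linarith)]
  refine le_trans ?_ (Real.add_one_le_exp _)
  rw [inv_eq_one_div, div_le_iff₀ (by linarith)]; nlinarith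

theorem del_step {A : Finset V} {y : V} (hy : y ∈ A) (hn : 2 * (k + 1) ≤ A.card) {lam : ℝ}
    (hl : 0 ≤ lam) (hl1 : lam ≤ 1) {M : ℕ} {C₀ : ℝ} (hM : (M : ℝ) ≤ 2 * C₀ * A.card) {Γ : ℝ}
    (hΓ : 1 ≤ Γ)
    (h : ∀ M' ≤ M, ∀ Y S, DepOn Y S → 𝔼 c ∈ (CA (k + 1) A).filter (touch y),
      Tl csat (CA (k + 1) (A.erase y)) lam M' Set.univ (fun l => loss csat S (red y c) l ^ 2) ≤
        Γ * Phi csat (CA (k + 1) (A.erase y)) lam M Set.univ * 2 ^ Y.card)
    {Y : Finset V} {S : Set (V → Bool)} (hS : DepOn Y S) (hyY : y ∉ Y) (s : Bool) :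
    Tl csat (CA (k + 1) A) lam M Set.univ (fun l => loss csat S (lit y s) l ^ 2) ≤
      6 * Real.exp (3 * 2 ^ (k + 3) * (2 * (k + 1) * C₀)) * Real.exp (4 * (k + 1) * C₀) * Γ *
        2 ^ Y.card * Phi csat (CA (k + 1) A) lam M Set.univ := by
  set A' := A.erase y with hA'
  set T := (CA (k + 1) A).filter (touch y) with hT
  set Φ' := Phi csat (CA (k + 1) A') lam M Set.univ with hΦ'
  have hc' : A'.card = A.card - 1 := card_erase_of_mem hy
  have hA0 : (0 : ℝ) < A.card := by exact_mod_cast card_pos.2 ⟨y, hy⟩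
  have hne' : (CA (k + 1) A').Nonempty := CA_nonempty (by omega)
  have hne : (CA (k + 1) A).Nonempty := CA_nonempty (by omega)
  have hTne : T.Nonempty := by
    rw [← card_pos, card_touch hy]
    exact Nat.mul_pos (Nat.mul_pos k.succ_pos (Nat.descFactorial_pos.2 (by omega))) (by positivity)
  have hΦ1 : 1 ≤ Φ' := one_le_Phi hne' hl _ _
  set p : ℝ := (T.card : ℝ) / (CA (k + 1) A).card with hp
  have hp0 : 0 ≤ p := by positivity
  have hp1 : p ≤ (k + 1) / A.card := touch_ratio hy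
  have hn' : (2 : ℝ) * (k + 1) ≤ A.card := by exact_mod_cast hn
  have hp2 : p ≤ 1 / 2 := hp1.trans (by rw [div_le_iff₀ hA0]; linarith)
  have hpM : p * M ≤ 2 * (k + 1) * C₀ :=
    (mul_le_mul hp1 hM (Nat.cast_nonneg _) (by positivity)).trans (le_of_eq (by field_simp))
  have hq : ((CA (k + 1) A').card : ℝ) / (CA (k + 1) A).card = 1 - p := by
    have := card_filter_add_card_filter_not (s := CA (k + 1) A) (touch y)
    rw [CA_not_touch] at this
    have h0 : (0 : ℝ) < (CA (k + 1) A).card := by exact_mod_cast hne.card_pos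
    rw [hp, eq_sub_iff_add_eq, ← add_div, div_eq_one_iff_eq h0.ne', add_comm]
    exact_mod_cast this
  have h1 := Ex_thin (A := CA (k + 1) A) (touch y) (3 * 2 ^ (k + 3)) M (6 * Γ * Φ' * 2 ^ Y.card)
    (fun l0 l1 => Real.exp (lam * HT csat Set.univ l0) * (Real.exp (lam * l1.length) *
      (2 * (l1.length : ℝ) ^ 2 + 2 * loss csat S (redL y l1) l0 ^ 2))) (fun M' J hJ => by
      rw [CA_not_touch]
      have h2 := multi_step y lam M' (by positivity) (h M' (by omega)) J Y S hS
      refine (Ex_mono' J (g := fun l1 => 3 ^ J * (2 * (J : ℝ) ^ 2 * Φ' + 2 * Tl csat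
        (CA (k + 1) A') lam M' Set.univ (fun l => loss csat S (redL y l1) l ^ 2)))
        fun l1 hl1' _ => ?_).trans ?_
      · change Tl csat _ lam M' Set.univ _ ≤ _
        rw [Tl_const_mul, Tl_add, Tl_const, Tl_const_mul, hl1', ← hA']
        have e1 : Real.exp (lam * J) ≤ 3 ^ J := by
          rw [mul_comm, Real.exp_nat_mul]
          exact pow_le_pow_left₀ (Real.exp_pos _).le ((Real.exp_le_exp.2 hl1).trans
            (by linarith [Real.exp_one_lt_d9])) _
        have e2 : Phi csat (CA (k + 1) A') lam M' Set.univ ≤ Φ' :=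
          Phi_le_of_le hne' hl _ (by omega)
        have e3 : 0 ≤ Tl csat (CA (k + 1) A') lam M' Set.univ
          (fun l => loss csat S (redL y l1) l ^ 2) := Ex_nonneg _ fun l => by positivity
        have e4 := Phi_nonneg (sat := csat) (A := CA (k + 1) A') (lam := lam) M' Set.univ
        gcongr
      · rw [Ex_const_mul, Ex_add, Ex_const hTne, Ex_const_mul, mul_pow, mul_left_comm _ (3 ^ J)]
        refine mul_le_mul_of_nonneg_left ?_ (by positivity)
        have e1 : (J : ℝ) ^ 2 ≤ 2 * (2 ^ (k + 3)) ^ J := (sq_le_two_pow J).trans (by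
          gcongr; exact le_self_pow₀ one_le_two (by omega))
        have e2 : Φ' ≤ Γ * Φ' * 2 ^ Y.card := by
          rw [mul_right_comm]
          exact le_mul_of_one_le_left (by linarith) (one_le_mul_of_one_le_of_one_le hΓ
            (one_le_pow₀ one_le_two))
        have e3 := mul_le_mul e1 e2 (by linarith) (by positivity)
        linarith)
  rw [CA_not_touch, hq] at h1
  have h2 : (1 - p + p * (3 * 2 ^ (k + 3))) ^ M ≤
      Real.exp (3 * 2 ^ (k + 3) * (2 * (k + 1) * C₀)) := by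
    refine (pow_le_pow_left₀ (by nlinarith [show (0 : ℝ) ≤ p * (3 * 2 ^ (k + 3)) by positivity])
      (show _ ≤ Real.exp (p * (3 * 2 ^ (k + 3))) by
        linarith [Real.add_one_le_exp (p * (3 * 2 ^ (k + 3)))]) M).trans ?_
    rw [← Real.exp_nat_mul, Real.exp_le_exp]
    nlinarith [mul_le_mul_of_nonneg_left hpM (show (0 : ℝ) ≤ 3 * 2 ^ (k + 3) by positivity)]
  have h3 : Φ' ≤ Real.exp (4 * (k + 1) * C₀) * Phi csat (CA (k + 1) A) lam M Set.univ := by
    have h4 := Ex_subset (A := CA (k + 1) A) (B := CA (k + 1) A')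
      (by rw [← CA_not_touch]; exact filter_subset _ _) M
      (f := fun l => Real.exp (lam * HT csat Set.univ l) * 1) fun l => by positivity
    rw [hq] at h4
    have h5 : Real.exp (-(4 * (k + 1) * C₀)) ≤ (1 - p) ^ M := by
      refine le_trans ?_ (pow_le_pow_left₀ (Real.exp_pos _).le (exp_neg_two_le hp0 hp2) M)
      rw [← Real.exp_nat_mul, Real.exp_le_exp]; linarith
    have h6 := (mul_le_mul_of_nonneg_right h5 (zero_le_one.trans hΦ1)).trans h4
    rw [Real.exp_neg, inv_mul_le_iff₀ (Real.exp_pos _)] at h6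
    exact h6
  refine le_trans (Ex_mono M fun l => ?_) (h1.trans ?_)
  · have a1 : (HT csat Set.univ l : ℝ) ≤ HT csat Set.univ (l.filter (¬ touch y ·)) +
        (l.filter (touch y ·)).length := by exact_mod_cast HT_le_filter csat (touch y) l _
    have a2 : (HT csat S l : ℝ) ≤ HT csat S (l.filter (¬ touch y ·)) +
        (l.filter (touch y ·)).length := by exact_mod_cast HT_le_filter csat (touch y) l _
    have a3 : (HT csat (S ∩ redL y (l.filter (touch y ·))) (l.filter (¬ touch y ·)) : ℝ) ≤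
        HT csat (S ∩ lit y s) l := by
      exact_mod_cast HT_ge_red y s l (S ∩ lit y s) S fun σ hσ => ⟨hS σ _ (fun v hv =>
        (Function.update_of_ne (ne_of_mem_of_not_mem hv hyY) _ _).symm) hσ, by simp [lit]⟩
    rw [← mul_assoc, ← Real.exp_add, ← mul_add]
    refine mul_le_mul (Real.exp_le_exp.2 (mul_le_mul_of_nonneg_left a1 hl)) ?_ (sq_nonneg _)
      (Real.exp_pos _).le
    have a4 : loss csat S (lit y s) l ≤ (l.filter (touch y ·)).length +
        loss csat S (redL y (l.filter (touch y ·))) (l.filter (¬ touch y ·)) := by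
      simp only [loss]; linarith
    have a5 := pow_le_pow_left₀ (loss_nonneg _ _ _ _) a4 2
    nlinarith [sq_nonneg (((l.filter (touch y ·)).length : ℝ) -
      loss csat S (redL y (l.filter (touch y ·))) (l.filter (¬ touch y ·)))]
  · calc _ ≤ 6 * Γ * (Real.exp (4 * (k + 1) * C₀) * Phi csat (CA (k + 1) A) lam M Set.univ) *
          2 ^ Y.card * Real.exp (3 * 2 ^ (k + 3) * (2 * (k + 1) * C₀)) := by
          have : 0 ≤ (1 - p + p * (3 * 2 ^ (k + 3))) ^ M :=
            pow_nonneg (by nlinarith [show (0 : ℝ) ≤ p * (3 * 2 ^ (k + 3)) by positivity]) M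
          gcongr
          exact mul_nonneg (mul_nonneg (by positivity) (by linarith)) (by positivity)
      _ = _ := by ring

theorem loss_bound (hk : 2 ≤ k) (C₀ : ℕ) : ∃ lam0 A0 : ℝ, 0 < lam0 ∧ 0 < A0 ∧
    ∀ (V : Type) [Fintype V] [DecidableEq V] (lam : ℝ), 0 ≤ lam → lam ≤ lam0 →
    ∀ (n : ℕ) (A : Finset V), A.card = n → ∀ t M : ℕ, M ≤ C₀ * (n + t) →
    ∀ (Y : Finset V) (S : Set (V → Bool)), DepOn Y S → ∀ y ∈ A, y ∉ Y → ∀ s,
      Tl csat (CA (k + 1) A) lam M Set.univ (fun l => loss csat S (lit y s) l ^ 2) ≤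
        A0 * 2 ^ (Y.card + t) * Phi csat (CA (k + 1) A) lam M Set.univ := by
  set C2 : ℝ := 6 * Real.exp (3 * 2 ^ (k + 3) * (2 * (k + 1) * C₀)) * Real.exp (4 * (k + 1) * C₀)
    with hC2
  have hC2' : 1 ≤ C2 := by
    have h1 : 1 ≤ Real.exp (3 * 2 ^ (k + 3) * (2 * (k + 1) * C₀)) :=
      Real.one_le_exp (by positivity)
    have h2 : 1 ≤ Real.exp (4 * (k + 1) * C₀) := Real.one_le_exp (by positivity)
    nlinarith
  set b : ℝ := 1 / (64 * C2) with hb
  have hb0 : 0 < b := by positivity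
  have hb1 : b ≤ 1 := by rw [hb, div_le_one (by positivity)]; linarith
  set h : ℝ := (b / 4) ^ (k + 1) with hh
  have hh0 : 0 < h := by positivity
  have hh1 : h ≤ 1 := pow_le_one₀ (by positivity) (by linarith)
  have hB0 : 1 ≤ 256 / h ^ 3 := by
    rw [le_div_iff₀ (by positivity)]; linarith [pow_le_one₀ (n := 3) hh0.le hh1]
  set n1 : ℕ := ⌈2 * (k + 1 : ℕ) / b⌉₊ + 1 with hn1
  set A0 : ℝ := 2 * C2 * (256 / h ^ 3 + 64 * (C₀ : ℝ) ^ 2) + (2 * C₀ * n1) ^ 2 + 8 * (C₀ : ℝ) ^ 2
    with hA0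
  have hA1 : 0 < 2 * C2 * (256 / h ^ 3 + 64 * (C₀ : ℝ) ^ 2) := by positivity
  have hA0' : 0 < A0 := by positivity
  refine ⟨h / 4, A0, by positivity, hA0', fun V _ _ lam hl hlh n => ?_⟩
  induction n with
  | zero => intro A hA t M _ Y S _ y hy; simp [card_eq_zero.1 hA] at hy
  | succ n ih =>
    intro A hA t M hM Y S hS y hy hyY s
    have hM' : (M : ℝ) ≤ C₀ * (n + 1 + t) := by exact_mod_cast hM
    have crude : (M : ℝ) ^ 2 ≤ A0 * 2 ^ t → Tl csat (CA (k + 1) A) lam M Set.univ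
        (fun l => loss csat S (lit y s) l ^ 2) ≤
        A0 * 2 ^ (Y.card + t) * Phi csat (CA (k + 1) A) lam M Set.univ := by
      intro h1
      rw [← Tl_const]
      refine Tl_mono' _ _ fun l hl _ => (loss_sq_le _ _ _ _).trans (le_trans ?_ (h1.trans ?_))
      · exact pow_le_pow_left₀ (Nat.cast_nonneg _) (by exact_mod_cast hl ▸ HT_le_length csat l S) 2
      · gcongr
        · exact one_le_two
        · omega
    rcases le_or_gt (n + 1) t with ht | ht
    · refine crude ?_
      have h1 : (n : ℝ) + 1 ≤ t := by exact_mod_cast ht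
      have h2 : (M : ℝ) ≤ 2 * C₀ * t := by nlinarith [Nat.cast_nonneg (α := ℝ) C₀]
      have h3 := pow_le_pow_left₀ (Nat.cast_nonneg _) h2 2
      have h4 := mul_le_mul_of_nonneg_left (sq_le_two_pow t) (show (0 : ℝ) ≤ 4 * C₀ ^ 2 by positivity)
      have h5 : 8 * (C₀ : ℝ) ^ 2 * 2 ^ t ≤ A0 * 2 ^ t := by
        gcongr; rw [hA0]; nlinarith [sq_nonneg (2 * (C₀ : ℝ) * n1)]
      nlinarith
    have h1 : (t : ℝ) ≤ n + 1 := by exact_mod_cast ht.le
    have h2 : (M : ℝ) ≤ 2 * C₀ * (n + 1) := by nlinarith [Nat.cast_nonneg (α := ℝ) C₀]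
    rcases le_or_gt (n + 1) n1 with hn | hn
    · refine crude ?_
      have h3 : (M : ℝ) ≤ 2 * C₀ * n1 :=
        h2.trans (mul_le_mul_of_nonneg_left (by exact_mod_cast hn) (by positivity))
      refine (pow_le_pow_left₀ (Nat.cast_nonneg _) h3 2).trans (le_trans ?_
        (le_mul_of_one_le_right hA0'.le (one_le_pow₀ one_le_two)))
      rw [hA0]; nlinarith [sq_nonneg (C₀ : ℝ)]
    have hc' : (A.erase y).card = n := by rw [card_erase_of_mem hy, hA]; rfl
    have hbn : 2 * (k + 1 : ℕ) ≤ b * n := by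
      have h3 : 2 * (k + 1 : ℕ) / b ≤ n :=
        (Nat.le_ceil _).trans (by exact_mod_cast (by omega : ⌈2 * ((k + 1 : ℕ) : ℝ) / b⌉₊ ≤ n))
      rwa [div_le_iff₀ hb0, mul_comm _ b] at h3
    have hn2 : 2 * (k + 1) ≤ A.card := by
      have : (2 : ℝ) * (k + 1 : ℕ) ≤ n :=
        hbn.trans (mul_le_of_le_one_left (Nat.cast_nonneg _) hb1)
      have : 2 * (k + 1) ≤ n := by exact_mod_cast this
      omega
    have hne' : (CA (k + 1) (A.erase y)).Nonempty := CA_nonempty (by omega)
    have h4 := del_step hy hn2 hl (by linarith) (C₀ := C₀) (by rw [hA]; exact_mod_cast h2)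
      (Γ := 256 / h ^ 3 + 64 * (C₀ : ℝ) ^ 2 + 32 * b * A0 * 2 ^ t)
      (le_add_of_le_of_nonneg (le_add_of_le_of_nonneg hB0 (by positivity)) (by positivity))
      (fun M' hM'' Y S hS => by
        have e0 := Phi_le_of_le (sat := csat) hne' hl Set.univ hM''
        have e1 := Phi_nonneg (sat := csat) (A := CA (k + 1) (A.erase y)) (lam := lam) M' Set.univ
        refine (one_step hy hk hn2 hb0 hb1 (by rwa [hc']) hl hlh M' Y S (by positivity)
          fun v hv hvY s => ih _ hc' (t + 1) M' (hM''.trans (hM.trans (le_of_eq (by ring))))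
            Y S hS v hv hvY s).trans ?_
        have e2 : (M' : ℝ) / A.card ≤ 2 * C₀ := by
          rw [hA, div_le_iff₀ (by positivity)]
          exact (Nat.cast_le.2 hM'').trans (by exact_mod_cast h2)
        have e3 : 8 * (Y.card : ℝ) ^ 2 * (M' / A.card) ^ 2 ≤ 64 * (C₀ : ℝ) ^ 2 * 2 ^ Y.card :=
          (mul_le_mul (mul_le_mul_of_nonneg_left (sq_le_two_pow _) (by norm_num))
            (pow_le_pow_left₀ (by positivity) e2 2) (by positivity) (by positivity)).trans
            (le_of_eq (by ring))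
        have e4 : 256 / h ^ 3 ≤ 256 / h ^ 3 * 2 ^ Y.card :=
          le_mul_of_one_le_right (by positivity) (one_le_pow₀ one_le_two)
        calc _ ≤ (256 / h ^ 3 * 2 ^ Y.card + 64 * (C₀ : ℝ) ^ 2 * 2 ^ Y.card) *
              Phi csat (CA (k + 1) (A.erase y)) lam M Set.univ + 16 * b * (A0 *
              2 ^ (Y.card + (t + 1)) * Phi csat (CA (k + 1) (A.erase y)) lam M Set.univ) := by
              gcongr
          _ = _ := by ring) hS hyY s
    refine h4.trans (mul_le_mul_of_nonneg_right ?_ (Phi_nonneg _ _))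
    rw [← hC2, add_comm Y.card, pow_add, ← mul_assoc]
    refine mul_le_mul_of_nonneg_right ?_ (by positivity)
    have e1 : C2 * (32 * b * A0 * 2 ^ t) = A0 * 2 ^ t / 2 := by rw [hb]; field_simp; norm_num
    have e2 : A0 ≤ A0 * 2 ^ t := le_mul_of_one_le_right hA0'.le (one_le_pow₀ one_le_two)
    have e3 : 2 * C2 * (256 / h ^ 3 + 64 * (C₀ : ℝ) ^ 2) ≤ A0 := by
      rw [hA0]; nlinarith [sq_nonneg (2 * (C₀ : ℝ) * n1), sq_nonneg (C₀ : ℝ)]
    rw [mul_add, e1]
    linarith

end Crest.Agent.R153
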