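import Crest.Agent.R153.Defs
import Crest.Agent.R141.Up2

/-!
Row 153, part (P): the pressure of soft 3-SAT is sandwiched by the ground-state energy.
-/

set_option autoImplicit false

namespace Crest.Agent.R153

open Crest.Agent.R141 Crest.ProbabilityR.Diluted Finset
open scoped BigOperators

namespace Pr

lemma cost_eq_sum {k m : ℕ} {V : Type} (F : Fin m → Cl k V) (σ : V → Bool) :
    cost F σ = ∑ j : Fin m, if ∀ i, σ ((F j).1 i) ≠ (F j).2 i then 1 else 0 := by
  unfold cost
  rw [card_filter]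

lemma emin_le {k m N : ℕ} (F : Fin m → Cl k (Fin N)) (σ : Fin N → Bool) : emin F ≤ cost F σ :=
  inf'_le _ (mem_univ σ)

lemma exists_emin {k m N : ℕ} (F : Fin m → Cl k (Fin N)) : ∃ σ, emin F = cost F σ := by
  obtain ⟨σ, _, h⟩ := exists_mem_eq_inf' (univ_nonempty (α := Fin N → Bool)) (cost F)
  exact ⟨σ, h⟩

lemma theta_eq (B : ℕ) (c : (satM B).Θ) (g : Fin 3 → Bool) (hg : c.2 = g) (s : Fin 3 → Bool) :
    (satM B).θ c s = -Real.log (B + 1) * (if ∀ i, s i ≠ g i then 1 else 0) := by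
  subst hg
  change Real.log (1 - (B : ℝ) / (B + 1) * ∏ j, (if s j = c.2 j then (0 : ℝ) else 1)) = _
  split_ifs with h
  · rw [prod_eq_one fun j _ => if_neg (h j), mul_one, mul_one, ← Real.log_inv]
    congr 1
    field_simp
    ring
  · push Not at h
    obtain ⟨j, hj⟩ := h
    rw [prod_eq_zero (f := fun j => if s j = c.2 j then (0 : ℝ) else 1) (mem_univ j) (if_pos hj)]
    simp

/-- the log partition function of a formula -/
noncomputable def LZ (β : ℝ) {n N : ℕ} (F : Fin n → Cl 3 (Fin N)) : ℝ :=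
  Real.log (∑ σ : Fin N → Bool, Real.exp (-β * cost F σ))

lemma LZ_ge {β : ℝ} {n N : ℕ} (F : Fin n → Cl 3 (Fin N)) : -β * emin F ≤ LZ β F := by
  obtain ⟨σ, h⟩ := exists_emin F
  rw [h, LZ, Real.le_log_iff_exp_le (sum_pos (fun _ _ => Real.exp_pos _) univ_nonempty)]
  exact single_le_sum (f := fun σ => Real.exp (-β * cost F σ))
    (fun _ _ => (Real.exp_pos _).le) (mem_univ σ)

lemma LZ_le {β : ℝ} (hβ : 0 ≤ β) {n N : ℕ} (F : Fin n → Cl 3 (Fin N)) :
    LZ β F ≤ N * Real.log 2 - β * emin F := by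
  rw [LZ, Real.log_le_iff_le_exp (sum_pos (fun _ _ => Real.exp_pos _) univ_nonempty)]
  calc ∑ σ : Fin N → Bool, Real.exp (-β * cost F σ)
      ≤ ∑ _σ : Fin N → Bool, Real.exp (-β * emin F) := by
        refine sum_le_sum fun σ _ => Real.exp_le_exp.2 ?_
        have : (emin F : ℝ) ≤ cost F σ := by exact_mod_cast emin_le F σ
        nlinarith
    _ = _ := by
        rw [sum_const, card_univ, Fintype.card_fun, Fintype.card_bool, Fintype.card_fin,
          nsmul_eq_mul, Real.exp_sub, ← Real.log_pow, Real.exp_log (by positivity), neg_mul,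
          Real.exp_neg]
        push_cast
        ring

/-- reorganisation of a formula -/
def eqv (B n N : ℕ) :
    (Fin n → (satM B).Θ) × (Fin n → Fin 3 → Fin N) ≃ (Fin n → Cl 3 (Fin N)) where
  toFun p := fun k => (p.2 k, (p.1 k).2)
  invFun F := (fun k => ((), (F k).2), fun k => (F k).1)
  left_inv _ := rfl
  right_inv _ := rfl

lemma inner_eq (B n N : ℕ) :
    ∑ c : Fin n → (satM B).Θ, (∏ k, (satM B).w (c k)) *
      ∑ hs : Fin N → (satM B).H, (∏ i, (satM B).wh (hs i)) *
        ((Fintype.card (Fin n → Fin 3 → Fin N) : ℝ)⁻¹ *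
          ∑ idx : Fin n → Fin 3 → Fin N,
            logPartition N (fun k => (satM B).θ (c k)) idx (fun i => (satM B).h (hs i))) =
      𝔼 F : Fin n → Cl 3 (Fin N), LZ (Real.log (B + 1)) F := by
  have hw : ∀ c : (satM B).Θ, (satM B).w c = 1 / 8 := by
    intro c
    change (1 : ℝ) * ∏ _j : Fin 3, (1 / 2 : ℝ) = 1 / 8
    norm_num
  have hl : ∀ (c : Fin n → (satM B).Θ) (hs : Fin N → (satM B).H) (idx : Fin n → Fin 3 → Fin N),
      logPartition N (fun k => (satM B).θ (c k)) idx (fun i => (satM B).h (hs i)) =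
        LZ (Real.log (B + 1)) (eqv B n N (c, idx)) := by
    intro c hs idx
    unfold logPartition LZ
    congr 1
    refine sum_congr rfl fun σ _ => ?_
    congr 1
    have h0 : ∀ i, (satM B).h (hs i) = 0 := fun _ => rfl
    simp only [h0, zero_mul, sum_const_zero, add_zero]
    rw [cost_eq_sum]
    push_cast
    rw [mul_sum]
    exact sum_congr rfl fun k _ => theta_eq B (c k) _ rfl _
  have hs1 : ∑ hs : Fin N → (satM B).H, (∏ i, (satM B).wh (hs i)) = 1 := by
    rw [← Fintype.piFinset_univ, ← prod_univ_sum (fun _ : Fin N => univ)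
      (fun _ a => (satM B).wh a)]
    simp only [(satM B).wh_sum, prod_const_one]
  simp only [hw, hl, ← sum_mul, hs1, one_mul]
  rw [Fintype.expect_eq_sum_div_card, ← (eqv B n N).sum_comp, Fintype.sum_prod_type, sum_div]
  refine sum_congr rfl fun c _ => ?_
  simp only [prod_const, card_univ, Fintype.card_fin, Fintype.card_fun, Fintype.card_prod,
    Fintype.card_bool]
  push_cast
  rw [mul_pow, div_eq_inv_mul _ (_ * _), mul_inv, one_div, inv_pow]
  ring

lemma RR_succ {N : ℕ} (hN : 0 < N) (n : ℕ) : RR N n ≤ RR N (n + 1) ∧ RR N (n + 1) ≤ RR N n + 1 := by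
  have : Nonempty (Fin N) := ⟨⟨0, hN⟩⟩
  have hc : ∀ (c : Cl 3 (Fin N)) (F : Fin n → Cl 3 (Fin N)) (σ : Fin N → Bool),
      cost F σ ≤ cost (Fin.cons c F : Fin (n + 1) → Cl 3 (Fin N)) σ ∧
        cost (Fin.cons c F : Fin (n + 1) → Cl 3 (Fin N)) σ ≤ cost F σ + 1 := by
    intro c F σ
    rw [cost_eq_sum, cost_eq_sum, Fin.sum_univ_succ]
    simp only [Fin.cons_succ]
    split_ifs <;> omega
  have he : ∀ (c : Cl 3 (Fin N)) (F : Fin n → Cl 3 (Fin N)),
      (emin F : ℝ) ≤ emin (Fin.cons c F : Fin (n + 1) → Cl 3 (Fin N)) ∧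
        (emin (Fin.cons c F : Fin (n + 1) → Cl 3 (Fin N)) : ℝ) ≤ emin F + 1 := by
    intro c F
    constructor
    · obtain ⟨σ, h⟩ := exists_emin (Fin.cons c F : Fin (n + 1) → Cl 3 (Fin N))
      rw [h]
      exact_mod_cast (emin_le F σ).trans (hc c F σ).1
    · obtain ⟨σ, h⟩ := exists_emin F
      rw [h]
      exact_mod_cast (emin_le _ σ).trans (hc c F σ).2
  have e : RR N (n + 1) = 𝔼 c : Cl 3 (Fin N), 𝔼 F : Fin n → Cl 3 (Fin N),
      (emin (Fin.cons c F : Fin (n + 1) → Cl 3 (Fin N)) : ℝ) := by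
    rw [← expect_product', univ_product_univ]
    exact (Fintype.expect_equiv (Fin.consEquiv fun _ : Fin (n + 1) => Cl 3 (Fin N)) _ _
      (fun p => rfl)).symm
  rw [e]
  constructor
  · refine le_expect univ_nonempty fun c _ => ?_
    exact expect_le_expect fun F _ => (he c F).1
  · refine expect_le univ_nonempty fun c _ => ?_
    refine (expect_le_expect fun F _ => (he c F).2).trans ?_
    rw [expect_add_distrib, Fintype.expect_const]
    rfl

lemma RR_add {N : ℕ} (hN : 0 < N) (n k : ℕ) :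
    RR N n ≤ RR N (n + k) ∧ RR N (n + k) ≤ RR N n + k := by
  induction k with
  | zero => simp
  | succ k ih =>
    have := RR_succ hN (n + k)
    rw [← add_assoc]
    push_cast
    constructor <;> linarith [ih.1, ih.2, this.1, this.2]

lemma RR_lip {N : ℕ} (hN : 0 < N) (n m : ℕ) : |RR N n - RR N m| ≤ |(n : ℝ) - m| := by
  rcases le_total n m with h | h
  · obtain ⟨k, rfl⟩ := Nat.exists_eq_add_of_le h
    have := RR_add hN n k
    have hk : (0 : ℝ) ≤ k := Nat.cast_nonneg k
    push_cast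
    rw [abs_of_nonpos (by linarith [this.1]), abs_of_nonpos (by linarith)]
    linarith [this.2]
  · obtain ⟨k, rfl⟩ := Nat.exists_eq_add_of_le h
    have := RR_add hN m k
    have hk : (0 : ℝ) ≤ k := Nat.cast_nonneg k
    push_cast
    rw [abs_of_nonneg (by linarith [this.1]), abs_of_nonneg (by linarith)]
    linarith [this.2]

lemma hasSum_poi_sq (lam : ℝ) :
    HasSum (fun n => poissonWeight lam n * (n : ℝ) ^ 2) (lam ^ 2 + lam) := by
  rw [← hasSum_nat_add_iff' 1]
  have := ((Up.hasSum_poi_mul lam).add (Up.hasSum_poi_one lam)).mul_left lam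
  simp only [range_one, sum_singleton, Nat.cast_zero]
  have e : (fun n : ℕ => poissonWeight lam (n + 1) * ((n + 1 : ℕ) : ℝ) ^ 2) =
      fun n => lam * (poissonWeight lam n * n + poissonWeight lam n) := by
    funext n
    simp only [poissonWeight, Nat.factorial_succ]
    push_cast
    field_simp
    ring
  rw [e, show lam ^ 2 + lam - poissonWeight lam 0 * 0 ^ 2 = lam * (lam + 1) by ring]
  exact this

lemma hasSum_dev {lam : ℝ} (h : 0 < lam) :
    HasSum (fun n => poissonWeight lam n * (((n : ℝ) - lam) ^ 2 / (2 * √lam) + √lam / 2 + 1))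
      (√lam + 1) := by
  have hs : 0 < √lam := Real.sqrt_pos.2 h
  have h2 : √lam ^ 2 = lam := Real.sq_sqrt h.le
  have := (((hasSum_poi_sq lam).mul_left (1 / (2 * √lam))).add
    ((Up.hasSum_poi_mul lam).mul_left (-(2 * lam) / (2 * √lam)))).add
    ((Up.hasSum_poi_one lam).mul_left (lam ^ 2 / (2 * √lam) + √lam / 2 + 1))
  have e1 : (fun n : ℕ => poissonWeight lam n *
      (((n : ℝ) - lam) ^ 2 / (2 * √lam) + √lam / 2 + 1)) = fun b : ℕ =>
      1 / (2 * √lam) * (poissonWeight lam b * (b : ℝ) ^ 2) +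
        -(2 * lam) / (2 * √lam) * (poissonWeight lam b * (b : ℝ)) +
        (lam ^ 2 / (2 * √lam) + √lam / 2 + 1) * poissonWeight lam b := by
    funext n
    ring
  have e2 : √lam + 1 = 1 / (2 * √lam) * (lam ^ 2 + lam) + -(2 * lam) / (2 * √lam) * lam +
      (lam ^ 2 / (2 * √lam) + √lam / 2 + 1) * 1 := by
    field_simp
    nlinarith
  rw [e1, e2]
  exact this

lemma dev_le {lam : ℝ} (h : 0 < lam) (n : ℕ) :
    |(n : ℝ) - ⌊lam⌋₊| ≤ ((n : ℝ) - lam) ^ 2 / (2 * √lam) + √lam / 2 + 1 := by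
  have hs : 0 < √lam := Real.sqrt_pos.2 h
  have h1 : |(n : ℝ) - lam| ≤ ((n : ℝ) - lam) ^ 2 / (2 * √lam) + √lam / 2 := by
    rw [← sq_abs, div_add_div _ _ (by positivity) (by norm_num), le_div_iff₀ (by positivity)]
    nlinarith [sq_nonneg (|(n : ℝ) - lam| - √lam)]
  have h2 : |lam - ⌊lam⌋₊| ≤ 1 := by
    rw [abs_of_nonneg (by linarith [Nat.floor_le h.le])]
    linarith [Nat.lt_floor_add_one lam]
  calc |(n : ℝ) - ⌊lam⌋₊| = |((n : ℝ) - lam) + (lam - ⌊lam⌋₊)| := by congr 1; ring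
    _ ≤ _ := (abs_add_le _ _).trans (add_le_add h1 h2)

lemma tsum_sandwich {f l u : ℕ → ℝ} {L U : ℝ} (hl : HasSum l L) (hu : HasSum u U)
    (h1 : ∀ n, l n ≤ f n) (h2 : ∀ n, f n ≤ u n) : L ≤ ∑' n, f n ∧ ∑' n, f n ≤ U := by
  have hs : Summable fun n => f n - l n :=
    Summable.of_nonneg_of_le (fun n => sub_nonneg.2 (h1 n)) (fun n => sub_le_sub_right (h2 n) _)
      (hu.summable.sub hl.summable)
  have hf : Summable f := by simpa using hs.add hl.summable
  exact ⟨hasSum_le h1 hl hf.hasSum, hasSum_le h2 hf.hasSum hu⟩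

end Pr

open Pr in
theorem partP : PartP := by
  intro B a ha N hN
  have : Nonempty (Fin N) := ⟨⟨0, hN⟩⟩
  have hN' : (0 : ℝ) < N := by exact_mod_cast hN
  have hlam : 0 < a * N := by positivity
  set lam := a * N with hlamdef
  set β := Real.log (B + 1) with hβdef
  have hβ : 0 ≤ β := Real.log_nonneg (by linarith [Nat.cast_nonneg (α := ℝ) B])
  have e : N * (satM B).press a N =
      ∑' n : ℕ, poissonWeight lam n * 𝔼 F : Fin n → Cl 3 (Fin N), LZ β F := by
    unfold Model.press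
    simp only [inner_eq]
    rw [← mul_assoc, mul_one_div_cancel hN'.ne', one_mul]
  have hG1 : ∀ n, -β * RR N n ≤ 𝔼 F : Fin n → Cl 3 (Fin N), LZ β F := by
    intro n
    rw [RR, mul_expect]
    exact expect_le_expect fun F _ => LZ_ge F
  have hG2 : ∀ n, 𝔼 F : Fin n → Cl 3 (Fin N), LZ β F ≤ N * Real.log 2 - β * RR N n := by
    intro n
    refine (expect_le_expect fun F _ => LZ_le hβ F).trans ?_
    rw [expect_sub_distrib, Fintype.expect_const, RR, mul_expect]
  have hd := hasSum_dev hlam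
  have h1 := Up.hasSum_poi_one lam
  have hL := (h1.mul_left (-(β * RR N ⌊lam⌋₊))).sub (hd.mul_left β)
  have hU := (h1.mul_left (N * Real.log 2 - β * RR N ⌊lam⌋₊)).add (hd.mul_left β)
  have key := tsum_sandwich
    (f := fun n => poissonWeight lam n * 𝔼 F : Fin n → Cl 3 (Fin N), LZ β F) hL hU
    (fun n => by
      have hp := Up.poi_nonneg hlam.le n
      have := abs_le.1 ((RR_lip hN n ⌊lam⌋₊).trans (dev_le hlam n))
      have h3 := mul_le_mul_of_nonneg_left this.2 hβ
      have h4 := mul_le_mul_of_nonneg_left ((by linarith [hG1 n]) :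
        -(β * RR N ⌊lam⌋₊) - β * (((n : ℝ) - lam) ^ 2 / (2 * √lam) + √lam / 2 + 1) ≤
          𝔼 F : Fin n → Cl 3 (Fin N), LZ β F) hp
      linarith)
    (fun n => by
      have hp := Up.poi_nonneg hlam.le n
      have := abs_le.1 ((RR_lip hN n ⌊lam⌋₊).trans (dev_le hlam n))
      have h3 := mul_le_mul_of_nonneg_left this.1 hβ
      have h4 := mul_le_mul_of_nonneg_left ((by linarith [hG2 n]) :
        𝔼 F : Fin n → Cl 3 (Fin N), LZ β F ≤ (N * Real.log 2 - β * RR N ⌊lam⌋₊) +
          β * (((n : ℝ) - lam) ^ 2 / (2 * √lam) + √lam / 2 + 1)) hp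
      linarith)
  rw [e]
  constructor
  · linarith [key.1]
  · linarith [key.2]

end Crest.Agent.R153
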