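import Crest.Agent.R153.Link

/-! The ground-state energy below and above the threshold. -/

set_option autoImplicit false
set_option maxHeartbeats 400000

namespace Crest.Agent.R153

open Finset Filter Topology Crest.ProbabilityR.RandomSAT
open scoped BigOperators

variable {V : Type} {k : ℕ}

/-- Number of violated clauses of a list. -/
noncomputable def cst (σ : V → Bool) (l : List (Cl k V)) : ℝ :=
  (l.map fun c => I (σ ∉ csat c)).sum

open Classical in
/-- Clauses with a repeated variable are ignored. -/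
noncomputable def sat' (c : Cl k V) : Set (V → Bool) :=
  if Function.Injective c.1 then csat c else Set.univ

theorem csat_subset (c : Cl k V) : csat c ⊆ sat' c := by
  unfold sat'; split_ifs <;> simp

theorem cst_ofFn {m : ℕ} (F : Fin m → Cl k V) (σ : V → Bool) :
    cst σ (List.ofFn F) = cost F σ := by
  classical
  rw [cst, List.map_ofFn, List.sum_ofFn, cost]
  simp only [Function.comp]
  rw [sum_I]
  congr 2
  ext j; simp [csat]

theorem exists_opt (N : ℕ) : ∃ s : List (Cl 3 (Fin N)) → Fin N → Bool,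
    (∀ l σ, cst (s l) l ≤ cst σ l) ∧ ∀ m, RR N m = Ex univ m (fun l => cst (s l) l) := by
  choose s hs using fun l : List (Cl 3 (Fin N)) =>
    exists_min_image univ (fun σ => cst σ l) univ_nonempty
  refine ⟨s, fun l σ => (hs l).2 σ (mem_univ _), fun m => ?_⟩
  rw [Ex_ofFn id (fun _ => rfl), RR]
  refine expect_congr rfl fun F _ => le_antisymm ?_ ?_
  · simp only [id, cst_ofFn]
    exact_mod_cast inf'_le _ (mem_univ _)
  · obtain ⟨σ, -, hσ⟩ := exists_mem_eq_inf' univ_nonempty (cost F)
    rw [emin, hσ, ← cst_ofFn]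
    exact (hs _).2 σ (mem_univ _)

theorem Ex_map_sum {C : Type*} {A : Finset C} (hA : A.Nonempty) (f : C → ℝ) :
    ∀ m, Ex A m (fun l => (l.map f).sum) = m * 𝔼 c ∈ A, f c
  | 0 => by simp [Ex_zero]
  | m + 1 => by
    simp only [Ex_succ, List.map_cons, List.sum_cons, Ex_add, Ex_const hA, Ex_map_sum hA f m,
      expect_add_distrib, expect_const hA]
    push_cast; ring

theorem exp_Ex_le {C : Type*} {A : Finset C} (hA : A.Nonempty) (m : ℕ) (f : List C → ℝ) :
    Real.exp (Ex A m f) ≤ Ex A m (fun l => Real.exp (f l)) := by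
  have := Ex_mono (A := A) m (f := fun l => Real.exp (Ex A m f) * (f l - Ex A m f + 1))
    (g := fun l => Real.exp (f l)) fun l => by
      rw [show Real.exp (f l) = Real.exp (Ex A m f) * Real.exp (f l - Ex A m f) by
        rw [← Real.exp_add]; ring_nf]
      exact mul_le_mul_of_nonneg_left (Real.add_one_le_exp _) (Real.exp_pos _).le
  simpa [Ex_const_mul, Ex_add, Ex_sub, Ex_const hA] using this

variable [Fintype V] [DecidableEq V]

/-- Probability that a clause has distinct variables. -/
noncomputable def rho (k : ℕ) (V : Type) [Fintype V] [DecidableEq V] : ℝ :=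
  ((CA k (univ : Finset V)).card : ℝ) / Fintype.card (Cl k V)

theorem rho_nonneg : 0 ≤ rho k V := by unfold rho; positivity

theorem rho_le_one : rho k V ≤ 1 :=
  div_le_one_of_le₀ (by exact_mod_cast card_le_univ _) (by positivity)

theorem expect_sat' [Nonempty V] (g : Set (V → Bool) → ℝ) :
    𝔼 c : Cl k V, g (sat' c) =
      (1 - rho k V) * g Set.univ + rho k V * 𝔼 c ∈ CA k (univ : Finset V), g (csat c) := by
  classical
  have e : (univ : Finset (Cl k V)).filter (fun c => Function.Injective c.1) = CA k univ := by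
    ext c; simp [mem_CA]
  rw [expect_split (fun c : Cl k V => Function.Injective c.1), e, card_univ]
  congr 1
  · rw [div_mul_eq_mul_div, card_mul_expect, sum_congr rfl (g := fun _ => g Set.univ)
      (fun c hc => by rw [sat', if_neg (mem_filter.1 hc).2]), sum_const, nsmul_eq_mul,
      ← div_mul_eq_mul_div]
    congr 1
    have := card_filter_add_card_filter_not (s := univ) (fun c : Cl k V => Function.Injective c.1)
    have h0 : (0 : ℝ) < Fintype.card (Cl k V) := by exact_mod_cast Fintype.card_pos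
    rw [e, card_univ] at this
    rw [rho, eq_sub_iff_add_eq, ← add_div, div_eq_one_iff_eq h0.ne', add_comm]
    exact_mod_cast this
  · congr 1
    exact expect_congr rfl fun c hc => by rw [sat', if_pos (mem_CA.1 hc).1]

theorem PS_le_PS' [Nonempty V] (hA : (CA k (univ : Finset V)).Nonempty) :
    ∀ (m : ℕ) (S : Set (V → Bool)), PS csat (CA k (univ : Finset V)) S m ≤
      PS sat' (univ : Finset (Cl k V)) S m
  | 0, _ => by simp [PS, Ex_zero]
  | m + 1, S => by
    rw [PS_succ, PS_succ, expect_sat' (fun T => PS sat' univ (S ∩ T) m), Set.inter_univ]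
    have h1 := expect_le_expect (s := CA k (univ : Finset V)) fun c _ =>
      PS_le_PS' hA m (S ∩ csat c)
    have h2 : 𝔼 c ∈ CA k (univ : Finset V), PS sat' (univ : Finset (Cl k V)) (S ∩ csat c) m ≤
        PS sat' univ S m := expect_le hA fun c _ => PS_mono Set.inter_subset_left m
    nlinarith [mul_le_mul_of_nonneg_left h2 (sub_nonneg.2 (rho_le_one (k := k) (V := V)))]

theorem RR_nonneg (N m : ℕ) : 0 ≤ RR N m := expect_nonneg fun _ _ => Nat.cast_nonneg _

theorem RR_le {N : ℕ} (hN : 3 ≤ N) (m : ℕ) :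
    RR N m ≤ m * (1 - rho 3 (Fin N)) + m * (1 - satProb 3 N m) := by
  have : Nonempty (Fin N) := ⟨⟨0, by omega⟩⟩
  obtain ⟨s, hs, hR⟩ := exists_opt N
  have h1 := PS_le_PS' (k := 3) (V := Fin N) (CA_nonempty (by simpa using hN)) m Set.univ
  have h2 : 𝔼 c : Cl 3 (Fin N), I (¬ Function.Injective c.1) ≤ 1 - rho 3 (Fin N) := by
    classical
    have e : ∀ p : Prop, I (¬ p) = 1 - I p := fun p => by by_cases h : p <;> simp [I, h]
    simp only [e, expect_sub_distrib, Fintype.expect_const]
    rw [Fintype.expect_eq_sum_div_card, sum_I, rho]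
    gcongr
    intro c hc; simpa [mem_CA] using hc
  rw [hR, satProb_eq]
  refine (Ex_mono' m (g := fun l => (l.map fun c => I (¬ Function.Injective c.1)).sum +
    m * (1 - I (∃ σ ∈ Set.univ, ∀ c ∈ l, σ ∈ sat' c))) fun l hl _ => ?_).trans ?_
  · by_cases h : ∃ σ ∈ Set.univ, ∀ c ∈ l, σ ∈ sat' c
    · rw [I_pos h, sub_self, mul_zero, add_zero]
      obtain ⟨σ, -, hσ⟩ := h
      refine (hs l σ).trans (List.sum_le_sum fun c hc => I_mono fun h1 h2 => h1 ?_)
      simpa [sat', h2] using hσ c hc
    · rw [I_neg h, sub_zero, mul_one]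
      refine le_add_of_nonneg_of_le (List.sum_nonneg ?_) ?_
      · simp only [List.mem_map]; rintro _ ⟨c, -, rfl⟩; exact I_nonneg _
      · refine (List.sum_le_card_nsmul _ 1 ?_).trans (by simp [hl])
        simp only [List.mem_map]; rintro _ ⟨c, -, rfl⟩; exact I_le_one _
  · rw [Ex_add, Ex_map_sum univ_nonempty, Ex_const_mul, Ex_sub, Ex_const univ_nonempty]
    exact add_le_add (mul_le_mul_of_nonneg_left h2 (Nat.cast_nonneg _))
      (mul_le_mul_of_nonneg_left (sub_le_sub_left h1 _) (Nat.cast_nonneg _))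

theorem soft_le [Nonempty V] (hA : (CA k (univ : Finset V)).Nonempty) {lam β : ℝ} (hl : 0 ≤ lam)
    (hβ : 0 ≤ β) : ∀ (n : ℕ) (S : Set (V → Bool)) (s : List (Cl k V) → V → Bool),
    Ex univ n (fun l => I (s l ∈ S) * Real.exp (-(β * cst (s l) l))) ≤
      Phi csat (CA k (univ : Finset V)) lam n S *
        (1 - (1 - Real.exp (-β)) * rho k V * (1 - Real.exp (-lam))) ^ n
  | 0, S, s => by simpa [Ex_zero, cst, Phi, Tl_zero] using I_le_one _
  | n + 1, S, s => by
    set q := 1 - Real.exp (-β) with hq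
    set θ := 1 - q * rho k V * (1 - Real.exp (-lam)) with hθ
    have q0 : 0 ≤ q := sub_nonneg.2 (Real.exp_le_one_iff.2 (by linarith))
    have q1 : q ≤ 1 := by linarith [Real.exp_pos (-β)]
    have r0 := rho_nonneg (k := k) (V := V)
    have r1 := rho_le_one (k := k) (V := V)
    have θ0 : 0 ≤ θ := sub_nonneg.2 (mul_le_one₀ (mul_le_one₀ q1 r0 r1)
      (sub_nonneg.2 (Real.exp_le_one_iff.2 (by linarith))) (by linarith [Real.exp_pos (-lam)]))
    rcases S.eq_empty_or_nonempty with rfl | hS
    · simp only [I_neg (Set.notMem_empty _), zero_mul, Ex_const univ_nonempty]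
      exact mul_nonneg (Phi_nonneg _ _) (pow_nonneg θ0 _)
    have h1 : ∀ c : Cl k V, Ex univ n (fun l => I (s (c :: l) ∈ S) *
        Real.exp (-(β * cst (s (c :: l)) (c :: l)))) ≤
        ((1 - q) * Phi csat (CA k (univ : Finset V)) lam n S +
          q * Phi csat (CA k (univ : Finset V)) lam n (S ∩ sat' c)) * θ ^ n := by
      intro c
      have i1 := mul_le_mul_of_nonneg_left (soft_le hA hl hβ n S fun l => s (c :: l))
        (sub_nonneg.2 q1)
      have i2 := mul_le_mul_of_nonneg_left (soft_le hA hl hβ n (S ∩ sat' c) fun l => s (c :: l)) q0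
      refine le_trans ?_ ((add_le_add i1 i2).trans_eq (by ring))
      rw [← Ex_const_mul, ← Ex_const_mul, ← Ex_add]
      refine Ex_mono n fun l => ?_
      simp only [cst, List.map_cons, List.sum_cons, mul_add, neg_add, Real.exp_add]
      rw [← mul_assoc, ← mul_assoc, ← mul_assoc, ← add_mul]
      refine mul_le_mul_of_nonneg_right ?_ (Real.exp_pos _).le
      by_cases h1 : s (c :: l) ∈ S
      · by_cases h2 : s (c :: l) ∈ csat c
        · rw [I_pos h1, I_neg (not_not.2 h2), 
            I_pos (p := _ ∈ S ∩ sat' c) ⟨h1, csat_subset c h2⟩]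
          simp
        · rw [I_pos h1, I_pos h2]
          have := mul_nonneg q0 (I_nonneg (s (c :: l) ∈ S ∩ sat' c))
          simp only [mul_one, one_mul]; linarith
      · rw [I_neg h1]
        have := mul_nonneg q0 (I_nonneg (s (c :: l) ∈ S ∩ sat' c))
        simp only [mul_zero, zero_mul]; linarith
    rw [Ex_succ]
    refine (expect_le_expect fun c _ => h1 c).trans ?_
    rw [← expect_mul, expect_add_distrib, expect_const univ_nonempty, ← mul_expect,
      expect_sat' (fun T => Phi csat (CA k (univ : Finset V)) lam n (S ∩ T)), Set.inter_univ,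
      pow_succ', ← mul_assoc]
    refine mul_le_mul_of_nonneg_right ?_ (pow_nonneg θ0 _)
    have e : 𝔼 c ∈ CA k (univ : Finset V), Phi csat (CA k (univ : Finset V)) lam n (S ∩ csat c) =
        Real.exp (-lam) * Phi csat (CA k (univ : Finset V)) lam (n + 1) S := by
      rw [Phi_succ hS, ← mul_assoc, ← Real.exp_add]; simp
    have h2 := mul_le_mul_of_nonneg_left (Phi_le_succ (sat := csat) hA hl n S)
      (sub_nonneg.2 (mul_le_one₀ q1 r0 r1))
    rw [e, hθ]
    linarith

theorem rho_tendsto : Tendsto (fun N : ℕ => rho 3 (Fin N)) atTop (𝓝 1) := by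
  have h1 : Tendsto (fun N : ℕ => (1 - 2 / (N : ℝ)) ^ 3) atTop (𝓝 ((1 - 0) ^ 3)) :=
    ((tendsto_const_div_atTop_nhds_zero_nat 2).const_sub 1).pow 3
  rw [sub_zero, one_pow] at h1
  refine tendsto_of_tendsto_of_tendsto_of_le_of_le' h1 tendsto_const_nhds ?_
    (Eventually.of_forall fun _ => rho_le_one)
  filter_upwards [eventually_ge_atTop 3] with N hN
  have h0 : (0 : ℝ) < N := by exact_mod_cast (by omega : 0 < N)
  have h2 : (((N + 1 - 3 : ℕ) : ℝ)) ^ 3 ≤ N.descFactorial 3 := by
    exact_mod_cast Nat.pow_sub_le_descFactorial N 3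
  rw [Nat.cast_sub (by omega)] at h2
  rw [rho, card_CA, le_div_iff₀ (by simp; positivity)]
  simp only [Fintype.card_prod, Fintype.card_pi, Fintype.card_fin, Fintype.card_bool, prod_const,
    card_univ]
  push_cast at h2 ⊢
  refine le_trans (le_of_eq ?_) (mul_le_mul_of_nonneg_right h2 (by norm_num))
  field_simp; ring

theorem thr_nonneg {α : ℝ} (hα : IsSharpThreshold (satProb 3) α) : 0 ≤ α := by
  by_contra h
  have h1 := (hα 0 le_rfl).2 (not_le.1 h)
  simp only [zero_mul, Nat.floor_zero, satProb_eq, PS_zero Set.univ_nonempty] at h1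
  exact one_ne_zero (tendsto_nhds_unique tendsto_const_nhds h1)

theorem partT : PartT := by
  intro α hα
  refine ⟨fun a ha0 ha => ?_, fun C₀ => ?_⟩
  · have h1 := ((rho_tendsto.const_sub 1).const_mul a).add
      ((((hα a ha0).1 ha).const_sub 1).const_mul a)
    simp only [sub_self, mul_zero, add_zero] at h1
    refine tendsto_of_tendsto_of_tendsto_of_le_of_le' tendsto_const_nhds h1
      (Eventually.of_forall fun N => div_nonneg (RR_nonneg _ _) (Nat.cast_nonneg _)) ?_
    filter_upwards [eventually_ge_atTop 3] with N hN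
    have h0 : (0 : ℝ) < N := by exact_mod_cast (by omega : 0 < N)
    have h2 : (⌊a * N⌋₊ : ℝ) ≤ a * N := Nat.floor_le (by positivity)
    have h3 : satProb 3 N ⌊a * N⌋₊ ≤ 1 := by
      rw [satProb_eq]; exact PS_le_one (CA_nonempty (by simpa using hN)) _ _
    rw [div_le_iff₀ h0]
    refine (RR_le hN _).trans ?_
    nlinarith [mul_le_mul_of_nonneg_right h2 (sub_nonneg.2 h3),
      mul_le_mul_of_nonneg_right h2 (sub_nonneg.2 (rho_le_one (k := 3) (V := Fin N)))]
  set c : ℕ := ⌈C₀⌉₊ + 1 with hc
  have hc1 : (1 : ℝ) ≤ c := by exact_mod_cast (by omega : 1 ≤ c)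
  have hcC : C₀ ≤ c := (Nat.le_ceil _).trans (by exact_mod_cast (by omega : ⌈C₀⌉₊ ≤ c))
  obtain ⟨lam0, A0, h0, hA0, h⟩ := mgf_bound (k := 2) le_rfl c
  set A1 : ℝ := (A0 + 1) * c + 1 / lam0 with hA1
  have hA1' : 0 < A1 := by positivity
  refine ⟨256 * A1 * c, by positivity, fun ε hε hε1 a ha haC => ?_⟩
  have α0 := thr_nonneg hα
  have a0 : 0 ≤ a := by linarith
  set lam : ℝ := ε / (8 * A1) with hlam
  have hl : 0 < lam := by positivity
  have hl0 : lam ≤ lam0 := by
    rw [hlam, div_le_iff₀ (by positivity)]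
    have : 1 ≤ lam0 * A1 := by
      rw [hA1, mul_add, mul_one_div_cancel h0.ne']; exact le_add_of_nonneg_left (by positivity)
    linarith
  have hδ : 0 < ε / (16 * c) := by positivity
  filter_upwards [eventually_ge_atTop 3,
    ((hα (α + ε / 4) (by positivity)).2 (by linarith)).eventually (ge_mem_nhds hδ),
    rho_tendsto.eventually (le_mem_nhds (show 1 - ε / (16 * c) < 1 by linarith)),
    tendsto_natCast_atTop_atTop.eventually_ge_atTop (16 / ε)] with N hN hp hρ hNε
  have : Nonempty (Fin N) := ⟨⟨0, by omega⟩⟩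
  have hne : (CA 3 (univ : Finset (Fin N))).Nonempty := CA_nonempty (by simpa using hN)
  have N0 : (0 : ℝ) < N := by exact_mod_cast (by omega : 0 < N)
  set M := ⌊a * N⌋₊ with hM
  set m0 := ⌊(α + ε / 4) * N⌋₊ with hm0
  have M1 : (M : ℝ) ≤ c * N := (Nat.floor_le (by positivity)).trans (by gcongr; linarith)
  have M2 : a * N - ε * N / 16 ≤ M := by
    rw [div_le_iff₀ hε] at hNε
    linarith [Nat.lt_floor_add_one (a * N)]
  have M3 : (m0 : ℝ) ≤ (α + ε / 4) * N := Nat.floor_le (by positivity)
  have M0 : (0 : ℝ) ≤ M := Nat.cast_nonneg _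
  set β : ℝ := -Real.log (ε / (8 * c)) with hβ
  have hεc : ε / (8 * c) ≤ 1 := (div_le_one (by positivity)).2 (by linarith)
  have β0 : 0 ≤ β := neg_nonneg.2 (Real.log_nonpos (by positivity) hεc)
  have β1 : β ≤ 8 * c / ε := by
    rw [hβ, ← Real.log_inv, inv_div]
    exact (Real.log_le_sub_one_of_pos (by positivity)).trans (by linarith)
  have eβ : Real.exp (-β) = ε / (8 * c) := by rw [hβ, neg_neg, Real.exp_log (by positivity)]
  obtain ⟨s, -, hR⟩ := exists_opt N
  have h1 := soft_le hne hl.le β0 M Set.univ s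
  simp only [I_pos (Set.mem_univ _), one_mul, Phi, Tl, mul_one, eβ] at h1
  have h2 := (exp_Ex_le univ_nonempty M fun l => -(β * cst (s l) l)).trans h1
  have h3 := h N hN M (by exact_mod_cast M1) lam hl hl0
  have h4 : Ex (CA 3 (univ : Finset (Fin N))) M (fun l => HT csat Set.univ l) ≤
      m0 + M * (ε / (16 * c)) := by
    rw [Ex_HT hne _ _ (fun n => (n : ℝ))]
    simp only [Nat.cast_add, Nat.cast_one, add_sub_cancel_left, one_mul, Nat.cast_zero, zero_add]
    refine (sum_le_sum (g := fun m => I (m < m0) + ε / (16 * c)) fun m _ => ?_).trans ?_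
    · rcases lt_or_ge m m0 with h | h
      · rw [I_pos h]; linarith [PS_le_one (sat := csat) hne Set.univ m]
      · rw [satProb_eq] at hp
        linarith [PS_anti (sat := csat) hne Set.univ h, I_nonneg (m < m0)]
    · rw [sum_add_distrib, sum_I, sum_const, card_range, nsmul_eq_mul]
      gcongr
      exact (card_le_card fun m hm => mem_range.2 (mem_filter.1 hm).2).trans_eq (card_range _)
  set ρ := rho 3 (Fin N) with hρd
  have ρ1 : ρ ≤ 1 := rho_le_one
  set x := (1 - ε / (8 * c)) * ρ with hx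
  have x0 : 0 ≤ x := mul_nonneg (by linarith) rho_nonneg
  have x1 : x ≤ 1 := mul_le_one₀ (by linarith [show 0 < ε / (8 * c) by positivity]) rho_nonneg ρ1
  have x2 : 1 - 3 * ε / (16 * c) ≤ x := by
    have e : 3 * ε / (16 * c) = ε / (8 * c) + ε / (16 * c) := by field_simp; ring
    nlinarith [mul_le_mul_of_nonneg_left hρ (sub_nonneg.2 hεc),
      show 0 < ε / (8 * c) by positivity]
  have y1 : lam - lam ^ 2 ≤ 1 - Real.exp (-lam) := by
    have : Real.exp (-lam) ≤ 1 - lam + lam ^ 2 := by
      rw [Real.exp_neg, inv_le_iff_one_le_mul₀ (Real.exp_pos _)]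
      have h5 : 0 ≤ 1 - lam + lam ^ 2 := by nlinarith [sq_nonneg (lam - 1)]
      nlinarith [mul_le_mul_of_nonneg_left (Real.add_one_le_exp lam) h5, pow_pos hl 3]
    linarith
  have h5 : (1 - x * (1 - Real.exp (-lam))) ^ M ≤ Real.exp (-(M * (x * (lam - lam ^ 2)))) := by
    rw [← mul_neg, Real.exp_nat_mul]
    refine pow_le_pow_left₀ (sub_nonneg.2 (mul_le_one₀ x1 (sub_nonneg.2
      (Real.exp_le_one_iff.2 (by linarith))) (by linarith [Real.exp_pos (-lam)]))) ?_ _
    linarith [Real.add_one_le_exp (-(x * (lam - lam ^ 2))), mul_le_mul_of_nonneg_left y1 x0]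
  rw [Real.log_le_iff_le_exp (Ex_pos hne M fun _ => Real.exp_pos _)] at h3
  have h6 := h2.trans (mul_le_mul h3 h5 (by
    exact pow_nonneg (sub_nonneg.2 (mul_le_one₀ x1 (sub_nonneg.2 (Real.exp_le_one_iff.2
      (by linarith))) (by linarith [Real.exp_pos (-lam)]))) _) (Real.exp_pos _).le)
  rw [← Real.exp_add, Real.exp_le_exp] at h6
  simp only [← neg_mul, Ex_const_mul, ← hR] at h6
  have z1 : M * (ε / (16 * c)) ≤ ε * N / 16 :=
    (mul_le_mul_of_nonneg_right M1 hδ.le).trans_eq (by field_simp)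
  have z2 : (α + 3 * ε / 4) * N ≤ M * x := by
    have := mul_le_mul_of_nonneg_left x2 M0
    have e : M * (1 - 3 * ε / (16 * c)) = M - 3 * (M * (ε / (16 * c))) := by ring
    linarith [mul_le_mul_of_nonneg_right ha N0.le]
  have z3 : A0 * M * lam ^ 2 + M * x * lam ^ 2 ≤ A1 * N * lam ^ 2 := by
    rw [← add_mul]
    refine mul_le_mul_of_nonneg_right ?_ (sq_nonneg _)
    have := mul_le_mul_of_nonneg_left x1 M0
    have := mul_le_mul_of_nonneg_left M1 (show 0 ≤ A0 + 1 by positivity)
    have : 0 ≤ 1 / lam0 * N := by positivity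
    rw [hA1]; linarith
  have z4 : A1 * N * lam ^ 2 = lam * (ε * N / 8) := by rw [hlam]; field_simp
  have z5 : lam * (ε * N / 4) ≤ 8 * c / ε * RR N M := by
    linarith [mul_le_mul_of_nonneg_left h4 hl.le, mul_le_mul_of_nonneg_left z2 hl.le,
      mul_le_mul_of_nonneg_left (add_le_add M3 z1) hl.le,
      mul_le_mul_of_nonneg_right β1 (RR_nonneg N M), mul_pos hl (mul_pos hε N0)]
  rw [div_mul_eq_mul_div (8 * (c : ℝ)), le_div_iff₀ hε] at z5
  rw [div_mul_eq_mul_div, div_le_iff₀ (by positivity)]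
  have e : lam * (ε * N / 4) * ε = ε ^ 3 * N / (32 * A1) := by rw [hlam]; field_simp; norm_num
  rw [e, div_le_iff₀ (by positivity)] at z5
  linarith

end Crest.Agent.R153
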