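import Crest.Agent.R153.Ex

/-! Exponentially tilted expectations and the hazard bound. -/

set_option autoImplicit false
set_option maxHeartbeats 400000

namespace Crest.Agent.R153

open Finset
open scoped BigOperators

variable {C X : Type*} (sat : C → Set X) (A : Finset C) (lam : ℝ)

/-- Tilted (unnormalized) expectation. -/
noncomputable def Tl (M : ℕ) (S : Set X) (g : List C → ℝ) : ℝ :=
  Ex A M (fun l => Real.exp (lam * HT sat S l) * g l)

/-- Moment generating function of the hitting time. -/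
noncomputable def Phi (M : ℕ) (S : Set X) : ℝ := Tl sat A lam M S (fun _ => 1)

variable {sat A lam}

theorem Tl_zero (S : Set X) (g : List C → ℝ) : Tl sat A lam 0 S g = g [] := by simp [Tl, Ex_zero]

theorem Tl_succ {S : Set X} (hS : S.Nonempty) (M : ℕ) (g : List C → ℝ) :
    Tl sat A lam (M + 1) S g =
      Real.exp lam * 𝔼 c ∈ A, Tl sat A lam M (S ∩ sat c) (fun l => g (c :: l)) := by
  simp only [Tl, Ex_succ, HT_cons sat hS, mul_expect, ← Ex_const_mul]
  refine expect_congr rfl fun c _ => ?_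
  congr 1; funext l
  push_cast; rw [mul_add, mul_one, Real.exp_add]; ring

theorem Tl_mono' (M : ℕ) (S : Set X) {f g : List C → ℝ}
    (h : ∀ l, l.length = M → (∀ c ∈ l, c ∈ A) → f l ≤ g l) :
    Tl sat A lam M S f ≤ Tl sat A lam M S g :=
  Ex_mono' M fun l h1 h2 => mul_le_mul_of_nonneg_left (h l h1 h2) (Real.exp_pos _).le

theorem Tl_mono (M : ℕ) (S : Set X) {f g : List C → ℝ} (h : ∀ l, f l ≤ g l) :
    Tl sat A lam M S f ≤ Tl sat A lam M S g := Tl_mono' M S fun l _ _ => h l

theorem Tl_add (M : ℕ) (S : Set X) (f g : List C → ℝ) :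
    Tl sat A lam M S (fun l => f l + g l) = Tl sat A lam M S f + Tl sat A lam M S g := by
  simp only [Tl, mul_add, Ex_add]

theorem Tl_const_mul (M : ℕ) (S : Set X) (a : ℝ) (f : List C → ℝ) :
    Tl sat A lam M S (fun l => a * f l) = a * Tl sat A lam M S f := by
  simp only [Tl, mul_left_comm _ a, Ex_const_mul]

theorem Tl_const (M : ℕ) (S : Set X) (a : ℝ) :
    Tl sat A lam M S (fun _ => a) = a * Phi sat A lam M S := by
  rw [Phi, ← Tl_const_mul]; simp

theorem Tl_sum {ι : Type*} (s : Finset ι) (M : ℕ) (S : Set X) (f : ι → List C → ℝ) :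
    Tl sat A lam M S (fun l => ∑ i ∈ s, f i l) = ∑ i ∈ s, Tl sat A lam M S (f i) := by
  simp only [Tl, mul_sum, Ex_sum]

theorem Tl_expect {ι : Type*} (s : Finset ι) (M : ℕ) (S : Set X) (f : ι → List C → ℝ) :
    Tl sat A lam M S (fun l => 𝔼 i ∈ s, f i l) = 𝔼 i ∈ s, Tl sat A lam M S (f i) := by
  simp only [Tl, mul_expect, Ex_expect]

theorem Phi_nonneg (M : ℕ) (S : Set X) : 0 ≤ Phi sat A lam M S :=
  Ex_nonneg M fun _ => by positivity

theorem Phi_succ {S : Set X} (hS : S.Nonempty) (M : ℕ) :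
    Phi sat A lam (M + 1) S = Real.exp lam * 𝔼 c ∈ A, Phi sat A lam M (S ∩ sat c) :=
  Tl_succ hS M _

theorem Phi_empty (hA : A.Nonempty) (M : ℕ) : Phi sat A lam M ∅ = 1 := by
  simp [Phi, Tl, Ex_const hA]

theorem Phi_mono (hl : 0 ≤ lam) (M : ℕ) {S S' : Set X} (h : S ⊆ S') :
    Phi sat A lam M S ≤ Phi sat A lam M S' :=
  Ex_mono M fun l => mul_le_mul_of_nonneg_right (Real.exp_le_exp.2 (mul_le_mul_of_nonneg_left
    (by exact_mod_cast HT_mono sat l h) hl)) zero_le_one

theorem one_le_Phi (hA : A.Nonempty) (hl : 0 ≤ lam) (M : ℕ) (S : Set X) :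
    1 ≤ Phi sat A lam M S :=
  (Phi_empty hA M).symm.trans_le (Phi_mono hl M (Set.empty_subset S))

theorem Phi_le_succ (hA : A.Nonempty) (hl : 0 ≤ lam) :
    ∀ (M : ℕ) (S : Set X), Phi sat A lam M S ≤ Phi sat A lam (M + 1) S
  | 0, S => by rw [Phi, Tl_zero]; exact one_le_Phi hA hl 1 S
  | M + 1, S => by
    rcases S.eq_empty_or_nonempty with rfl | hS
    · simp [Phi_empty hA]
    · rw [Phi_succ hS, Phi_succ hS]
      exact mul_le_mul_of_nonneg_left (expect_le_expect fun c _ => Phi_le_succ hA hl M _)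
        (Real.exp_pos _).le

theorem Phi_le_of_le (hA : A.Nonempty) (hl : 0 ≤ lam) (S : Set X) {M M' : ℕ} (h : M ≤ M') :
    Phi sat A lam M S ≤ Phi sat A lam M' S :=
  monotone_nat_of_le_succ (f := fun M => Phi sat A lam M S) (fun M => Phi_le_succ hA hl M S) h

open Classical in
theorem hazard (hA : A.Nonempty) (hl : 0 ≤ lam) {big : Set X → Prop}
    (hbig : ∀ S c, big S → big (S ∩ sat c)) {h z K : ℝ} (hz : 0 ≤ z) (hK : 1 ≤ K) (hh : h ≤ 1)
    (hhaz : ∀ S, big S → h ≤ 𝔼 c ∈ A, if S ∩ sat c = ∅ then (1 : ℝ) else 0)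
    (hzK : z + z * Real.exp lam * (1 - h) * K ≤ K) :
    ∀ (M : ℕ) (S0 S : Set X), S ⊆ S0 → big S →
      Tl sat A lam M S0 (fun l => z ^ HT sat S l) ≤ K * Phi sat A lam M S0
  | 0, S0, S, _, _ => by simpa [Phi, Tl_zero] using hK
  | M + 1, S0, S, hS, hb => by
    rcases S.eq_empty_or_nonempty with rfl | hne
    · simp only [HT_empty, pow_zero]
      exact le_mul_of_one_le_left (Phi_nonneg _ _) hK
    have h1 : ∀ c, Tl sat A lam M (S0 ∩ sat c) (fun l => z ^ HT sat S (c :: l)) ≤
        z * Phi sat A lam M (S0 ∩ sat c) + z * K * Phi sat A lam M S0 *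
          (1 - if S ∩ sat c = ∅ then (1 : ℝ) else 0) := by
      intro c
      simp only [HT_cons sat hne, pow_succ', Tl_const_mul]
      split_ifs with hc
      · simp [hc, Phi]
      · have := hazard hA hl hbig hz hK hh hhaz hzK M (S0 ∩ sat c) (S ∩ sat c)
          (Set.inter_subset_inter_left _ hS) (hbig S c hb)
        have h2 := Phi_mono (sat := sat) (A := A) hl M
          (Set.inter_subset_left (s := S0) (t := sat c))
        have h3 := Phi_nonneg (sat := sat) (A := A) (lam := lam) M (S0 ∩ sat c)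
        have h4 := mul_le_mul_of_nonneg_left (this.trans
          (mul_le_mul_of_nonneg_left h2 (by linarith))) hz
        nlinarith [mul_nonneg hz h3]
    have hP := Phi_le_succ (sat := sat) hA hl M S0
    have hP0 := Phi_nonneg (sat := sat) (A := A) (lam := lam) M S0
    rw [Tl_succ (hne.mono hS)]
    refine (mul_le_mul_of_nonneg_left (expect_le_expect fun c _ => h1 c)
      (Real.exp_pos _).le).trans ?_
    rw [expect_add_distrib, ← mul_expect, ← mul_expect, expect_sub_distrib, expect_const hA,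
      mul_add, mul_left_comm, ← Phi_succ (hne.mono hS)]
    have h5 : z * K * Phi sat A lam M S0 *
        (1 - 𝔼 c ∈ A, if S ∩ sat c = ∅ then (1 : ℝ) else 0) ≤
        z * K * Phi sat A lam (M + 1) S0 * (1 - h) :=
      mul_le_mul (mul_le_mul_of_nonneg_left hP (by positivity)) (by linarith [hhaz S hb])
        (sub_nonneg.2 (expect_le hA fun c _ => by split_ifs <;> norm_num))
        (mul_nonneg (by positivity) (hP0.trans hP))
    nlinarith [mul_le_mul_of_nonneg_left h5 (Real.exp_pos lam).le,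
      mul_le_mul_of_nonneg_right hzK (hP0.trans hP)]

theorem NB_bound {big : Set X → Prop} {B : ℝ} (hB : 0 ≤ B)
    (h : ∀ (M : ℕ) (S0 S : Set X), S ⊆ S0 → big S →
      Tl sat A lam M S0 (fun l => (HT sat S l : ℝ) ^ 2) ≤ B * Phi sat A lam M S0) :
    ∀ (M : ℕ) (S0 S : Set X), S ⊆ S0 →
      Tl sat A lam M S0 (fun l => (NB sat big S l : ℝ) ^ 2) ≤ B * Phi sat A lam M S0
  | 0, S0, S, _ => by simpa [Phi, Tl_zero, NB] using hB
  | M + 1, S0, S, hS => by
    by_cases hb : big S
    · refine le_trans (Tl_mono' _ _ fun l hl _ => ?_) (h (M + 1) S0 S hS hb)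
      rcases l with _ | ⟨c, l⟩
      · simp at hl
      · simp [NB, hb]
    rcases S0.eq_empty_or_nonempty with rfl | hne
    · obtain rfl := Set.subset_empty_iff.1 hS
      simp only [NB_empty, Tl_const]
      exact mul_le_mul_of_nonneg_right (by simpa using hB) (Phi_nonneg _ _)
    rw [Tl_succ hne, Phi_succ hne, mul_left_comm, mul_expect _ _ B]
    refine mul_le_mul_of_nonneg_left (expect_le_expect fun c _ => ?_) (Real.exp_pos _).le
    simp only [NB, hb, if_false]
    exact NB_bound hB h M _ _ (Set.inter_subset_inter_left _ hS)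

open Classical in
/-- Second moment of the survival time after the set has become big. -/
theorem NB_sq_le (hA : A.Nonempty) (hl : 0 ≤ lam) {big : Set X → Prop}
    (hbig : ∀ S c, big S → big (S ∩ sat c)) {h : ℝ} (h0 : 0 < h) (h1 : h ≤ 1) (hlh : lam ≤ h / 4)
    (hhaz : ∀ S, big S → h ≤ 𝔼 c ∈ A, if S ∩ sat c = ∅ then (1 : ℝ) else 0)
    (M : ℕ) (S0 S : Set X) (hS : S ⊆ S0) :
    Tl sat A lam M S0 (fun l => (NB sat big S l : ℝ) ^ 2) ≤ 256 / h ^ 3 * Phi sat A lam M S0 := by
  refine NB_bound (by positivity) (fun M S0 S hS hb => ?_) M S0 S hS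
  have e1 : Real.exp (h / 4) ≤ 2 := by
    have := Real.exp_bound_div_one_sub_of_interval (x := h / 4) (by positivity) (by linarith)
    refine this.trans ?_
    rw [div_le_iff₀ (by linarith)]; linarith
  have e2 : Real.exp (h / 4) * Real.exp lam * (1 - h) ≤ 1 - h / 2 := by
    have := Real.exp_bound_div_one_sub_of_interval (x := h / 2) (by positivity) (by linarith)
    have h3 : Real.exp (h / 4) * Real.exp lam ≤ 1 / (1 - h / 2) := by
      rw [← Real.exp_add]; exact (Real.exp_le_exp.2 (by linarith)).trans this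
    refine (mul_le_mul_of_nonneg_right h3 (by linarith)).trans ?_
    rw [div_mul_eq_mul_div, div_le_iff₀ (by linarith)]; nlinarith
  have hK : (1 : ℝ) ≤ 4 / h := by rw [le_div_iff₀ h0]; linarith
  have := hazard hA hl hbig (Real.exp_pos (h / 4)).le hK h1 hhaz (by
    have := mul_le_mul_of_nonneg_right e2 (show 0 ≤ 4 / h by positivity)
    have e : (1 - h / 2) * (4 / h) = 4 / h - 2 := by field_simp; ring
    linarith) M S0 S hS hb
  refine (Tl_mono M S0 (g := fun l => 32 / h ^ 2 * Real.exp (h / 4) ^ HT sat S l)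
    fun l => ?_).trans ?_
  · have := Real.quadratic_le_exp_of_nonneg (x := HT sat S l * (h / 4)) (by positivity)
    rw [← Real.exp_nat_mul, div_mul_eq_mul_div, le_div_iff₀ (by positivity)]
    have h4 : (0 : ℝ) ≤ HT sat S l * (h / 4) := by positivity
    nlinarith
  · rw [Tl_const_mul]
    refine (mul_le_mul_of_nonneg_left this (by positivity)).trans ?_
    rw [← mul_assoc]
    refine mul_le_mul_of_nonneg_right ?_ (Phi_nonneg _ _)
    rw [div_mul_div_comm, ← pow_succ]
    gcongr; norm_num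

end Crest.Agent.R153
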